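import Vale.Agent.P218D.Bas

/-! Block SL: Gaussian tails and the bad set. -/

open MeasureTheory Set Filter Topology Metric
open scoped ENNReal NNReal RealInnerProductSpace

namespace Vale.Agent.P218D

open Vale.Agent.P214 (proj IsApproxTangent)
open Vale.Agent.P218 Vale.Agent.P218.H313

variable {E : Type*} [NormedAddCommGroup E] [InnerProductSpace ℝ E] [FiniteDimensional ℝ E]
  [MeasurableSpace E] [BorelSpace E] {m : ℕ}

set_option linter.unusedSectionVars false

namespace Bad

lemma gauss_fin {b : ℝ} (hb : 0 < b) :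
    ∫⁻ y : E, ENNReal.ofReal (Real.exp (-b * ‖y‖ ^ 2)) < ⊤ := by
  have h := (GaussianFourier.integrable_cexp_neg_mul_sq_norm_add (V := E) (b := b)
    (by simpa) 0 0).norm
  refine (h.congr (g := fun y => Real.exp (-b * ‖y‖ ^ 2)) (.of_forall fun y => ?_)).lintegral_lt_top
  simp only [Complex.norm_exp]
  norm_cast
  simp

lemma ball_le {μ : Measure E} [IsFiniteMeasureOnCompacts μ] {C : ℝ} (h : Rat m μ C) (x : E) {t : ℝ}
    (h0 : 0 < t) (h1 : t ≤ 1) : μ (closedBall x t) ≤ ENNReal.ofReal (C * t ^ m) := by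
  rw [← ofReal_measureReal (isCompact_closedBall x t).measure_lt_top.ne]
  exact ENNReal.ofReal_le_ofReal (h x t h0 h1)

lemma total (C : ℝ) {η : ℝ} (hη : 0 < η) : ∃ C' : ℝ, 0 ≤ C' ∧ ∀ μ : Measure E,
    IsFiniteMeasureOnCompacts μ → Rat m μ C →
      ∫⁻ x, ENNReal.ofReal (Real.exp (-η * ‖x‖ ^ 2 / 4)) ∂μ ≤ ENNReal.ofReal C' := by
  set v := volume (closedBall (0 : E) 1)
  have v0 : v ≠ 0 := (measure_closedBall_pos _ _ one_pos).ne'
  have v1 : v ≠ ⊤ := (isCompact_closedBall _ _).measure_lt_top.ne
  set g : E → ℝ≥0∞ := fun y =>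
    ENNReal.ofReal (Real.exp (η / 4)) * ENNReal.ofReal (Real.exp (-(η / 8) * ‖y‖ ^ 2)) with hg
  have gm : Measurable g := by fun_prop
  have g1 : ∫⁻ y, g y * ENNReal.ofReal C ≠ ⊤ := by
    rw [lintegral_mul_const _ gm, lintegral_const_mul _ (by fun_prop)]
    exact ENNReal.mul_ne_top (ENNReal.mul_ne_top ENNReal.ofReal_ne_top
      (gauss_fin (by positivity)).ne) ENNReal.ofReal_ne_top
  refine ⟨((∫⁻ y, g y * ENNReal.ofReal C) / v).toReal, ENNReal.toReal_nonneg, fun μ _ hμ => ?_⟩
  rw [ENNReal.ofReal_toReal (ENNReal.div_ne_top g1 v0), ENNReal.le_div_iff_mul_le (.inl v0)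
    (.inl v1), ← lintegral_mul_const _ (by fun_prop)]
  have hS : MeasurableSet {p : E × E | dist p.2 p.1 ≤ 1} :=
    (isClosed_le (by fun_prop) continuous_const).measurableSet
  calc _ ≤ ∫⁻ x, (∫⁻ y, {p : E × E | dist p.2 p.1 ≤ 1}.indicator (fun p => g p.2) (x, y)) ∂μ := by
        refine lintegral_mono fun x => ?_
        rw [show v = volume (closedBall x 1) from (Measure.addHaar_closedBall_center _ _ _).symm,
          ← setLIntegral_const, ← lintegral_indicator measurableSet_closedBall]
        refine lintegral_mono fun y => ?_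
        by_cases hy : dist y x ≤ 1
        · rw [indicator_of_mem (mem_closedBall.2 hy), indicator_of_mem (by exact hy), hg]
          simp only
          rw [← ENNReal.ofReal_mul (Real.exp_pos _).le, ← Real.exp_add]
          refine ENNReal.ofReal_le_ofReal (Real.exp_le_exp.2 ?_)
          have h1 : ‖y‖ ≤ ‖x‖ + 1 := (norm_le_norm_add_norm_sub' y x).trans (by
            rw [← dist_eq_norm]; linarith)
          have h2 : ‖y‖ ^ 2 ≤ (‖x‖ + 1) ^ 2 := by gcongr
          nlinarith [sq_nonneg (‖x‖ - 1)]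
        · rw [indicator_of_notMem (by rwa [mem_closedBall])]
          exact zero_le
    _ = ∫⁻ y, ∫⁻ x, {p : E × E | dist p.2 p.1 ≤ 1}.indicator (fun p => g p.2) (x, y) ∂μ :=
        lintegral_lintegral_swap ((gm.comp measurable_snd).indicator hS).aemeasurable
    _ ≤ _ := by
        refine lintegral_mono fun y => ?_
        have : ∀ x, {p : E × E | dist p.2 p.1 ≤ 1}.indicator (fun p => g p.2) (x, y) =
            (closedBall y 1).indicator (fun _ => g y) x := fun x => by
          simp only [indicator, mem_ofPred, mem_closedBall, dist_comm]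
        simp only [this]
        rw [lintegral_indicator measurableSet_closedBall, setLIntegral_const]
        gcongr
        simpa using ball_le hμ y one_pos le_rfl

omit [InnerProductSpace ℝ E] [FiniteDimensional ℝ E] [MeasurableSpace E] [BorelSpace E] in
lemma rho_cmp {x y z : E} {R t : ℝ} (hx : ‖x‖ ≤ R) (ht : t ≤ 1) (hy : y ∈ closedBall x t)
    (hz : z ∈ closedBall x t) : Real.exp (-(R + 1)) * rho y ≤ rho z := by
  unfold rho
  rw [← Real.exp_add, Real.exp_le_exp]
  rw [mem_closedBall, dist_eq_norm] at hy hz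
  have h1 := norm_sub_norm_le z x
  have h2 := abs_le.1 ((abs_norm_sub_norm_le y x).trans hy)
  have h3 := norm_nonneg y
  have h4 := norm_nonneg z
  rcases le_total ‖z‖ ‖y‖ with h | h
  · nlinarith [norm_nonneg x]
  · nlinarith [mul_le_mul (show ‖z‖ - ‖y‖ ≤ 2 by linarith) (show ‖z‖ + ‖y‖ ≤ 2 * (R + 1) by linarith)
      (by positivity) (by norm_num)]

/-- the weighted maximal inequality -/
lemma maxi {μ : Measure E} [IsFiniteMeasureOnCompacts μ] {C a r₀ R : ℝ} (hC : 0 < C) (ha : 0 < a)
    (hr : r₀ ≤ 1) (h : Rat m μ C) {g : E → ℝ} (g0 : ∀ y, 0 ≤ g y)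
    (hg : Integrable (fun y => g y * rho y) μ) :
    μ.withDensity (fun x => ENNReal.ofReal (rho x))
        {x | ‖x‖ ≤ R ∧ ∃ t, 0 < t ∧ t ≤ r₀ ∧ a * t ^ m < ∫ y in closedBall x t, g y ∂μ}
      ≤ ENNReal.ofReal (P214.BES.nB E * (C / a) * Real.exp (R + 1) * ∫ y, g y * rho y ∂μ) := by
  have rm : Measurable fun x : E => ENNReal.ofReal (rho x) := continuous_rho.measurable.ennreal_ofReal
  have e : ∀ s : Set E, MeasurableSet s →
      ∫⁻ y in s, ENNReal.ofReal (g y) ∂(μ.withDensity fun x => ENNReal.ofReal (rho x)) =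
        ∫⁻ y in s, ENNReal.ofReal (g y * rho y) ∂μ := fun s hs => by
    rw [setLIntegral_withDensity_eq_setLIntegral_mul_non_measurable _ rm _ hs
      (.of_forall fun _ => ENNReal.ofReal_lt_top)]
    exact lintegral_congr fun y => by rw [Pi.mul_apply, mul_comm, ENNReal.ofReal_mul (g0 y)]
  have hq : 0 < Real.exp (-(R + 1)) * (a / C) := by positivity
  refine (P214.BES.weak_type_fun _ (fun y => ENNReal.ofReal (g y)) r₀ (ENNReal.ofReal _)
    (ENNReal.ofReal_pos.2 hq).ne' ENNReal.ofReal_ne_top univ .univ _ ?_).trans (le_of_eq ?_)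
  · rintro x ⟨hx, t, h0, h1, h2⟩
    refine ⟨t, h0, h1, subset_univ _, ?_⟩
    obtain ⟨z, hz, hz'⟩ := (isCompact_closedBall x t).exists_isMinOn
      ⟨x, mem_closedBall_self h0.le⟩ (continuous_rho (E := E)).continuousOn
    have z0 := rho_pos z
    rw [e _ measurableSet_closedBall, withDensity_apply _ measurableSet_closedBall,
      ← lintegral_const_mul _ rm]
    calc _ ≤ ∫⁻ _ in closedBall x t, ENNReal.ofReal (rho z * (a / C)) ∂μ :=
          setLIntegral_mono' measurableSet_closedBall fun y hy => by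
            rw [← ENNReal.ofReal_mul hq.le, mul_right_comm]
            gcongr
            exact rho_cmp hx (h1.trans hr) hy hz
      _ ≤ ENNReal.ofReal (rho z * (a / C)) * ENNReal.ofReal (C * t ^ m) := by
          rw [setLIntegral_const]
          gcongr
          exact ball_le h x h0 (h1.trans hr)
      _ ≤ ENNReal.ofReal (rho z) * ENNReal.ofReal (∫ y in closedBall x t, g y ∂μ) := by
          rw [← ENNReal.ofReal_mul (by positivity), ← ENNReal.ofReal_mul z0.le, mul_assoc,
            ← mul_assoc (a / C), div_mul_cancel₀ _ hC.ne']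
          gcongr
      _ ≤ ENNReal.ofReal (rho z) * ∫⁻ y in closedBall x t, ENNReal.ofReal (g y) ∂μ := by
          gcongr
          simpa only [← Real.enorm_eq_ofReal (g0 _), ← Real.enorm_eq_ofReal
            (integral_nonneg g0)] using enorm_integral_le_lintegral_enorm g
      _ ≤ _ := by
          rw [← lintegral_const_mul' _ _ ENNReal.ofReal_ne_top]
          refine setLIntegral_mono' measurableSet_closedBall fun y hy => ?_
          rw [← ENNReal.ofReal_mul z0.le, mul_comm]
          exact ENNReal.ofReal_le_ofReal (mul_le_mul_of_nonneg_left (hz' hy) (g0 y))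
  · rw [e _ .univ, Measure.restrict_univ, ← ofReal_integral_eq_lintegral_ofReal hg
      (.of_forall fun y => mul_nonneg (g0 y) (rho_pos y).le), ← ENNReal.ofReal_div_of_pos hq,
      ← ENNReal.ofReal_natCast, ← ENNReal.ofReal_mul (by positivity), Real.exp_neg]
    congr 1
    field_simp

end Bad

variable (E m)

theorem tail : TAIL E m := fun C η hη => by
  obtain ⟨C', h0, h⟩ := Bad.total (E := E) (m := m) C (lt_min hη one_pos)
  refine ⟨C', h0, fun μ h1 h2 R hR => ?_⟩
  calc _ ≤ ∫⁻ x in {x | R ≤ ‖x‖}, ENNReal.ofReal (Real.exp (-(1 - η) * R ^ 2 / 4)) *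
          ENNReal.ofReal (Real.exp (-min η 1 * ‖x‖ ^ 2 / 4)) ∂μ :=
        setLIntegral_mono' (isClosed_le continuous_const continuous_norm).measurableSet
          fun x hx => by
          rw [← ENNReal.ofReal_mul (Real.exp_pos _).le, ← Real.exp_add]
          refine ENNReal.ofReal_le_ofReal (Real.exp_le_exp.2 ?_)
          have h3 : R ^ 2 ≤ ‖x‖ ^ 2 := by gcongr; exact hx
          nlinarith [min_le_left η 1, min_le_right η 1, sq_nonneg R]
    _ ≤ _ := by
        rw [lintegral_const_mul' _ _ ENNReal.ofReal_ne_top, mul_comm, ENNReal.ofReal_mul h0]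
        gcongr
        exact (setLIntegral_le_lintegral _ _).trans (h μ h1 h2)

theorem bad : BAD E m := fun Cr a r₀ h hC ha _ hr hh => by
  set C₁ : ℝ := P214.BES.nB E * (Cr / a) * Real.exp 1 with hC₁
  have c0 : 0 ≤ C₁ := by positivity
  refine ⟨1 / h ^ 2 + C₁, by positivity, fun W c K μ T H R hW hS hI hR R0 => ?_⟩
  have := hS.mc.fin
  set ν := μ.withDensity fun x => ENNReal.ofReal (rho x) with hν
  set B := {x | x ∈ closedBall (0 : E) R ∧ ¬ Good m μ T H W R a r₀ h x} with hB
  refine ⟨closedBall 0 R \ toMeasurable ν B, measurableSet_closedBall.diff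
    (measurableSet_toMeasurable _ _), fun x hx => by_contra fun k =>
      hx.2 (subset_toMeasurable _ _ ⟨hx.1, k⟩), ?_⟩
  have i1 := int_DD hS hW 0
  have i2 := int_TG hS hW 0
  have i3 := hS.int_vel_sq
  simp only [wt, pow_zero, mul_one, one_mul] at i1 i2
  have i4 : ∀ y, gg T H W R y * rho y = ‖vel T H y‖ ^ 2 * rho y +
      (R + 1) ^ 2 * (‖proj (T y) (grad W y)‖ ^ 2 * rho y) := fun y => by unfold gg; ring
  have hm := Bad.maxi (R := R) hC ha hr hR (g := gg T H W R) (fun y => by unfold gg; positivity)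
    (by simp only [i4]; exact i3.add (i2.const_mul _))
  have hW' : MeasurableSet {x | h < |W x|} := (isOpen_lt continuous_const hW.cont.abs).measurableSet
  have hc : ν {x | h < |W x|} ≤ ENNReal.ofReal (1 / h ^ 2 * ∫ x, W x ^ 2 * rho x ∂μ) := by
    rw [withDensity_apply _ hW', ← integral_const_mul, ofReal_integral_eq_lintegral_ofReal
      (i1.const_mul _) (.of_forall fun x => by have := rho_pos x; positivity)]
    refine le_trans (setLIntegral_mono' hW' fun x hx => ENNReal.ofReal_le_ofReal ?_)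
      (setLIntegral_le_lintegral _ _)
    have h1 : h ^ 2 ≤ W x ^ 2 := by rw [← sq_abs (W x)]; gcongr; exact le_of_lt hx
    rw [← mul_assoc, one_div_mul_eq_div]
    exact le_mul_of_one_le_left (rho_pos x).le ((one_le_div (by positivity)).2 h1)
  have d0 : 0 ≤ ∫ x, W x ^ 2 * rho x ∂μ := integral_nonneg fun x => by have := rho_pos x; positivity
  have t0 : 0 ≤ ∫ y, ‖proj (T y) (grad W y)‖ ^ 2 * rho y ∂μ :=
    integral_nonneg fun x => by have := rho_pos x; positivity
  have v0 : 0 ≤ ∫ y, ‖vel T H y‖ ^ 2 * rho y ∂μ :=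
    integral_nonneg fun x => by have := rho_pos x; positivity
  simp only [i4] at hm
  rw [integral_add i3 (i2.const_mul _), integral_const_mul] at hm
  rw [← withDensity_apply _ (measurableSet_closedBall.diff (measurableSet_closedBall.diff
    (measurableSet_toMeasurable _ _)))]
  calc _ ≤ ν (toMeasurable ν B) := measure_mono fun x hx => by_contra fun k => hx.2 ⟨hx.1, k⟩
    _ ≤ ν ({x | h < |W x|} ∪ {x | ‖x‖ ≤ R ∧ ∃ t, 0 < t ∧ t ≤ r₀ ∧
          a * t ^ m < ∫ y in closedBall x t, gg T H W R y ∂μ}) := by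
        rw [measure_toMeasurable]
        refine measure_mono_ae ((withDensity_absolutelyContinuous _ _).ae_le ?_)
        filter_upwards [hS.dens, hI] with x h1 h2 hx
        have h3 := mem_closedBall_zero_iff.1 hx.1
        by_contra k
        exact hx.2 ⟨h1, h2, h3, not_lt.1 fun e => k (.inl e), fun t a1 a2 =>
          not_lt.1 fun e => k (.inr ⟨h3, t, a1, a2, e⟩)⟩
    _ ≤ _ := by
        refine (measure_union_le _ _).trans ((add_le_add hc hm).trans ?_)
        rw [← ENNReal.ofReal_add (by positivity) (by positivity)]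
        refine ENNReal.ofReal_le_ofReal ?_
        simp only [DD, TG, dis, wt, pow_zero, mul_one, one_mul]
        have e1 : (R + 1) ^ 2 ≤ Real.exp R ^ 2 := by gcongr; exact Real.add_one_le_exp R
        have e2 : 1 ≤ Real.exp R := Real.one_le_exp R0
        have e3 : Real.exp (3 * R) = Real.exp R * Real.exp R ^ 2 := by
          rw [← Real.exp_nat_mul, ← Real.exp_add]; congr 1; push_cast; ring
        have e4 : 1 ≤ Real.exp R ^ 2 := one_le_pow₀ e2
        rw [Real.exp_add, mul_comm (Real.exp R), ← mul_assoc, ← hC₁, e3, add_mul, add_mul]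
        refine add_le_add ?_ ?_
        · rw [mul_assoc]
          gcongr
          nlinarith [one_le_mul_of_one_le_of_one_le e2 e4]
        · rw [← mul_assoc, mul_assoc (C₁ * _)]
          gcongr
          nlinarith

end Vale.Agent.P218D
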