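import Vale.Agent.P218.H313.Final
import Vale.Agent.P218.H313.W2

/-! Block SL of the uniqueness theorem: definitions and the interface `LF`. -/

open MeasureTheory Set Filter Topology Metric
open scoped ENNReal NNReal RealInnerProductSpace

namespace Vale.Agent.P218D

open Vale.Agent.P214 (proj IsApproxTangent)
open Vale.Agent.P218 Vale.Agent.P218.H313
open Vale.Agent.P218.H63 (IsTubeShrinker stab)

variable {E : Type*} [NormedAddCommGroup E] [InnerProductSpace ℝ E] [FiniteDimensional ℝ E]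

/-- `TubeD` without the shrinker equation: a truncated signed distance function -/
structure TubeB (W : E → ℝ) (c K : ℝ) : Prop where
  cpos : 0 < c
  smooth : ContDiff ℝ 2 W
  b0 : ∀ x, |W x| ≤ K
  b1 : ∀ x, ‖grad W x‖ ≤ K
  b2 : ∀ x, ‖fderiv ℝ (grad W) x‖ ≤ K
  bx : ∀ x, |⟪x, grad W x⟫| ≤ K
  eik : ∀ x, |W x| < c → ‖grad W x‖ = 1

/-- the defect in the shrinker equation, corrected to first order off the zero set -/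
noncomputable def dft (W : E → ℝ) (x : E) : ℝ :=
  tr (fderiv ℝ (grad W) x) - 1 / 2 * ⟪x, grad W x⟫
    + (tr ((fderiv ℝ (grad W) x).comp (fderiv ℝ (grad W) x)) + 1 / 2) * W x

/-- the nearest point projection to `{W = 0}` (in the tube) -/
noncomputable def prj (W : E → ℝ) (x : E) : E := x - W x • grad W x

/-- its derivative -/
noncomputable def dpr (W : E → ℝ) (x : E) : E →L[ℝ] E :=
  ContinuousLinearMap.id ℝ E - (fderiv ℝ W x).smulRight (grad W x) - W x • fderiv ℝ (grad W) x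

/-- a lower bound for the Jacobian of `prj W` along the plane `P` -/
noncomputable def jlo (C : ℝ) (W : E → ℝ) (P : Submodule ℝ E) (x : E) : ℝ :=
  max (1 - W x * tr (fderiv ℝ (grad W) x) - C * (W x ^ 2 + ‖proj P (grad W x)‖ ^ 2)) 0

/-- squared velocity plus weighted squared tilt -/
noncomputable def gg (T : E → Submodule ℝ E) (H : E → E) (W : E → ℝ) (R : ℝ) (y : E) : ℝ :=
  ‖vel T H y‖ ^ 2 + (R + 1) ^ 2 * ‖proj (T y) (grad W y)‖ ^ 2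

/-- a defining function with uniform bounds near its zero set -/
structure Dfn (w : E → ℝ) (δ a C : ℝ) : Prop where
  dpos : 0 < δ
  apos : 0 < a
  smooth : ContDiff ℝ 2 w
  lo : ∀ x, |w x| < δ → a ≤ ‖grad w x‖
  b1 : ∀ x, |w x| < δ → ‖grad w x‖ ≤ C
  b2 : ∀ x, |w x| < δ → ‖fderiv ℝ (grad w) x‖ ≤ C
  bx : ∀ x, w x = 0 → |⟪x, grad w x⟫| ≤ C

/-- the shrinker quantity `H - ⟨x, ν⟩ / 2` of the level set of `w` through `x`,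
`ν = ∇w / |∇w|`, `H = div ν` -/
noncomputable def phiS (w : E → ℝ) (x : E) : ℝ :=
  (tr (fderiv ℝ (grad w) x) - ⟪fderiv ℝ (grad w) x (grad w x), grad w x⟫ / ‖grad w x‖ ^ 2
    - 1 / 2 * ⟪x, grad w x⟫) / ‖grad w x‖

/-- `f` and `g` are `ω`-close in `C²` on the ball of radius `1 / ω` -/
def Cl2 (ω : ℝ) (f g : E → ℝ) : Prop :=
  ∀ p : E, ‖p‖ ≤ ω⁻¹ → |f p - g p| ≤ ω ∧ ‖grad f p - grad g p‖ ≤ ω ∧
    ‖fderiv ℝ (grad f) p - fderiv ℝ (grad g) p‖ ≤ ω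

/-- the measure of the unit ball of `ℝ^m` -/
noncomputable def wm (m : ℕ) : ℝ≥0∞ :=
  (μH[m] : Measure (EuclideanSpace ℝ (Fin m))) (closedBall 0 1)

variable [MeasurableSpace E] [BorelSpace E]

/-- a tube function whose defect is `Φ` up to second order -/
structure Tub (W Φ : E → ℝ) (c K : ℝ) : Prop extends TubeB W c K where
  meas : Measurable Φ
  bp : ∀ x, |Φ x| ≤ K
  ric : ∀ x, |W x| < c → |dft W x - Φ x| ≤ K * W x ^ 2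

/-- `∫ Φ² ρ` -/
noncomputable def PP (μ : Measure E) (Φ : E → ℝ) : ℝ := ∫ x, Φ x ^ 2 * rho x ∂μ

/-- approximate tangent planes with integer multiplicity -/
def IntT (m : ℕ) (μ : Measure E) (T : E → Submodule ℝ E) : Prop :=
  ∀ᵐ x ∂μ, ∃ q : ℕ, IsApproxTangent m μ x q (T x)

/-- the area measure of the zero set -/
noncomputable def hm (m : ℕ) (W : E → ℝ) : Measure E :=
  (μH[m] : Measure E).restrict {x | W x = 0}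

/-- mass ratio bound -/
def Rat (m : ℕ) (μ : Measure E) (C : ℝ) : Prop :=
  ∀ (x : E) (r : ℝ), 0 < r → r ≤ 1 → μ.real (closedBall x r) ≤ C * r ^ m

/-- good points of a slice -/
structure Good (m : ℕ) (μ : Measure E) (T : E → Submodule ℝ E) (H : E → E) (W : E → ℝ)
    (R a r₀ h : ℝ) (x : E) : Prop where
  dens : ∀ c < om m, ∀ᶠ r in 𝓝[>] (0 : ℝ), c ≤ (∫ y, H313.ker (r⁻¹ • (y - x)) ∂μ) / r ^ m
  tan : ∃ q : ℕ, IsApproxTangent m μ x q (T x)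
  rad : ‖x‖ ≤ R
  ht : |W x| ≤ h
  mx : ∀ t, 0 < t → t ≤ r₀ → ∫ y in closedBall x t, gg T H W R y ∂μ ≤ a * t ^ m

/-- **The interface delivered by the PDE side.** `S = {w₀ = 0}` is the shrinker; for small
`x ∈ ℝ^k` and `ε > 0` the hypersurface `{w x ε = 0}` solves the shrinker equation up to
`∑ λ_i ψ_i` inside the ball of radius `Z`, and its Gaussian area obeys a Łojasiewicz bound. -/
structure LF (m k : ℕ) (S : Set E) (w₀ : E → ℝ) (δ₀ C₀ : ℝ) (ψ : Fin k → E → ℝ) (γ : ℝ)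
    (w : (Fin k → ℝ) → ℝ → E → ℝ) (lam : (Fin k → ℝ) → ℝ → Fin k → ℝ)
    (Z : (Fin k → ℝ) → ℝ → ℝ) (δ a r K : ℝ) : Prop where
  shr : IsTubeShrinker S w₀ δ₀ C₀
  psi : ∀ i, ContDiff ℝ 1 (ψ i) ∧ HasCompactSupport (ψ i)
  gam : 1 / 2 < γ
  rpos : 0 < r
  dfn0 : Dfn w₀ δ a K
  dfn : ∀ x ε, ‖x‖ ≤ r → 0 < ε → ε ≤ r → Dfn (w x ε) δ a K
  area : ∀ x ε, ‖x‖ ≤ r → 0 < ε → ε ≤ r →
    ∫⁻ p, ENNReal.ofReal (rho p) ∂(hm m (w x ε))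
      ≤ ENNReal.ofReal (FA (hm m w₀) + K * (‖lam x ε‖ ^ (2 * γ) + ε))
  cut : ∀ x ε, ‖x‖ ≤ r → 0 < ε → ε ≤ r →
    1 ≤ Z x ε ∧ Real.exp (-(Z x ε) ^ 2 / 8) ≤ K * (‖lam x ε‖ ^ 3 + ε)
  small : ∀ ω > 0, ∃ η > 0, ∀ x ε, ‖x‖ ≤ η → 0 < ε → ε ≤ η →
    ‖lam x ε‖ ≤ ω ∧ Cl2 ω (w x ε) w₀ ∧
      ∀ p, w x ε p = 0 → ‖p‖ ≤ Z x ε →
        |phiS (w x ε) p - ∑ i, lam x ε i * ψ i p| ≤ ω * ‖lam x ε‖
  gauge : ∃ r₁ > 0, ∀ r', 0 < r' → r' ≤ r₁ → ∃ ε₀ > 0, ∀ ε, 0 < ε → ε ≤ ε₀ →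
    (∀ i p, ψ i p ≠ 0 → ContinuousOn (fun x => w x ε p) (closedBall 0 r')) ∧
      ∀ x, ‖x‖ ≤ r' → ∀ i, |∫ p, w x ε p * ψ i p * rho p ∂(hm m w₀) + x i| ≤ r' / 4
  nd : ∀ (u : E → ℝ) (l : Fin k → ℝ), AEStronglyMeasurable u (hm m w₀) →
    Integrable (fun p => u p ^ 2 * rho p) (hm m w₀) →
    (∀ ζ : E → ℝ, ContDiff ℝ 2 ζ → HasCompactSupport ζ →
      ∫ p, u p * stab w₀ ζ p * rho p ∂(hm m w₀)
        = ∫ p, (∑ i, l i * ψ i p) * ζ p * rho p ∂(hm m w₀)) →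
    (∀ i, ∫ p, u p * ψ i p * rho p ∂(hm m w₀) = 0) → u =ᵐ[hm m w₀] 0 ∧ l = 0

/-- the same interface in terms of signed distance functions `W`; `V` is used for the gauge -/
structure LFW (m k : ℕ) (W₀ : E → ℝ) (ψ : Fin k → E → ℝ) (γ : ℝ)
    (W V : (Fin k → ℝ) → ℝ → E → ℝ) (lam : (Fin k → ℝ) → ℝ → Fin k → ℝ)
    (Z : (Fin k → ℝ) → ℝ → ℝ) (c Rψ r K : ℝ) : Prop where
  shr : TubeD W₀ c K
  psi : ∀ i, Continuous (ψ i) ∧ ∀ p, Rψ ≤ ‖p‖ → ψ i p = 0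
  gam : 1 / 2 < γ
  rpos : 0 < r
  tube : ∀ x ε, ‖x‖ ≤ r → 0 < ε → ε ≤ r → TubeB (W x ε) c K
  vc : ∀ x ε, ‖x‖ ≤ r → 0 < ε → ε ≤ r → Continuous (V x ε) ∧
    (∀ p, ‖p‖ ≤ Rψ → |V x ε p| ≤ K) ∧
      ∀ p p', ‖p‖ ≤ Rψ → ‖p'‖ ≤ Rψ → |V x ε p - V x ε p'| ≤ K * ‖p - p'‖
  area : ∀ x ε, ‖x‖ ≤ r → 0 < ε → ε ≤ r →
    ∫⁻ p, ENNReal.ofReal (rho p) ∂(hm m (W x ε))
      ≤ ENNReal.ofReal (FA (hm m W₀) + K * (‖lam x ε‖ ^ (2 * γ) + ε))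
  cut : ∀ x ε, ‖x‖ ≤ r → 0 < ε → ε ≤ r →
    0 ≤ Z x ε ∧ Real.exp (-(Z x ε) ^ 2 / 6) ≤ K * (‖lam x ε‖ ^ 3 + ε)
  small : ∀ ω > 0, ∃ η > 0, ∀ x ε, ‖x‖ ≤ η → 0 < ε → ε ≤ η →
    ‖lam x ε‖ ≤ ω ∧ Cl2 ω (W x ε) W₀ ∧
      (∀ p, ‖p‖ ≤ Rψ → |V x ε p - W x ε p| ≤ ω * |W x ε p| + K * W x ε p ^ 2) ∧
      ∀ p, |W x ε p| < c → ‖p‖ ≤ Z x ε →
        |dft (W x ε) p - ∑ i, lam x ε i * ψ i p| ≤ K * W x ε p ^ 2 + ω * ‖lam x ε‖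
  gauge : ∃ r₁ > 0, ∀ r', 0 < r' → r' ≤ r₁ → ∃ ε₀ > 0, ∀ ε, 0 < ε → ε ≤ ε₀ →
    (∀ i p, ψ i p ≠ 0 → ContinuousOn (fun x => V x ε p) (closedBall 0 r')) ∧
      ∀ x, ‖x‖ ≤ r' → ∀ i, |∫ p, V x ε p * ψ i p * rho p ∂(hm m W₀) + x i| ≤ r' / 4
  nd : ∀ (u : E → ℝ) (l : Fin k → ℝ), AEStronglyMeasurable u (hm m W₀) →
    Integrable (fun p => u p ^ 2 * rho p) (hm m W₀) →
    (∀ ζ : E → ℝ, ContDiff ℝ 2 ζ → HasCompactSupport ζ →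
      ∫ p, u p * jac W₀ ζ p * rho p ∂(hm m W₀)
        = ∫ p, (∑ i, l i * ψ i p) * ζ p * rho p ∂(hm m W₀)) →
    (∀ i, ∫ p, u p * ψ i p * rho p ∂(hm m W₀) = 0) → u =ᵐ[hm m W₀] 0 ∧ l = 0

/-- good times whose slices are integral and weakly close to `κ` -/
noncomputable def nearI (m : ℕ) (N : ℝ → Measure E) (T : ℝ → E → Submodule ℝ E) (H : ℝ → E → E)
    (κ : Measure E) : Filter ℝ :=
  nearF m N T H κ ⊓ 𝓟 {s | IntT m (N s) (T s)}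

end Vale.Agent.P218D
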