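import Vale.Agent.P218D.Sd

/-! Block SL, row LW: from defining functions to signed distances (helper84). -/

open MeasureTheory Set Filter Topology Metric
open scoped RealInnerProductSpace

set_option linter.all false

noncomputable section

namespace Vale.Agent.P218D

open Vale.Agent.P218 Vale.Agent.P218.H313 Sd
open Vale.Agent.P218.H63 (IsTubeShrinker stab)

variable {E : Type*} [NormedAddCommGroup E] [InnerProductSpace ℝ E] [FiniteDimensional ℝ E]

theorem jt_congr {u v : E → ℝ} {x : E} (h : u =ᶠ[𝓝 x] v) : jt u x = jt v x := by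
  have e : grad u =ᶠ[𝓝 x] grad v := h.fderiv.mono fun y hy => congrArg (riesz E) hy
  rw [jt, jt, h.eq_of_nhds, e.eq_of_nhds, e.fderiv_eq]

theorem TubeB.prj_norm {W : E → ℝ} {c K : ℝ} (h : TubeB W c K) {p : E} (hp : |W p| < c) :
    ‖prj W p - p‖ = |W p| := by
  rw [prj, sub_sub_cancel_left, norm_neg, norm_smul, h.eik p hp, mul_one, Real.norm_eq_abs]

theorem phiS_zero {S : Set E} {w : E → ℝ} {δ C : ℝ} (h : IsTubeShrinker S w δ C) {p : E}
    (hp : w p = 0) : phiS w p = 0 := by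
  have c2 : ContDiff ℝ 2 w := h.smooth.of_le (by norm_num)
  have a := eik_hess c2 ((c2.continuous.abs.continuousAt.eventually_lt_const
    (show |w p| < δ by simpa [hp] using h.pos)).mono h.norm_grad)
  have b : tr (fderiv ℝ (grad w) p) = ⟪p, grad w p⟫ / 2 := h.shrinker p ((h.mem_iff p).2 hp)
  rw [phiS, a, b, inner_zero_left]
  ring

theorem lw_of (E : Type*) [NormedAddCommGroup E] [InnerProductSpace ℝ E] [FiniteDimensional ℝ E]
    [MeasurableSpace E] [BorelSpace E] (m : ℕ) (hs : SD E) : LW E m := by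
  intro k S w₀ δ₀ C₀ ψ γ w lam Z δ a r K h
  obtain ⟨c, Ks, c0, c1, sd, s1, s2, s3⟩ := hs δ a K h.dfn0.dpos h.dfn0.apos
  have hz : ∀ v, Dfn v δ a K → hm m (sd v) = hm m v := fun v hv => by
    simp only [hm, (s1 v hv).2.1]
  have S0 := (s1 _ h.dfn0).1.K_nonneg
  obtain ⟨R, R0, hR⟩ : ∃ R, 0 < R ∧ ∀ i p, R ≤ ‖p‖ → ψ i p = 0 := by
    obtain ⟨R, R0, hR⟩ := (Bornology.isBounded_iUnion.2 fun i =>
      (h.psi i).2.isBounded).subset_ball_lt 0 0
    exact ⟨R, R0, fun i p hp => image_eq_zero_of_notMem_tsupport fun e =>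
      (mem_ball_zero_iff.1 (hR (mem_iUnion.2 ⟨i, e⟩))).not_ge hp⟩
  choose L hL using fun i => ContDiff.lipschitzWith_of_hasCompactSupport (h.psi i).2 (h.psi i).1
    one_ne_zero
  haveI := FiniteDimensional.proper_real E
  obtain ⟨B, hB⟩ := (isCompact_closedBall (0 : E) R).exists_bound_of_continuousOn
    (jt_cont h.dfn0.smooth).continuousOn
  have B0 : 0 ≤ B := (norm_nonneg _).trans (hB 0 (mem_closedBall_self R0.le))
  obtain ⟨η₁, η₁0, h₁⟩ := h.small (R + 1)⁻¹ (by positivity)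
  have bd : ∀ x ε, ‖x‖ ≤ η₁ → 0 < ε → ε ≤ η₁ → ∀ p, ‖p‖ ≤ R → ‖jt (w x ε) p‖ ≤ B + 1 :=
    fun x ε x1 ε0 ε1 p hp => by
      have := cl2_iff.1 (h₁ x ε x1 ε0 ε1).2.1 p (by rw [inv_inv]; linarith)
      linarith [norm_le_norm_add_norm_sub' (jt (w x ε) p) (jt w₀ p),
        hB p (mem_closedBall_zero_iff.2 hp), inv_le_one_of_one_le₀ (show 1 ≤ R + 1 by linarith)]
  have p1 : 0 ≤ (B + 1 + Ks) / c ^ 2 := by positivity
  have p2 := sq_nonneg (∑ i, (L i : ℝ))
  have p3 := abs_nonneg K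
  obtain ⟨K', hK⟩ : ∃ K', K' = Ks + (B + 1) + 3 * |K| + (B + 1 + Ks) / c ^ 2 +
    (∑ i, (L i : ℝ)) ^ 2 := ⟨_, rfl⟩
  have k1 : Ks ≤ K' := by linarith
  have dfn : ∀ x ε, ‖x‖ ≤ min r η₁ → 0 < ε → ε ≤ min r η₁ → Dfn (w x ε) δ a K :=
    fun x ε x1 ε0 ε1 => h.dfn x ε (x1.trans (min_le_left _ _)) ε0 (ε1.trans (min_le_left _ _))
  have T0 := (s1 _ h.dfn0).1.mono c0 le_rfl k1
  refine ⟨sd w₀, fun x ε => sd (w x ε), c, R, min r η₁, K',
    fun x => ((s1 _ h.dfn0).2.1 x).trans (h.shr.mem_iff x).symm,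
    ⟨c0, T0.smooth, T0.b0, T0.b1, T0.b2, T0.bx, T0.eik, fun x hx => ?_⟩,
    fun i => ⟨(h.psi i).1.continuous, hR i⟩, h.gam, lt_min h.rpos η₁0,
    fun x ε x1 ε0 ε1 => (s1 _ (dfn x ε x1 ε0 ε1)).1.mono c0 le_rfl k1, fun x ε x1 ε0 ε1 => ?_,
    fun x ε x1 ε0 ε1 => ?_, fun x ε x1 ε0 ε1 => ?_, fun ω ω0 => ?_, hz _ h.dfn0 ▸ h.gauge, ?_⟩
  · obtain ⟨a1, a2, -⟩ := (s1 _ h.dfn0).2.2 x hx
    rw [phiS_zero h.shr a1, sub_zero] at a2
    exact a2.trans (mul_le_mul_of_nonneg_right k1 (sq_nonneg _))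
  · have b := bd x ε (x1.trans (min_le_right _ _)) ε0 (ε1.trans (min_le_right _ _))
    have cw := (dfn x ε x1 ε0 ε1).smooth
    refine ⟨cw.continuous, fun p hp => ((norm_fst_le _).trans (b p hp)).trans (by linarith),
      fun p p' hp hp' => (convex_closedBall (0 : E) R).norm_image_sub_le_of_norm_hasFDerivWithin_le
        (𝕜 := ℝ) (fun z _ => (has_grad cw z).hasFDerivWithinAt) (fun z hz => ?_)
        (mem_closedBall_zero_iff.2 hp') (mem_closedBall_zero_iff.2 hp)⟩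
    rw [innerSL_apply_norm]
    exact (((norm_fst_le _).trans (norm_snd_le _)).trans
      (b z (mem_closedBall_zero_iff.1 hz))).trans (by linarith)
  · rw [hz _ (dfn x ε x1 ε0 ε1), hz _ h.dfn0]
    refine (h.area x ε (x1.trans (min_le_left _ _)) ε0 (ε1.trans (min_le_left _ _))).trans
      (ENNReal.ofReal_le_ofReal (add_le_add le_rfl (mul_le_mul_of_nonneg_right ?_ (by positivity))))
    linarith [le_abs_self K]
  · obtain ⟨z1, z2⟩ := h.cut x ε (x1.trans (min_le_left _ _)) ε0 (ε1.trans (min_le_left _ _))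
    refine ⟨sub_nonneg.2 z1, (Real.exp_le_exp.2 (show _ ≤ 1 + -Z x ε ^ 2 / 8 by
      nlinarith [sq_nonneg (Z x ε - 4)])).trans ?_⟩
    have q0 : 0 ≤ ‖lam x ε‖ ^ 3 + ε := by positivity
    rw [Real.exp_add]
    refine (mul_le_mul (Real.exp_one_lt_d9.le.trans (show _ ≤ 3 by norm_num)) (z2.trans
      (mul_le_mul_of_nonneg_right (le_abs_self K) q0)) (Real.exp_pos _).le (by norm_num)).trans ?_
    rw [← mul_assoc]
    exact mul_le_mul_of_nonneg_right (by linarith) q0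
  · obtain ⟨η₂, η₂0, h₂⟩ := s3 _ h.dfn0 ω ω0
    have δ0 := h.shr.pos
    obtain ⟨ω', ω'0, o1, o2, o3, o4⟩ : ∃ ω', 0 < ω' ∧ ω' ≤ ω / 2 ∧ ω' ≤ η₂ ∧ ω' ≤ δ₀ / 2 ∧
        ω' ≤ (R + 1)⁻¹ := ⟨min (min (ω / 2) η₂) (min (δ₀ / 2) (R + 1)⁻¹), by positivity,
      by simp, by simp, by simp, by simp⟩
    obtain ⟨η₃, η₃0, h₃⟩ := h.small ω' ω'0
    refine ⟨min (min r η₁) η₃, by positivity [h.rpos], fun x ε x1 ε0 ε1 => ?_⟩
    have d := dfn x ε (x1.trans (min_le_left _ _)) ε0 (ε1.trans (min_le_left _ _))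
    obtain ⟨l1, l2, l3⟩ := h₃ x ε (x1.trans (min_le_right _ _)) ε0 (ε1.trans (min_le_right _ _))
    obtain ⟨T, -, t⟩ := s1 _ d
    have n : ∀ p, |sd (w x ε) p| < c → ‖prj (sd (w x ε)) p‖ ≤ ‖p‖ + 1 := fun p hp => by
      linarith [norm_le_norm_add_norm_sub' (prj (sd (w x ε)) p) p, T.prj_norm hp]
    refine ⟨by linarith, h₂ _ d (cl2_iff.2 fun p hp => (cl2_iff.1 l2 p
      (hp.trans (inv_anti₀ ω'0 o2))).trans o2), fun p hp => ?_, fun p hp hZ => ?_⟩
    · rcases lt_or_ge |sd (w x ε) p| c with e | e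
      · obtain ⟨t1, -, t3⟩ := t p e
        obtain ⟨u1, u2, -⟩ := l2 _ ((n p e).trans ((add_le_add hp le_rfl).trans
          (le_inv_of_le_inv₀ ω'0 o4)))
        rw [t1, zero_sub, abs_neg] at u1
        have u3 := abs_norm_sub_norm_le (grad (w x ε) (prj (sd (w x ε)) p))
          (grad w₀ (prj (sd (w x ε)) p))
        rw [show ‖grad w₀ _‖ = 1 from h.shr.norm_grad _ (by linarith)] at u3
        have u4 := mul_le_mul_of_nonneg_right (u3.trans (u2.trans (by linarith : ω' ≤ ω)))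
          (abs_nonneg (sd (w x ε) p))
        rw [← abs_mul, sub_mul, one_mul] at u4
        linarith [abs_sub_le (w x ε p) (‖grad (w x ε) (prj (sd (w x ε)) p)‖ * sd (w x ε) p)
          (sd (w x ε) p), mul_le_mul_of_nonneg_right k1 (sq_nonneg (sd (w x ε) p))]
      · have b : |w x ε p| ≤ B + 1 := (norm_fst_le (jt (w x ε) p)).trans (bd x ε (x1.trans
          ((min_le_left _ _).trans (min_le_right _ _))) ε0 (ε1.trans ((min_le_left _ _).trans
            (min_le_right _ _))) p hp)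
        have b2 := mul_le_mul (show (B + 1 + Ks) / c ^ 2 ≤ K' by linarith)
          (pow_le_pow_left₀ c0.le e 2) (sq_nonneg _) (S0.trans k1)
        rw [div_mul_cancel₀ _ (by positivity), sq_abs] at b2
        linarith [abs_sub (w x ε p) (sd (w x ε) p), T.b0 p, mul_nonneg ω0.le
          (abs_nonneg (sd (w x ε) p))]
    · obtain ⟨t1, t2, -⟩ := t p hp
      have u1 := l3 _ t1 ((n p hp).trans (by linarith))
      have u2 : |∑ i, lam x ε i * ψ i (prj (sd (w x ε)) p) - ∑ i, lam x ε i * ψ i p| ≤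
          ‖lam x ε‖ * ((∑ i, (L i : ℝ)) * |sd (w x ε) p|) := by
        rw [← Finset.sum_sub_distrib, Finset.sum_mul, Finset.mul_sum]
        refine (Finset.abs_sum_le_sum_abs _ _).trans (Finset.sum_le_sum fun i _ => ?_)
        rw [← mul_sub, abs_mul, ← T.prj_norm hp]
        exact mul_le_mul (norm_le_pi_norm (lam x ε) i) ((hL i).norm_sub_le _ _) (abs_nonneg _)
          (norm_nonneg _)
      have u3 := mul_le_mul_of_nonneg_right l1 (norm_nonneg (lam x ε))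
      have u4 := mul_le_mul_of_nonneg_right o1 (norm_nonneg (lam x ε))
      have u5 := mul_le_mul_of_nonneg_right (show Ks + (∑ i, (L i : ℝ)) ^ 2 ≤ K' by linarith)
        (sq_nonneg (sd (w x ε) p))
      have u6 := sq_nonneg (‖lam x ε‖ - (∑ i, (L i : ℝ)) * |sd (w x ε) p|)
      rw [sub_sq, mul_pow, sq_abs] at u6
      linarith [abs_sub_le (dft (sd (w x ε)) p) (phiS (w x ε) (prj (sd (w x ε)) p))
        (∑ i, lam x ε i * ψ i p), abs_sub_le (phiS (w x ε) (prj (sd (w x ε)) p))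
        (∑ i, lam x ε i * ψ i (prj (sd (w x ε)) p)) (∑ i, lam x ε i * ψ i p),
        (abs_nonneg _).trans u2]
  rw [hz _ h.dfn0]
  refine fun u l u1 u2 u3 => h.nd u l u1 u2 fun ζ z1 z2 => (integral_congr_ae ?_).trans (u3 ζ z1 z2)
  filter_upwards [ae_restrict_mem (isClosed_eq h.dfn0.smooth.continuous
    continuous_const).measurableSet] with p hp
  have e := jt_congr (s2 _ h.dfn0 δ₀ h.shr.pos h.shr.norm_grad p hp)
  simp only [jt, Prod.mk.injEq] at e
  rw [jac, e.2.2, e.2.1, stab, one_div_mul_eq_div]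
  rfl

theorem lw (E : Type*) [NormedAddCommGroup E] [InnerProductSpace ℝ E] [FiniteDimensional ℝ E]
    [MeasurableSpace E] [BorelSpace E] (m : ℕ) : LW E m := lw_of E m (sd E)

end Vale.Agent.P218D
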