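import Vale.Agent.P218D.Bas

/-! Block SL: densities of the zero set of a tube function. -/

open MeasureTheory Set Filter Topology Metric
open scoped ENNReal NNReal RealInnerProductSpace

namespace Vale.Agent.P218D

open Vale.Agent.P214 (proj IsApproxTangent)
open Vale.Agent.P218 Vale.Agent.P218.H313

set_option linter.unusedSectionVars false
set_option linter.unusedVariables false

variable {E : Type*} [NormedAddCommGroup E] [InnerProductSpace ℝ E] [FiniteDimensional ℝ E]
  [MeasurableSpace E] [BorelSpace E]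
variable {m : ℕ} {c K : ℝ} {W : E → ℝ}

/-- the measure of a disc -/
lemma plane_ball {P : Submodule ℝ E} (hP : Module.finrank ℝ P = m) {s : ℝ} (hs : 0 ≤ s) :
    (μH[m] : Measure E) ((P : Set E) ∩ closedBall 0 s) = ENNReal.ofReal (s ^ m) * wm m := by
  have := isAddHaar_euc m
  let b := (stdOrthonormalBasis ℝ P).reindex (finCongr hP)
  let i : EuclideanSpace ℝ (Fin m) →ₗᵢ[ℝ] E := P.subtypeₗᵢ.comp b.repr.symm.toLinearIsometry
  have e : (P : Set E) ∩ closedBall 0 s = i '' closedBall 0 s := by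
    ext y
    refine ⟨fun h => ⟨b.repr ⟨y, h.1⟩, ?_, by simp [i]⟩, ?_⟩
    · simpa using h.2
    · rintro ⟨p, hp, rfl⟩
      exact ⟨(b.repr.symm p).2, by simpa using hp⟩
  rw [e, i.isometry.hausdorffMeasure_image (.inl (Nat.cast_nonneg m)),
    Measure.addHaar_closedBall' _ _ hs, finrank_euclideanSpace_fin, wm]

namespace Zs

lemma map_le {A T : Set E} (hA : MeasurableSet A) {q : E → E} (hq : Measurable q)
    (hT : ∀ y, q y ∈ T) {L : ℝ} (hL : 0 ≤ L)
    (h : ∀ y ∈ A, ∀ y' ∈ A, dist y y' ≤ L * dist (q y) (q y')) :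
    ((μH[m] : Measure E).restrict A).map q ≤
      ENNReal.ofReal (L ^ m) • (μH[m] : Measure E).restrict T := by
  refine Measure.le_iff.2 fun s hs => ?_
  have a : AntilipschitzWith L.toNNReal fun y : A => q y :=
    .of_le_mul_dist fun y y' => by rw [Real.coe_toNNReal _ hL]; exact h y y.2 y' y'.2
  have e : Subtype.val '' ((fun y : A => q y) ⁻¹' (s ∩ T)) = q ⁻¹' s ∩ A :=
    Set.ext fun y => ⟨fun ⟨z, hz, e⟩ => e ▸ ⟨hz.1, z.2⟩, fun hy => ⟨⟨y, hy.2⟩, ⟨hy.1, hT y⟩, rfl⟩⟩
  rw [Measure.map_apply hq hs, Measure.restrict_apply (hq hs), Measure.smul_apply,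
    Measure.restrict_apply hs, smul_eq_mul, ← e,
    isometry_subtype_coe.hausdorffMeasure_image (.inl (Nat.cast_nonneg m))]
  refine (a.hausdorffMeasure_preimage_le (Nat.cast_nonneg m) _).trans_eq ?_
  rw [ENNReal.rpow_natCast, ENNReal.ofReal_pow hL]
  rfl

lemma plane (hE : Module.finrank ℝ E = m + 1) {g : E} (hg : ‖g‖ = 1) : ∃ T : Submodule ℝ E,
    Module.finrank ℝ T = m ∧ (∀ v, proj T v = v - ⟪g, v⟫ • g) ∧ ∀ v ∈ T, ⟪g, v⟫ = 0 := by
  have : Fact (Module.finrank ℝ E = m + 1) := ⟨hE⟩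
  refine ⟨(ℝ ∙ g)ᗮ, Submodule.finrank_orthogonal_span_singleton (norm_ne_zero_iff.1 (by simp [hg])),
    fun v => ?_, fun v hv => Submodule.mem_orthogonal_singleton_iff_inner_right.1 hv⟩
  exact (Submodule.starProjection_orthogonal_val v).trans
    (by rw [Submodule.starProjection_unit_singleton ℝ hg])

lemma upper (hE : Module.finrank ℝ E = m + 1) (hW : TubeB W c K) {L r : ℝ} (hr : 0 < r)
    (hL : 0 ≤ L) (h : 1 ≤ L * (1 - K * (2 * r))) (y : E) :
    ∫⁻ z, ENNReal.ofReal (H313.ker (r⁻¹ • (z - y))) ∂(hm m W)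
      ≤ ENNReal.ofReal (L ^ m * om m * r ^ m) := by
  have mA : MeasurableSet ({x | W x = 0} ∩ closedBall y r) :=
    (hW.isClosed_zero.inter isClosed_closedBall).measurableSet
  have e : ∫⁻ z, ENNReal.ofReal (H313.ker (r⁻¹ • (z - y))) ∂(hm m W) =
      ∫⁻ z in {x | W x = 0} ∩ closedBall y r, ENNReal.ofReal (H313.ker (r⁻¹ • (z - y))) ∂μH[m] := by
    rw [inter_comm, ← Measure.restrict_restrict measurableSet_closedBall, hm]
    refine (setLIntegral_eq_of_support_subset fun z hz => ?_).symm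
    by_contra h'
    rw [mem_closedBall_iff_norm, not_le] at h'
    refine hz ?_
    beta_reduce
    rw [ker_eq_zero, ENNReal.ofReal_zero]
    rw [norm_smul, norm_inv, Real.norm_of_nonneg hr.le, le_inv_mul_iff₀ hr, mul_one]
    exact h'.le
  rw [e]
  rcases ({x | W x = 0} ∩ closedBall y r).eq_empty_or_nonempty with h0 | ⟨p, hp, hp'⟩
  · simp [h0]
  have g1 : ‖grad W p‖ = 1 := hW.eik p (by rw [hp.out, abs_zero]; exact hW.cpos)
  obtain ⟨T, hT, hT', -⟩ := plane hE g1
  have qc : Measurable fun z => proj T (z - y) := by fun_prop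
  have mk : Measurable fun z : E => ENNReal.ofReal (H313.ker (r⁻¹ • z)) :=
    (continuous_ker.comp (continuous_const_smul _)).measurable.ennreal_ofReal
  have sb : closedBall y r ⊆ closedBall p (2 * r) :=
    closedBall_subset_closedBall' (by rw [dist_comm]; linarith [mem_closedBall.1 hp'])
  have k := map_le (m := m) mA qc (fun z => H552.proj_mem T _) hL fun z hz z' hz' => by
    have h1 := hW.flat (sb hz.2) (sb hz'.2) hz.1 hz'.1
    have h2 := norm_add_le (proj T (z - z')) (⟪grad W p, z - z'⟫ • grad W p)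
    rw [norm_smul, g1, mul_one, Real.norm_eq_abs, show proj T (z - z') + _ = z - z' by
      rw [hT', sub_add_cancel]] at h2
    rw [dist_eq_norm, dist_eq_norm, ← map_sub, sub_sub_sub_cancel_right]
    nlinarith [norm_nonneg (z - z')]
  refine (lintegral_mono fun z => ENNReal.ofReal_le_ofReal (ker_anti (z := r⁻¹ • proj T (z - y))
    ?_)).trans ((lintegral_map mk qc).symm.trans_le ((lintegral_mono' k le_rfl).trans_eq ?_))
  · rw [norm_smul, norm_smul]
    exact mul_le_mul_of_nonneg_left (norm_proj_apply_le T _) (norm_nonneg _)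
  · rw [lintegral_smul_measure, smul_eq_mul, lintegral_ker_plane hT hr,
      ← ENNReal.ofReal_mul (by positivity), mul_comm (r ^ m), mul_assoc]

lemma unif (hE : Module.finrank ℝ E = m + 1) (c : ℝ) (hK : 0 ≤ K) {η : ℝ} (hη : 0 < η) :
    ∃ r₁ > 0, ∀ W : E → ℝ, TubeB W c K → ∀ (y : E) (r : ℝ), 0 < r → r ≤ r₁ →
      ∫⁻ z, ENNReal.ofReal (H313.ker (r⁻¹ • (z - y))) ∂(hm m W)
        ≤ ENNReal.ofReal ((1 + η) * om m * r ^ m) := by
  obtain ⟨ε, he, ε0⟩ : ∃ ε : ℝ, (1 + ε) ^ m < 1 + η ∧ 0 < ε := by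
    have : ContinuousAt (fun ε : ℝ => (1 + ε) ^ m) 0 := by fun_prop
    exact (((this.eventually_lt_const (show _ < 1 + η by simpa using hη)).filter_mono
      nhdsWithin_le_nhds).and (eventually_mem_nhdsWithin (a := (0 : ℝ)) (s := Ioi 0))).exists
  refine ⟨ε / (2 * (K + 1) * (1 + ε)), by positivity, fun W hW y r hr h =>
    (upper hE hW hr (L := 1 + ε) (by positivity) ?_ y).trans (ENNReal.ofReal_le_ofReal ?_)⟩
  · rw [le_div_iff₀ (by positivity)] at h
    nlinarith [mul_pos hr ε0]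
  · have : 0 ≤ om m := integral_nonneg fun p => ker_nonneg _
    gcongr

lemma lower (hE : Module.finrank ℝ E = m + 1) (hW : TubeB W c K) {y : E} (hy : W y = 0) {θ : ℝ}
    (h0 : 0 < θ) (h1 : θ < 1) : ∀ᶠ r in 𝓝[>] (0 : ℝ),
      ENNReal.ofReal ((θ * r) ^ m) * wm m ≤ hm m W (closedBall y r) := by
  have g1 : ‖grad W y‖ = 1 := hW.eik y (by rw [hy, abs_zero]; exact hW.cpos)
  obtain ⟨T, hT, hT', hT2⟩ := plane hE g1
  obtain ⟨δ, δ0, hδ⟩ := Metric.eventually_nhds_iff.1
    ((hW.diff y).hasFDerivAt.isLittleO.def (c := 1 - θ) (by linarith))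
  filter_upwards [Ioo_mem_nhdsGT δ0] with r hr
  have r0 := hr.1
  have l : LipschitzWith 1 fun z => proj T (z - y) := .mk_one fun z z' => by
    rw [dist_eq_norm, dist_eq_norm, ← map_sub, sub_sub_sub_cancel_right]
    exact norm_proj_apply_le T _
  rw [← plane_ball hT (by positivity), hm, Measure.restrict_apply measurableSet_closedBall]
  refine (measure_mono fun v hv => ?_).trans ((l.hausdorffMeasure_image_le (Nat.cast_nonneg m)
    (closedBall y r ∩ {x | W x = 0})).trans_eq (by simp))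
  have n : ∀ t, |t| ≤ (1 - θ) * r → ‖v + t • grad W y‖ ≤ r := fun t ht => by
    have := norm_add_le v (t • grad W y)
    rw [norm_smul, g1, mul_one, Real.norm_eq_abs] at this
    linarith [mem_closedBall_zero_iff.1 hv.2]
  have i : ∀ t : ℝ, ⟪grad W y, v + t • grad W y⟫ = t := fun t => by
    rw [inner_add_right, hT2 v hv.1, real_inner_smul_right, real_inner_self_eq_norm_sq, g1]
    ring
  have k : ∀ t, |t| ≤ (1 - θ) * r → |W (y + (v + t • grad W y)) - t| ≤ (1 - θ) * r := fun t ht => by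
    have := hδ (y := y + (v + t • grad W y)) (by simpa using (n t ht).trans_lt hr.2)
    rw [hy, sub_zero, add_sub_cancel_left, ← inner_grad, i] at this
    exact this.trans (mul_le_mul_of_nonneg_left (n t ht) (by linarith))
  have p : 0 ≤ (1 - θ) * r := mul_nonneg (by linarith) r0.le
  obtain ⟨t, ht, ht'⟩ := intermediate_value_Icc (f := fun t : ℝ => W (y + (v + t • grad W y)))
    (neg_le_self p) (hW.cont.comp (by fun_prop)).continuousOn (show (0 : ℝ) ∈ _ from ⟨by
      linarith [(abs_le.1 (k (-((1 - θ) * r)) (by rw [abs_neg, abs_of_nonneg p]))).2], by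
      linarith [(abs_le.1 (k _ (abs_of_nonneg p).le)).1]⟩)
  refine ⟨_, ⟨by simpa using n t (abs_le.2 ht), ht'⟩, ?_⟩
  simp only [add_sub_cancel_left, hT', i, add_sub_cancel_right]

end Zs

open Zs in
theorem zs : ZS E m := by
  intro hE c K hc hK
  refine ⟨fun η hη => unif hE c hK hη, fun W hW => ⟨fun y => ?_⟩, fun W hW y hy η hη => ?_⟩
  · obtain ⟨r, r0, hr⟩ := unif hE c hK one_pos
    have mk : Measurable fun z : E => ENNReal.ofReal (H313.ker (r⁻¹ • (z - y))) :=
      (continuous_ker.comp (by fun_prop)).measurable.ennreal_ofReal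
    refine ⟨ball y (r / 2), ball_mem_nhds _ (half_pos r0), (measure_mono fun z hz => ?_).trans_lt
      (ENNReal.lt_top_of_mul_ne_top_right (((mul_meas_ge_le_lintegral mk
        (ENNReal.ofReal (H313.ker (1 / 2 : ℝ)))).trans (hr W hW y r r0 le_rfl)).trans_lt
          ENNReal.ofReal_lt_top).ne (by norm_num [H313.ker]))⟩
    refine ENNReal.ofReal_le_ofReal (ker_anti ?_)
    rw [norm_smul, norm_inv, Real.norm_of_nonneg r0.le, inv_mul_le_iff₀ r0,
      Real.norm_of_nonneg (by norm_num)]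
    linarith [mem_ball_iff_norm.1 hz]
  · obtain ⟨θ, he, h0, h1⟩ : ∃ θ : ℝ, 1 < (1 + η) * θ ^ m ∧ θ ∈ Ioo (0 : ℝ) 1 := by
      have : ContinuousAt (fun θ : ℝ => (1 + η) * θ ^ m) 1 := by fun_prop
      exact (((Tendsto.eventually_const_lt (show (1 : ℝ) < (1 + η) * 1 ^ m by simpa using hη)
        this).filter_mono
        nhdsWithin_le_nhds).and (Ioo_mem_nhdsLT one_pos)).exists
    filter_upwards [lower hE hW hy h0 h1, self_mem_nhdsWithin] with r hr (r0 : 0 < r)
    refine le_trans ?_ (mul_le_mul_right hr _)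
    rw [← mul_assoc, ← ENNReal.ofReal_mul (by positivity)]
    refine mul_le_mul_left (ENNReal.ofReal_le_ofReal ?_) _
    rw [mul_pow]
    nlinarith [pow_pos r0 m]

end Vale.Agent.P218D
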