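import Mathlib

/-! Block SL: the integral form of the Łojasiewicz argument. -/

open MeasureTheory Set Filter Topology

namespace Vale.Agent.P218D

lemma sqrt_ii {d : ℝ → ℝ} {a b : ℝ} (d0 : ∀ s, 0 ≤ d s) (hd : IntervalIntegrable d volume a b) :
    IntervalIntegrable (fun s => √(d s)) volume a b := by
  have h1 : IntervalIntegrable (fun s => 1 + d s) volume a b := intervalIntegrable_const.add hd
  refine h1.mono_fun' (Real.continuous_sqrt.comp_aestronglyMeasurable hd.def'.1)
    (Eventually.of_forall fun s => ?_)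
  have h2 := Real.sq_sqrt (d0 s)
  simp only [Real.norm_of_nonneg (Real.sqrt_nonneg _)]
  nlinarith [sq_nonneg (√(d s) - 1), Real.sqrt_nonneg (d s)]

lemma sqrt_le_eps {x ε : ℝ} (hx : 0 ≤ x) (hε : 0 < ε) : √x ≤ ε + x / ε := by
  have h2 := Real.sq_sqrt hx
  have h3 := Real.sqrt_nonneg x
  rw [← sub_nonneg]
  have : ε + x / ε - √x = ((ε - √x) ^ 2 + ε * √x) / ε := by
    field_simp
    nlinarith
  rw [this]; positivity

lemma int_sqrt_le {d : ℝ → ℝ} {a b ε : ℝ} (d0 : ∀ s, 0 ≤ d s) (hab : a ≤ b)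
    (hd : IntervalIntegrable d volume a b) (hε : 0 < ε) :
    ∫ s in a..b, √(d s) ≤ ε * (b - a) + (∫ s in a..b, d s) / ε := by
  calc _ ≤ ∫ s in a..b, (ε + d s / ε) :=
        intervalIntegral.integral_mono_on hab (sqrt_ii d0 hd)
          (intervalIntegrable_const.add (hd.div_const ε)) fun s _ => sqrt_le_eps (d0 s) hε
    _ = _ := by
        rw [intervalIntegral.integral_add intervalIntegrable_const (hd.div_const ε),
          intervalIntegral.integral_const, intervalIntegral.integral_div, smul_eq_mul, mul_comm]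

lemma sqrt_le_of_loj {x μ C β : ℝ} (hx : 0 ≤ x) (hμ : 0 < μ) (hC : 0 < C) (hβ : 0 < β)
    (h : μ ≤ C * x ^ β) : √x ≤ (C / μ) ^ (1 / (2 * β)) * x := by
  have h1 : 1 ≤ C / μ * x ^ β := by
    rw [div_mul_eq_mul_div, one_le_div hμ]; exact h
  have h2 : 1 ≤ (C / μ * x ^ β) ^ (1 / (2 * β)) := Real.one_le_rpow h1 (by positivity)
  rw [Real.mul_rpow (by positivity) (by positivity), ← Real.rpow_mul hx] at h2
  have h3 : β * (1 / (2 * β)) = 1 / 2 := by field_simp
  rw [h3, ← Real.sqrt_eq_rpow] at h2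
  calc √x = 1 * √x := (one_mul _).symm
    _ ≤ (C / μ) ^ (1 / (2 * β)) * √x * √x := by gcongr
    _ = _ := by rw [mul_assoc, Real.mul_self_sqrt hx]

theorem loj_int {β C : ℝ} (hβ : 1 / 2 < β) : ∃ K γ : ℝ, 0 ≤ K ∧ 0 < γ ∧
    ∀ (d : ℝ → ℝ) (a b lam : ℝ), (∀ s, 0 ≤ d s) → a ≤ b → IntervalIntegrable d volume a b →
      (∀ᵐ s : ℝ, s ∈ Icc a b → ∫ t in s..b, d t ≤ C * d s ^ β) → ∫ t in a..b, d t ≤ lam →
      ∫ s in a..b, √(d s) ≤ K * lam ^ γ := by
  have hβ0 : 0 < β := by linarith
  obtain ⟨g, hg⟩ : ∃ g, g = 1 / (2 * β) := ⟨_, rfl⟩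
  have hg1 : g < 1 := by rw [hg, div_lt_one (by positivity)]; linarith
  obtain ⟨C', hC', hCC⟩ : ∃ C' : ℝ, 0 < C' ∧ C ≤ C' :=
    ⟨max C 1, lt_max_of_lt_right one_pos, le_max_left _ _⟩
  obtain ⟨q, hq⟩ : ∃ q : ℝ, q = (1 / 2 : ℝ) ^ (1 - g) := ⟨_, rfl⟩
  have hq0 : 0 < q := by rw [hq]; positivity
  have hq1 : q < 1 := by rw [hq]; exact Real.rpow_lt_one (by norm_num) (by norm_num) (by linarith)
  obtain ⟨K, hK0, hK⟩ : ∃ K : ℝ, 0 ≤ K ∧ (C' ^ g + K) * q = K := by
    have : 0 < 1 - q := by linarith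
    exact ⟨C' ^ g * q / (1 - q), by positivity, by field_simp; ring⟩
  refine ⟨K, 1 - g, hK0, by linarith, fun d a b lam d0 hab hd hl hlam => ?_⟩
  have hsub : ∀ {s t : ℝ}, a ≤ s → s ≤ t → t ≤ b → IntervalIntegrable d volume s t :=
    fun h1 h2 h3 => hd.mono_set (by
      rw [uIcc_of_le h2, uIcc_of_le hab]; exact Icc_subset_Icc h1 h3)
  have hcont : ContinuousOn (fun s => ∫ t in s..b, d t) (Icc a b) := by
    have h1 := intervalIntegral.continuousOn_primitive_interval_left (μ := volume) (f := d)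
      (a := a) (b := b) (by rw [uIcc_of_le hab]; exact (intervalIntegrable_iff_integrableOn_Icc_of_le hab).1 hd)
    rwa [uIcc_of_le hab] at h1
  have key : ∀ ε > 0, ∀ n : ℕ, ∀ l > 0, ∀ s ∈ Icc a b, ∫ t in s..b, d t ≤ l →
      ∫ t in s..b, √(d t) ≤ K * l ^ (1 - g) + (ε * (b - a) + l * (1 / 2) ^ n / ε) := by
    intro ε hε n
    induction n with
    | zero =>
      intro l hl0 s hs hsl
      have h1 := int_sqrt_le d0 hs.2 (hsub hs.1 hs.2 le_rfl) hε
      have h2 : ε * (b - s) ≤ ε * (b - a) := by gcongr; exact hs.1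
      have h3 : (∫ t in s..b, d t) / ε ≤ l * (1 / 2) ^ 0 / ε := by gcongr; simpa using hsl
      have h4 : 0 ≤ K * l ^ (1 - g) := by positivity
      linarith
    | succ n ih =>
      intro l hl0 s hs hsl
      have e1 : (l / 2) ^ (1 - g) = l ^ (1 - g) * q := by
        rw [hq, ← Real.mul_rpow hl0.le (by norm_num)]; congr 1; ring
      have e2 : l / 2 * (1 / 2) ^ n / ε = l * (1 / 2) ^ (n + 1) / ε := by rw [pow_succ]; ring
      have p1 : 0 ≤ C' ^ g * q * l ^ (1 - g) := by positivity
      have e3 : K * l ^ (1 - g) = C' ^ g * q * l ^ (1 - g) + K * (l ^ (1 - g) * q) := by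
        conv_lhs => rw [← hK]
        ring
      rcases le_total (∫ t in s..b, d t) (l / 2) with h | h
      · have := ih (l / 2) (by positivity) s hs h
        rw [e1, e2] at this
        linarith
      obtain ⟨s', hs', hs'l⟩ := intermediate_value_Icc' hs.2
        (hcont.mono (Icc_subset_Icc_left hs.1)) (show l / 2 ∈ Icc (∫ t in b..b, d t) _ from
          ⟨by rw [intervalIntegral.integral_same]; positivity, h⟩)
      simp only at hs'l
      have has : a ≤ s' := hs.1.trans hs'.1
      have h1 := ih (l / 2) (by positivity) s' ⟨has, hs'.2⟩ hs'l.le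
      rw [e1, e2] at h1
      have i1 := hsub hs.1 hs'.1 hs'.2
      have i2 := hsub has hs'.2 le_rfl
      have h2 : ∫ t in s..s', √(d t) ≤ ∫ t in s..s', (C' / (l / 2)) ^ g * d t := by
        refine intervalIntegral.integral_mono_ae_restrict hs'.1 (sqrt_ii d0 i1) (i1.const_mul _) ?_
        rw [EventuallyLE, ae_restrict_iff' measurableSet_Icc]
        filter_upwards [hl] with t ht hts
        have a1 := ht ⟨hs.1.trans hts.1, hts.2.trans hs'.2⟩
        have a2 := intervalIntegral.integral_add_adjacent_intervals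
          (hsub (hs.1.trans hts.1) hts.2 hs'.2) i2
        have a3 : 0 ≤ ∫ u in t..s', d u := intervalIntegral.integral_nonneg hts.2 fun u _ => d0 u
        have a4 : C * d t ^ β ≤ C' * d t ^ β := by have := d0 t; gcongr
        rw [hg]
        exact sqrt_le_of_loj (d0 t) (by positivity) hC' hβ0 (by linarith)
      rw [intervalIntegral.integral_const_mul] at h2
      have h3 := intervalIntegral.integral_add_adjacent_intervals i1 i2
      have h4 := intervalIntegral.integral_add_adjacent_intervals (sqrt_ii d0 i1) (sqrt_ii d0 i2)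
      have h5 : (C' / (l / 2)) ^ g * ∫ t in s..s', d t ≤ (C' / (l / 2)) ^ g * (l / 2) := by
        gcongr; linarith
      have h6 : (C' / (l / 2)) ^ g * (l / 2) = C' ^ g * q * l ^ (1 - g) := by
        rw [mul_assoc, mul_comm q, ← e1, Real.div_rpow hC'.le (by positivity),
          Real.rpow_sub (by positivity), Real.rpow_one]
        ring
      linarith
  have hl0 : 0 ≤ lam := (intervalIntegral.integral_nonneg hab fun u _ => d0 u).trans hlam
  have key2 : ∀ l > lam, ∫ t in a..b, √(d t) ≤ K * l ^ (1 - g) := by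
    intro l hl'
    refine le_of_forall_pos_le_add fun η hη => ?_
    have hε : 0 < η / (b - a + 1) := by have : 0 < b - a + 1 := by linarith
                                        positivity
    have t1 : Tendsto (fun n : ℕ => K * l ^ (1 - g) + (η / (b - a + 1) * (b - a)
        + l * (1 / 2) ^ n / (η / (b - a + 1)))) atTop
        (𝓝 (K * l ^ (1 - g) + (η / (b - a + 1) * (b - a) + l * 0 / (η / (b - a + 1))))) :=
      (((tendsto_pow_atTop_nhds_zero_of_lt_one (by norm_num) (by norm_num)).const_mul l).div_const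
        _ |>.const_add _).const_add _
    have t2 := ge_of_tendsto' t1 fun n => key _ hε n l (by linarith) a ⟨le_rfl, hab⟩ (by linarith)
    have t3 : η / (b - a + 1) * (b - a) ≤ η := by
      rw [div_mul_eq_mul_div, div_le_iff₀ (by linarith)]; nlinarith
    simp only [mul_zero, zero_div, add_zero] at t2
    linarith
  have t1 : Tendsto (fun l : ℝ => K * l ^ (1 - g)) (𝓝[>] lam) (𝓝 (K * lam ^ (1 - g))) :=
    (((Real.continuousAt_rpow_const lam _ (Or.inr (by linarith))).tendsto).const_mul K).mono_left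
      nhdsWithin_le_nhds
  exact ge_of_tendsto t1 (eventually_mem_nhdsWithin.mono key2)

end Vale.Agent.P218D
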