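import Vale.Agent.P218D.Bas
import Vale.Agent.P218D.Ode

/-! Block SL: the static inequality gives convergence of the rescaled flow. -/

open MeasureTheory Set Filter Topology Metric
open scoped ENNReal NNReal RealInnerProductSpace

namespace Vale.Agent.P218D

open Vale.Agent.P214 (proj IsApproxTangent divAlong)
open Vale.Agent.P218 Vale.Agent.P218.H313

set_option linter.unusedSectionVars false
set_option linter.unusedVariables false

variable {E : Type*} [NormedAddCommGroup E] [InnerProductSpace ℝ E] [FiniteDimensional ℝ E]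
  [MeasurableSpace E] [BorelSpace E]
variable {m : ℕ} {N : ℝ → Measure E} {T : ℝ → E → Submodule ℝ E} {H : ℝ → E → E} {s₀ : ℝ}
  {κ : Measure E}

lemma drift_one (h : RF m N T H s₀) {g : E → ℝ} (hg : PG g) {M : ℝ} (h0 : ∀ x, |g x| ≤ M)
    (h1 : ∀ x, ‖grad g x‖ ≤ M) {a b : ℝ} (ha : s₀ ≤ a) (hab : a ≤ b) :
    ∫ x, g x * rho x ∂(N b) - ∫ x, g x * rho x ∂(N a) ≤ M * (FA (N a) - FA (N b))
      + M * √(FA (N s₀)) * ∫ s in a..b, √(dis (N s) (T s) (H s)) := by
  have hM : 0 ≤ M := (abs_nonneg _).trans (h0 0)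
  have hf : PG fun x => M + g x := (PG.const M).add hg
  have f0 : ∀ x, 0 ≤ M + g x := fun x => by linarith [neg_abs_le (g x), h0 x]
  obtain ⟨i1, i2⟩ := h.ineq_PG hf f0 ha hab
  obtain ⟨B, hB⟩ := h.moment 0
  have hev : ∀ s, s₀ ≤ s → ∫ x, (M + g x) * rho x ∂(N s)
      = M * FA (N s) + ∫ x, g x * rho x ∂(N s) := by
    intro s hs
    have j1 : Integrable (fun x => rho x) (N s) := by simpa using (hB s hs).1
    have j2 : Integrable (fun x => g x * rho x) (N s) :=
      (j1.const_mul M).mono' (hg.cont.mul continuous_rho).aestronglyMeasurable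
        (Eventually.of_forall fun x => by
          rw [norm_mul, Real.norm_of_nonneg (rho_pos x).le]
          exact mul_le_mul_of_nonneg_right (h0 x) (rho_pos x).le)
    unfold FA
    rw [← integral_const_mul, ← integral_add (j1.const_mul M) j2]
    congr 1; ext x; ring
  rw [hev b (ha.trans hab), hev a ha] at i2
  have i3 : ∫ s in a..b, LL (N s) (T s) (H s) (fun x => M + g x)
      ≤ ∫ s in a..b, M * √(FA (N s₀)) * √(dis (N s) (T s) (H s)) := by
    refine intervalIntegral.integral_mono_ae_restrict hab i1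
      ((sqrt_ii (fun _ => dis_nonneg) (h.dis_int ha hab).1).const_mul _) ?_
    filter_upwards [h.ae_gslice ha hab, ae_restrict_mem measurableSet_Icc] with s hs hs'
    rw [hs.LL_eq hf]
    have a1 : 0 ≤ ∫ x, (M + g x) * ‖vel (T s) (H s) x‖ ^ 2 * rho x ∂(N s) :=
      integral_nonneg fun x => mul_nonneg (mul_nonneg (f0 x) (sq_nonneg _)) (rho_pos x).le
    have a2 : Integrable (fun x => ‖vel (T s) (H s) x‖ * rho x) (N s) :=
      hs.integrable hs.vel_meas.norm (C := 1) (p := 0) (Eventually.of_forall fun x => by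
        rw [abs_of_nonneg (norm_nonneg _)]
        nlinarith [sq_nonneg (‖vel (T s) (H s) x‖ - 1), norm_nonneg (vel (T s) (H s) x)])
    have a3 : ∫ x, ⟪grad (fun x => M + g x) x, vel (T s) (H s) x⟫ * rho x ∂(N s)
        ≤ M * ∫ x, ‖vel (T s) (H s) x‖ * rho x ∂(N s) := by
      rw [← integral_const_mul]
      refine integral_mono (hs.integrable_inner_vel (continuous_grad hf.cd).aestronglyMeasurable
        (hf.b1.mono fun x => by rw [norm_grad])) (a2.const_mul M) fun x => ?_
      have e : grad (fun x => M + g x) x = grad g x :=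
        grad_unique fun v => by rw [fderiv_const_add, inner_grad]
      simp only [e]
      rw [← mul_assoc]
      refine mul_le_mul_of_nonneg_right ((real_inner_le_norm _ _).trans ?_) (rho_pos x).le
      exact mul_le_mul_of_nonneg_right (h1 x) (norm_nonneg _)
    have a4 := int_vel_le hs
    have a5 : √(∫ x, rho x ∂(N s)) ≤ √(FA (N s₀)) :=
      Real.sqrt_le_sqrt (h.FA_anti le_rfl (ha.trans hs'.1))
    have a6 : M * ∫ x, ‖vel (T s) (H s) x‖ * rho x ∂(N s)
        ≤ M * (√(FA (N s₀)) * √(dis (N s) (T s) (H s))) := by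
      gcongr; exact a4.trans (by gcongr)
    linarith
  rw [intervalIntegral.integral_const_mul] at i3
  linarith

lemma drift (h : RF m N T H s₀) {φ : E → ℝ} (hφ : ContDiff ℝ 1 φ) (hφc : HasCompactSupport φ) :
    ∃ M : ℝ, 0 ≤ M ∧ ∀ a b, s₀ ≤ a → a ≤ b → |∫ x, φ x ∂(N b) - ∫ x, φ x ∂(N a)|
      ≤ M * (FA (N a) - FA (N b) + ∫ s in a..b, √(dis (N s) (T s) (H s))) := by
  have hg : ContDiff ℝ 1 fun x => φ x * Real.exp (‖x‖ ^ 2 / 4) := hφ.mul contDiff_rho_inv
  have hgc : HasCompactSupport fun x => φ x * Real.exp (‖x‖ ^ 2 / 4) := hφc.mul_right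
  obtain ⟨A, hA⟩ := hg.continuous.bounded_above_of_compact_support hgc
  obtain ⟨B, hB⟩ := (hg.continuous_fderiv (by norm_num)).bounded_above_of_compact_support
    (hgc.fderiv (𝕜 := ℝ))
  have hp := PG.of_compact hg hgc
  have hA0 : 0 ≤ max A B := ((norm_nonneg _).trans (hA 0)).trans (le_max_left _ _)
  refine ⟨max A B * (1 + √(FA (N s₀))), by positivity, fun a b ha hab => ?_⟩
  have h1 := drift_one h hp (M := max A B) (fun x => (hA x).trans (le_max_left _ _))
    (fun x => by rw [norm_grad]; exact (hB x).trans (le_max_right _ _)) ha hab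
  have h2 := drift_one h (hp.const_mul (-1)) (M := max A B)
    (fun x => by rw [neg_one_mul, abs_neg]; exact (hA x).trans (le_max_left _ _))
    (fun x => by
      rw [grad_const_mul _ (hp.diff x), norm_smul, norm_neg, norm_one, one_mul, norm_grad]
      exact (hB x).trans (le_max_right _ _)) ha hab
  simp only [mul_assoc (-1 : ℝ), integral_const_mul] at h2
  rw [int_div_rho, int_div_rho] at h1 h2
  have h3 := sub_nonneg.2 (h.FA_anti ha hab)
  have h4 : 0 ≤ ∫ s in a..b, √(dis (N s) (T s) (H s)) :=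
    intervalIntegral.integral_nonneg hab fun _ _ => Real.sqrt_nonneg _
  have h5 := Real.sqrt_nonneg (FA (N s₀))
  have h6 := mul_nonneg hA0 h4
  have h7 := mul_nonneg (mul_nonneg hA0 h5) h3
  rw [abs_le]
  constructor <;> nlinarith

lemma slow_of_RF (h : RF m N T H s₀) : Slow N s₀ where
  bdd K hK := by
    obtain ⟨R, hR⟩ := hK.isBounded.subset_closedBall (0 : E)
    refine ⟨(Real.exp (R ^ 2 / 4) * FA (N s₀)).toNNReal, fun s hs => ?_⟩
    obtain ⟨B, hB⟩ := h.moment 0
    have j1 : Integrable (fun x => rho x) (N s) := by simpa using (hB s hs).1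
    calc N s K = ∫⁻ x in K, 1 ∂(N s) := by simp
      _ ≤ ∫⁻ x in K, ENNReal.ofReal (Real.exp (R ^ 2 / 4) * rho x) ∂(N s) := by
          refine setLIntegral_mono' hK.measurableSet fun x hx => ?_
          rw [← ENNReal.ofReal_one]
          refine ENNReal.ofReal_le_ofReal ?_
          unfold rho
          rw [← Real.exp_add]
          apply Real.one_le_exp
          have := norm_nonneg x
          have := mem_closedBall_zero_iff.1 (hR hx)
          nlinarith
      _ ≤ ∫⁻ x, ENNReal.ofReal (Real.exp (R ^ 2 / 4) * rho x) ∂(N s) :=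
          setLIntegral_le_lintegral _ _
      _ = ENNReal.ofReal (Real.exp (R ^ 2 / 4) * FA (N s)) := by
          unfold FA
          rw [← integral_const_mul, ofReal_integral_eq_lintegral_ofReal (j1.const_mul _)
            (Eventually.of_forall fun x => mul_nonneg (Real.exp_pos _).le (rho_pos x).le)]
      _ ≤ _ := ENNReal.ofReal_le_ofReal (by gcongr; exact h.FA_anti le_rfl hs)
  slow φ hφ hφc l hl ε hε := by
    obtain ⟨M, hM, hd⟩ := drift h hφ hφc
    obtain ⟨η, hη, hη1⟩ : ∃ η : ℝ, 0 < η ∧ M * (η * l) ≤ ε / 2 :=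
      ⟨ε / 2 / ((M + 1) * l), by positivity, by
        rw [div_mul_eq_mul_div, mul_div_assoc', div_le_iff₀ (by positivity)]; nlinarith⟩
    obtain ⟨δ, hδ, hδ1⟩ : ∃ δ : ℝ, 0 < δ ∧ M * (δ + δ / η) ≤ ε / 2 := by
      refine ⟨ε / 2 / ((M + 1) * (1 + 1 / η)), by positivity, ?_⟩
      calc _ = ε / 2 * (M / (M + 1)) := by field_simp
        _ ≤ ε / 2 * 1 := by gcongr; rw [div_le_one (by positivity)]; linarith
        _ = _ := mul_one _
    obtain ⟨S, hS, hdrop⟩ := H552.exists_drop_le (θ := fun s => FA (N s)) (τ₀ := s₀)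
      (fun a b ha hab => h.FA_anti ha hab) (fun s => RF.FA_nonneg _) hδ
    refine ⟨S, hS, fun a b ha hab hb => (hd a b (hS.trans ha) hab).trans ?_⟩
    obtain ⟨i1, i2⟩ := h.dis_int (hS.trans ha) hab
    have h1 := int_sqrt_le (fun _ => dis_nonneg) hab i1 hη
    have h2 := hdrop a b ha hab
    have h3 : (∫ s in a..b, dis (N s) (T s) (H s)) / η ≤ δ / η := by gcongr; linarith
    have h4 : η * (b - a) ≤ η * l := by gcongr; linarith
    calc _ ≤ M * (η * l + (δ + δ / η)) := mul_le_mul_of_nonneg_left (by linarith) hM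
      _ ≤ _ := by rw [mul_add]; linarith

lemma exists_in_unit {p q : ℝ → Prop} (hq : ∀ᵐ s : ℝ, q s) {a : ℝ}
    (hp : ¬ ∀ᵐ s : ℝ, s ∈ Icc a (a + 1) → p s) : ∃ s ∈ Icc a (a + 1), q s ∧ ¬ p s := by
  by_contra hc
  push Not at hc
  exact hp (hq.mono fun s hs h => hc s h hs)

lemma tendsto_nearI (h : RF m N T H s₀) {σ t : ℕ → ℝ} (hσ : Tendsto σ atTop atTop)
    (hw : WeakTendsto (fun i => N (σ i)) κ) (ht : ∀ i, t i ∈ Icc (σ i) (σ i + 1))
    (hg : ∀ i, (s₀ ≤ t i → GSlice m (N (t i)) (T (t i)) (H (t i))) ∧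
      (s₀ ≤ t i → IntT m (N (t i)) (T (t i)))) :
    Tendsto t atTop atTop ∧ Tendsto t atTop (nearI m N T H κ) := by
  have h1 : Tendsto t atTop atTop := tendsto_atTop_mono (fun i => (ht i).1) hσ
  have h2 := (slow_of_RF h).weakTendsto_shift (σ := t) hσ one_pos
    (Eventually.of_forall fun i => abs_le.2 ⟨by linarith [(ht i).1], by linarith [(ht i).2]⟩) hw
  refine ⟨h1, tendsto_inf.2 ⟨tendsto_nearF h1 ?_ h2, tendsto_principal.2 ?_⟩⟩
  · filter_upwards [h1.eventually_ge_atTop s₀] with i hi using (hg i).1 hi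
  · filter_upwards [h1.eventually_ge_atTop s₀] with i hi using (hg i).2 hi

theorem dyn : DYN E m := by
  intro N T H s₀ κ h hI hκ ⟨τ₀, hτ₀, hw₀⟩ β C hβ hX φ hφ hφc
  have hslow := slow_of_RF h
  obtain ⟨n₀, hn₀⟩ := eventually_atTop.1 (hτ₀.eventually_ge_atTop s₀)
  obtain ⟨τ, hτ, hw, hτs⟩ : ∃ τ : ℕ → ℝ, Tendsto τ atTop atTop ∧
      WeakTendsto (fun i => N (τ i)) κ ∧ ∀ i, s₀ ≤ τ i :=
    ⟨fun i => τ₀ (i + n₀), hτ₀.comp (tendsto_add_atTop_nat n₀),
      fun φ h1 h2 => (hw₀ φ h1 h2).comp (tendsto_add_atTop_nat n₀), fun i => hn₀ _ (by omega)⟩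
  have hq := h.gslice.and hI
  -- the Gaussian area converges
  have hθ : Tendsto (fun s => FA (N s) - FA κ) atTop (𝓝 0) ∧ ∀ s, s₀ ≤ s → 0 ≤ FA (N s) - FA κ := by
    have h1 : ∀ i, ∃ s ∈ Icc (τ i) (τ i + 1), ((s₀ ≤ s → GSlice m (N s) (T s) (H s)) ∧
        (s₀ ≤ s → IntT m (N s) (T s))) ∧ ¬ False := fun i => exists_in_unit hq (by
      rw [ae_iff]
      have : {s : ℝ | ¬ (s ∈ Icc (τ i) (τ i + 1) → False)} = Icc (τ i) (τ i + 1) := by
        ext s; simp
      rw [this]
      simp)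
    choose t ht hg _ using h1
    obtain ⟨h2, h3⟩ := tendsto_nearI h hτ hw ht hg
    have h4 : Tendsto (fun i => FA (N (t i))) atTop (𝓝 (FA κ)) := by
      have := (h.lim_PB (κ := κ) (f := fun _ => 1) continuous_const (PB.const 1)).comp
        (h3.mono_right nearI_le)
      simpa [FA, Function.comp_def] using this
    have h5 : ∀ s, s₀ ≤ s → 0 ≤ FA (N s) - FA κ := fun s hs => sub_nonneg.2 (le_of_tendsto h4 (by
      filter_upwards [h2.eventually_ge_atTop s] with i hi using h.FA_anti hs hi))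
    refine ⟨?_, h5⟩
    rw [Metric.tendsto_nhds]
    intro ε hε
    obtain ⟨i, hi1, hi2⟩ := ((h4.eventually_lt_const (show FA κ < FA κ + ε by linarith)).and
      (h2.eventually_ge_atTop s₀)).exists
    filter_upwards [eventually_ge_atTop (t i)] with s hs
    rw [Real.dist_eq, sub_zero, abs_of_nonneg (h5 s (hi2.trans hs))]
    linarith [h.FA_anti hi2 hs]
  obtain ⟨K, γ, hK, hγ, hloj⟩ := loj_int (C := C) hβ
  have hω : Tendsto (fun s => FA (N s) - FA κ + K * (FA (N s) - FA κ) ^ γ) atTop (𝓝 0) := by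
    have h1 := ((Real.continuousAt_rpow_const 0 γ (Or.inr hγ.le)).tendsto.comp hθ.1).const_mul K
    rw [Real.zero_rpow hγ.ne', mul_zero] at h1
    simpa using hθ.1.add h1
  -- the drift on intervals where the inequality holds
  have hsm : ∀ φ : E → ℝ, ContDiff ℝ 2 φ → HasCompactSupport φ → ∃ M : ℝ, ∀ a b, s₀ ≤ a → a ≤ b →
      (∀ᵐ s : ℝ, s ∈ Icc a b → FA (N s) - FA κ ≤ C * dis (N s) (T s) (H s) ^ β) →
      |∫ x, φ x ∂(N b) - ∫ x, φ x ∂(N a)|
        ≤ M * (FA (N a) - FA κ + K * (FA (N a) - FA κ) ^ γ) := by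
    intro φ hφ hφc
    obtain ⟨M, hM, hd⟩ := drift h (hφ.of_le (by norm_num)) hφc
    refine ⟨M, fun a b ha hab hs => (hd a b ha hab).trans ?_⟩
    have h1 := hθ.2 b (ha.trans hab)
    have h2 := hloj _ a b (FA (N a) - FA κ) (fun _ => dis_nonneg) hab (h.dis_int ha hab).1
      (hs.mono fun s h3 h4 => by
        have := (h.dis_int (ha.trans h4.1) h4.2).2
        linarith [h3 h4]) (by linarith [(h.dis_int ha hab).2])
    gcongr; linarith
  have hall : ∃ i, ∀ k : ℕ, ∀ᵐ s : ℝ, s ∈ Icc (τ i + k) (τ i + k + 1) →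
      FA (N s) - FA κ ≤ C * dis (N s) (T s) (H s) ^ β := by
    by_contra hcon
    simp only [not_exists, not_forall] at hcon
    classical
    have hL1 := fun i => Nat.find_spec (hcon i)
    have hL2 : ∀ i, ∀ᵐ s : ℝ, s ∈ Icc (τ i) (τ i + Nat.find (hcon i)) →
        FA (N s) - FA κ ≤ C * dis (N s) (T s) (H s) ^ β := by
      intro i
      have h1 : ∀ᵐ s : ℝ, ∀ k : ℕ, k < Nat.find (hcon i) → s ∈ Icc (τ i + k) (τ i + k + 1) →
          FA (N s) - FA κ ≤ C * dis (N s) (T s) (H s) ^ β := by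
        rw [ae_all_iff]
        intro k
        by_cases hk : k < Nat.find (hcon i)
        · exact (not_not.1 (Nat.find_min (hcon i) hk)).mono fun s hs _ => hs
        · exact Eventually.of_forall fun s h => absurd h hk
      have h2 : ∀ᵐ s : ℝ, s ≠ τ i + Nat.find (hcon i) := by simp [ae_iff, measure_singleton]
      filter_upwards [h1, h2] with s hs hs2 hs3
      have h3 : 0 ≤ s - τ i := by linarith [hs3.1]
      refine hs ⌊s - τ i⌋₊ ((Nat.floor_lt h3).2 ?_) ⟨?_, ?_⟩
      · linarith [lt_of_le_of_ne hs3.2 hs2]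
      · linarith [Nat.floor_le h3]
      · linarith [Nat.lt_floor_add_one (s - τ i)]
    have hge : ∀ i, τ i ≤ τ i + Nat.find (hcon i) := fun i =>
      le_add_of_nonneg_right (Nat.cast_nonneg _)
    have hw1 : WeakTendsto (fun i => N (τ i + Nat.find (hcon i))) κ := by
      refine weakTendsto_of_contDiff hslow (fun i => (hτs i).trans (hge i)) fun φ hφ hφc => ?_
      obtain ⟨M, hM⟩ := hsm φ hφ hφc
      have h1 := (hω.comp hτ).const_mul M
      rw [mul_zero] at h1
      have h2 := squeeze_zero_norm (f := fun i => ∫ x, φ x ∂(N (τ i + Nat.find (hcon i)))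
        - ∫ x, φ x ∂(N (τ i))) (fun i => hM _ _ (hτs i) (hge i) (hL2 i)) h1
      simpa using h2.add (hw φ hφ.continuous hφc)
    choose t ht hg hn using fun i => exists_in_unit hq (hL1 i)
    obtain ⟨i, hi⟩ := ((tendsto_nearI h (tendsto_atTop_mono hge hτ) hw1 ht hg).2.eventually
      hX).exists
    exact hn i hi
  obtain ⟨i, hi⟩ := hall
  have hae : ∀ᵐ s : ℝ, τ i ≤ s → FA (N s) - FA κ ≤ C * dis (N s) (T s) (H s) ^ β := by
    filter_upwards [ae_all_iff.2 hi] with s hs h1
    have h3 : 0 ≤ s - τ i := by linarith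
    exact hs ⌊s - τ i⌋₊ ⟨by linarith [Nat.floor_le h3], by linarith [Nat.lt_floor_add_one (s - τ i)]⟩
  obtain ⟨M, hM⟩ := hsm φ hφ hφc
  refine ⟨∫ x, φ x ∂κ, ?_⟩
  have h1 := hω.const_mul M
  rw [mul_zero] at h1
  rw [← tendsto_sub_nhds_zero_iff]
  refine squeeze_zero_norm' ?_ h1
  filter_upwards [eventually_ge_atTop (τ i)] with a ha
  rw [Real.norm_eq_abs, abs_sub_comm]
  refine le_of_tendsto (((hw φ hφ.continuous hφc).sub_const _).abs) ?_
  filter_upwards [hτ.eventually_ge_atTop a] with j hj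
  exact hM a (τ j) ((hτs i).trans ha) hj (hae.mono fun s hs h2 => hs (ha.trans h2.1))

end Vale.Agent.P218D
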