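import Vale.Agent.P218D.Gau1

/-! Block SL: the static estimate near the shrinker. -/

open MeasureTheory Set Filter Topology Metric
open scoped ENNReal NNReal RealInnerProductSpace

namespace Vale.Agent.P218D

open Vale.Agent.P218 Vale.Agent.P218.H313

set_option linter.unusedSectionVars false
set_option linter.unusedVariables false

variable {E : Type*} [NormedAddCommGroup E] [InnerProductSpace ℝ E] [FiniteDimensional ℝ E]
  [MeasurableSpace E] [BorelSpace E] {m : ℕ}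

namespace Gau

lemma clamp {t b : ℝ} (hb : 0 ≤ b) : |max (-b) (min t b)| ≤ b ∧ |t - max (-b) (min t b)| ≤ |t| ∧
    ∀ δ, 0 ≤ δ → |t| ≤ b + δ → |t - max (-b) (min t b)| ≤ δ := by
  have h1 := le_abs_self t
  have h2 := neg_abs_le t
  simp only [max_def, min_def]
  split_ifs <;> refine ⟨abs_le.2 ⟨?_, ?_⟩, abs_le.2 ⟨?_, ?_⟩, fun δ h h' => abs_le.2 ⟨?_, ?_⟩⟩ <;>
    linarith

/-- the defect function -/
lemma phi {c K B : ℝ} (hK : 0 ≤ K) (hB : 0 ≤ B) : ∃ K', K ≤ K' ∧ ∀ W s : E → ℝ, ∃ Φ : E → ℝ,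
    TubeB W c K → Continuous s → (∀ p, |s p| ≤ B) → Tub W Φ c K' ∧ (∀ p, |Φ p - s p| ≤ K') ∧
      ∀ p δ, 0 ≤ δ → (|W p| < c → |dft W p - s p| ≤ K * W p ^ 2 + δ) → |Φ p - s p| ≤ δ := by
  obtain ⟨A, hA⟩ : ∃ A : ℝ, A = Module.finrank ℝ E * K + K + (Module.finrank ℝ E * K ^ 2 + 1) * K :=
    ⟨_, rfl⟩
  have hA0 : 0 ≤ A := by rw [hA]; positivity
  refine ⟨K + A + 2 * B, by linarith, fun W s => ?_⟩
  obtain ⟨t, ht⟩ : ∃ t : E → ℝ, t = fun p => if |W p| < c then dft W p - s p else 0 := ⟨_, rfl⟩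
  refine ⟨fun p => s p + (t p - max (-(K * W p ^ 2)) (min (t p) (K * W p ^ 2))), fun h1 h2 h3 => ?_⟩
  have cl := fun p => clamp (t := t p) (mul_nonneg hK (sq_nonneg (W p)))
  have mt : Measurable t := ht ▸ Measurable.ite h1.isOpen.measurableSet
    (h1.cont_dft.sub h2).measurable measurable_const
  have mw : Measurable fun p => K * W p ^ 2 := (continuous_const.mul (h1.cont.pow 2)).measurable
  have bt : ∀ p, |t p| ≤ A + B := fun p => by
    simp only [ht]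
    split_ifs
    · exact (abs_sub _ _).trans (add_le_add (hA ▸ h1.dft_le p) (h3 p))
    · rw [abs_zero]; positivity
  refine ⟨⟨h1.mono h1.cpos le_rfl (by linarith), h2.measurable.add (mt.sub (mw.neg.max (mt.min mw))),
    fun p => (abs_add_le _ _).trans (by linarith [(cl p).2.1, bt p, h3 p]), fun p hp => ?_⟩,
    fun p => ?_, fun p δ h4 h5 => ?_⟩
  · have e : dft W p = s p + t p := by simp [ht, hp]
    rw [e, add_sub_add_left_eq_sub, sub_sub_cancel]
    exact (cl p).1.trans (mul_le_mul_of_nonneg_right (by linarith) (sq_nonneg _))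
  · rw [add_sub_cancel_left]
    linarith [(cl p).2.1, bt p]
  · rw [add_sub_cancel_left]
    refine (cl p).2.2 δ h4 ?_
    simp only [ht]
    split_ifs with h
    · exact h5 h
    · rw [abs_zero]; positivity

lemma PP_le {μ : Measure E} {T : E → Submodule ℝ E} {H : E → E} (hS : GSlice m μ T H)
    {e : E → ℝ} (me : Measurable e) {K Z δ M τ : ℝ} (h1 : ∀ p, |e p| ≤ K)
    (h2 : ∀ p, ‖p‖ ≤ Z → |e p| ≤ δ) (hM : ∫ x, rho x ∂μ ≤ M) (hτ : 0 ≤ τ)
    (ht : ∫⁻ x in {x | Z ≤ ‖x‖}, ENNReal.ofReal (rho x) ∂μ ≤ ENNReal.ofReal τ) :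
    PP μ e ≤ δ ^ 2 * M + K ^ 2 * τ := by
  have i0 : Integrable (fun x => rho x) μ := by simpa using hS.mom 0
  have ms : MeasurableSet {x : E | Z ≤ ‖x‖} :=
    (isClosed_le continuous_const continuous_norm).measurableSet
  have e1 : ∫ x, {x : E | Z ≤ ‖x‖}.indicator rho x ∂μ ≤ τ := by
    rw [integral_indicator ms, integral_eq_lintegral_of_nonneg_ae
      (Eventually.of_forall fun x => (rho_pos x).le) continuous_rho.aestronglyMeasurable]
    exact ENNReal.toReal_le_of_le_ofReal hτ ht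
  refine le_trans ?_ (add_le_add (mul_le_mul_of_nonneg_left hM (sq_nonneg δ))
    (mul_le_mul_of_nonneg_left e1 (sq_nonneg K)))
  rw [PP, ← integral_comb2 i0 (i0.indicator ms)]
  refine integral_mono (int_PP hS me h1) ((i0.const_mul _).add ((i0.indicator ms).const_mul _))
    fun p => ?_
  have h0 := (rho_pos p).le
  have sq : ∀ {a}, |e p| ≤ a → e p ^ 2 * rho p ≤ a ^ 2 * rho p := fun h =>
    mul_le_mul_of_nonneg_right (sq_le_sq' (abs_le.1 h).1 (abs_le.1 h).2) h0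
  by_cases hp : Z ≤ ‖p‖
  · simp only [indicator_of_mem (show p ∈ {x : E | Z ≤ ‖x‖} from hp)]
    exact (sq (h1 p)).trans (le_add_of_nonneg_left (by positivity))
  · simp only [indicator_of_notMem (show p ∉ {x : E | Z ≤ ‖x‖} from hp), mul_zero, add_zero]
    exact sq (h2 p (not_le.1 hp).le)

end Gau

open Gau Blow

theorem gau (tail : TAIL E m) : GAU E m := by
  intro h0 hE k W₀ ψ γ W V lam Z c Rψ r K L N T H s₀ hR hlf
  obtain ⟨x, hx⟩ := gauge (N := N) (T := T) (H := H) L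
  generalize hl : nearF m N T H (hm m W₀) ×ˢ 𝓝[>] (0 : ℝ) = l at hx
  have f1 : Tendsto Prod.fst l (nearF m N T H (hm m W₀)) := hl ▸ tendsto_fst
  have f2 : Tendsto Prod.snd l (𝓝[>] (0 : ℝ)) := hl ▸ tendsto_snd
  have hK := L.shr.K_nonneg
  have ev : ∀ η > 0, ∀ᶠ q in l, ‖x q‖ ≤ η ∧ 0 < q.2 ∧ q.2 ≤ η := fun η hη =>
    ((hx η hη).and (f2.eventually (Ioc_mem_nhdsGT hη))).mono fun q h => ⟨h.1.2, h.2⟩
  have sm := fun ω (hω : 0 < ω) => (ev _ (L.small ω hω).choose_spec.1).mono fun q h =>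
    (L.small ω hω).choose_spec.2 _ _ h.1 h.2.1 h.2.2
  have evr := ev r L.rpos
  have sl := f1.eventually nearF_sl
  have ge := f1.eventually (nearF_atTop (eventually_ge_atTop s₀))
  have pc := fun j => cpt (L.psi j).2
  choose B hB using fun j => (pc j).exists_bound_of_continuous (L.psi j).1
  have B0 : ∀ j, 0 ≤ B j := fun j => (norm_nonneg _).trans (hB j 0)
  have B1 : 0 ≤ ∑ j, B j := Finset.sum_nonneg fun j _ => B0 j
  have s1 : ∀ v : Fin k → ℝ, Continuous fun p => ∑ j, v j * ψ j p := fun v =>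
    continuous_finsetSum _ fun j _ => continuous_const.mul (L.psi j).1
  have s2 : ∀ (v : Fin k → ℝ) p, |∑ j, v j * ψ j p| ≤ ‖v‖ * ∑ j, B j := fun v p => by
    rw [Finset.mul_sum]
    exact (Finset.abs_sum_le_sum_abs _ _).trans (Finset.sum_le_sum fun j _ => (abs_mul _ _).trans_le
      (mul_le_mul (norm_le_pi_norm v j) (hB j p) (abs_nonneg _) (norm_nonneg _)))
  obtain ⟨K', hK', hφ⟩ := phi (E := E) (c := c) hK B1
  choose Φ hΦ using fun q : ℝ × ℝ => hφ (W (x q) q.2) fun p => ∑ j, lam (x q) q.2 j * ψ j p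
  have tb := evr.mono fun q h => L.tube _ _ h.1 h.2.1 h.2.2
  have ph := (tb.and (sm 1 one_pos)).mono fun q h => hΦ q h.1 (s1 _) fun p =>
    (s2 _ p).trans (mul_le_of_le_one_left B1 h.2.1)
  obtain ⟨M, hM⟩ := hR.moment 0
  simp only [pow_zero, one_mul] at hM
  have M0 : 0 ≤ M := (integral_nonneg fun x => (rho_pos x).le).trans (hM s₀ le_rfl).2
  obtain ⟨Cr, hCr⟩ := hR.ratio
  obtain ⟨C', hC', ht⟩ := tail Cr (1 / 3) (by norm_num)
  obtain ⟨A, hA⟩ : ∃ A, A = K' ^ 2 * (C' * K) := ⟨_, rfl⟩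
  have A0 : 0 ≤ A := by rw [hA]; positivity
  have pp : ∀ᶠ q in l, ∀ (e : E → ℝ) (δ ω : ℝ), Measurable e → (∀ p, |e p| ≤ K') →
      (∀ p, ‖p‖ ≤ Z (x q) q.2 → |e p| ≤ δ * ‖lam (x q) q.2‖) → ‖lam (x q) q.2‖ ≤ ω →
      PP (N q.1) e ≤ (δ ^ 2 * M + A * ω) * ‖lam (x q) q.2‖ ^ 2 + A * q.2 := by
    filter_upwards [evr, sl, ge] with q h1 h2 h3 e δ ω a1 a2 a3 a4
    obtain ⟨b1, b2⟩ := L.cut _ _ h1.1 h1.2.1 h1.2.2
    have b3 := PP_le h2 a1 a2 a3 (hM _ h3).2 (by positivity) (ht _ h2.mc.fin (hCr _ h3) _ b1)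
    rw [show -(1 - 1 / 3) * Z (x q) q.2 ^ 2 / 4 = -Z (x q) q.2 ^ 2 / 6 by ring] at b3
    have b4 := mul_le_mul_of_nonneg_left (mul_le_mul_of_nonneg_left b2 hC') (sq_nonneg K')
    have b5 := mul_le_mul_of_nonneg_left (mul_le_mul_of_nonneg_right a4
      (sq_nonneg ‖lam (x q) q.2‖)) A0
    rw [hA] at b5 ⊢
    linarith
  obtain ⟨D, hD⟩ : ∃ D : ℝ × ℝ → ℝ,
    ∀ q, D q = DD (N q.1) (W (x q) q.2) 0 + ‖lam (x q) q.2‖ ^ 2 := ⟨_, fun _ => rfl⟩
  obtain ⟨Q, hQ⟩ : ∃ Q : ℝ × ℝ → ℝ, ∀ q, Q q = dis (N q.1) (T q.1) (H q.1) + max q.2 0 :=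
    ⟨_, fun _ => rfl⟩
  have d1 : ∀ q, DD (N q.1) (W (x q) q.2) 0 ≤ D q := fun q => by
    rw [hD]; exact le_add_of_nonneg_right (sq_nonneg _)
  have d2 : ∀ q, ‖lam (x q) q.2‖ ^ 2 ≤ D q := fun q => by
    rw [hD]; exact le_add_of_nonneg_left (DD_nonneg 0)
  have q1 : ∀ q, dis (N q.1) (T q.1) (H q.1) ≤ Q q := fun q => by
    rw [hQ]; exact le_add_of_nonneg_right (le_max_right _ _)
  have q2 : ∀ q, q.2 ≤ Q q := fun q => by
    rw [hQ]; exact (le_max_left _ _).trans (le_add_of_nonneg_left dis_nonneg)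
  have key : ∃ C₀ : ℝ, 0 ≤ C₀ ∧ ∀ᶠ q in l, D q ≤ C₀ * Q q := by
    by_contra hcon
    push Not at hcon
    have hne : (⨅ n : ℕ, l ⊓ 𝓟 {q | (n : ℝ) * Q q < D q}).NeBot := iInf_neBot_of_directed
      (directed_of_isDirected_le fun i j hij => inf_le_inf_left _ (principal_mono.2 fun s hs =>
        lt_of_le_of_lt (mul_le_mul_of_nonneg_right (by exact_mod_cast hij)
          (dis_nonneg.trans (q1 s))) hs))
      fun n => frequently_mem_iff_neBot.1 (hcon n n.cast_nonneg)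
    obtain ⟨U, hU⟩ := Ultrafilter.exists_le (⨅ n : ℕ, l ⊓ 𝓟 {q | (n : ℝ) * Q q < D q})
    have u1 : (U : Filter (ℝ × ℝ)) ≤ l := hU.trans ((iInf_le _ 0).trans inf_le_left)
    have u2 : ∀ n : ℕ, ∀ᶠ q in (U : Filter (ℝ × ℝ)), (n : ℝ) * Q q < D q := fun n =>
      (hU.trans ((iInf_le _ n).trans inf_le_right)) (mem_principal_self _)
    have hpos : ∀ᶠ q in (U : Filter (ℝ × ℝ)), 0 < D q := (u2 0).mono fun q h => by simpa using h
    have u3 : ∀ ε > 0, ∀ᶠ q in (U : Filter (ℝ × ℝ)), Q q ≤ ε * D q := fun ε hε => by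
      obtain ⟨n, hn⟩ := exists_nat_gt (1 / ε)
      rw [div_lt_iff₀' hε] at hn
      filter_upwards [u2 n] with q h
      nlinarith [mul_lt_mul_of_pos_left h hε, dis_nonneg.trans (q1 q)]
    have cv : Conv U m (fun q => N q.1) (fun q => T q.1) (fun q => H q.1) (hm m W₀) :=
      ⟨hlf, u1 sl, fun p => (hR.moment p).imp fun C hC => u1 (ge.mono fun q h => (hC _ h).2),
        ⟨Cr, u1 (ge.mono fun q h => hCr _ h)⟩,
        fun φ a b => ((nearF_lim a b).comp f1).mono_left u1⟩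
    have w0 := tubeB_of_D L.shr
    have hD0 : Tendsto D U (𝓝 0) := by
      obtain ⟨M₁, hM₁⟩ := cv.mom 1
      have t0 := cv.lim_PB (w0.cont.pow 2) (w0.pg.b0.pow 2)
      rw [show ∫ p, (W₀ ^ 2) p * rho p ∂(hm m W₀) = 0 from integral_eq_zero_of_ae
        ((ae_restrict_mem w0.isClosed_zero.measurableSet).mono
          fun p hp => by simp [show W₀ p = 0 from hp])] at t0
      refine small (A := 2 + 2 * (1 + 4 * K ^ 2) * |M₁| + 1) (by positivity) fun ε hε => ?_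
      obtain ⟨ω, ω0, ω1, ω2⟩ : ∃ ω, 0 < ω ∧ ω ≤ 1 ∧ ω ≤ ε :=
        ⟨min 1 ε, lt_min one_pos hε, min_le_left _ _, min_le_right _ _⟩
      filter_upwards [u1 tb, u1 (sm ω ω0), cv.sl, hM₁, hpos, t0.eventually_le_const hε] with
        q a1 a2 a3 a4 a5 a6
      have e1 : DD (N q.1) (W (x q) q.2) 0 ≤ 2 * ∫ p, W₀ p ^ 2 * rho p ∂(N q.1)
          + 2 * (1 + 4 * K ^ 2) * ε * ∫ p, (1 + ‖p‖) ^ 1 * rho p ∂(N q.1) := by
        rw [Stat.DD0, ← integral_comb2 (Stat.iDD a3 w0) (a3.mom 1)]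
        refine integral_mono (Stat.iDD a3 a1) (((Stat.iDD a3 w0).const_mul _).add
          ((a3.mom 1).const_mul _)) fun p => ?_
        have e2 : (W (x q) q.2 p - W₀ p) ^ 2 ≤ (1 + 4 * K ^ 2) * ε * (1 + ‖p‖) := by
          have n0 := norm_nonneg p
          have n1 : 0 ≤ K ^ 2 * ε * (1 + ‖p‖) := by positivity
          by_cases hp : ‖p‖ ≤ ω⁻¹
          · have := abs_le.1 (a2.2.1 p hp).1
            nlinarith [sq_le_sq' this.1 this.2, mul_nonneg hε.le n0]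
          · have b1 := abs_le.1 (a1.b0 p)
            have b2 := abs_le.1 (w0.b0 p)
            have b3 : 1 ≤ ε * (1 + ‖p‖) := by
              have := (inv_lt_iff_one_lt_mul₀' ω0).1 (not_le.1 hp)
              nlinarith
            have b4 : (W (x q) q.2 p - W₀ p) ^ 2 ≤ (2 * K) ^ 2 :=
              sq_le_sq' (by linarith) (by linarith)
            nlinarith [mul_le_mul_of_nonneg_left b3 (sq_nonneg K)]
        have e3 : W (x q) q.2 p ^ 2 ≤ 2 * W₀ p ^ 2 + 2 * ((1 + 4 * K ^ 2) * ε * (1 + ‖p‖)) := by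
          nlinarith [sq_nonneg (W (x q) q.2 p - 2 * W₀ p)]
        exact (mul_le_mul_of_nonneg_right e3 (rho_pos p).le).trans_eq (by ring)
      have e4 := mul_le_mul_of_nonneg_left (a4.trans (le_abs_self _))
        (show 0 ≤ 2 * (1 + 4 * K ^ 2) * ε by positivity)
      have e5 : ‖lam (x q) q.2‖ ^ 2 ≤ ε := by nlinarith [norm_nonneg (lam (x q) q.2), a2.1]
      simp only [Pi.pow_apply] at a6
      rw [abs_of_pos a5, hD]
      linarith
    refine blow h0 hE U _ _ _ W₀ c K' (L.shr.mono hK') cv k ψ (fun j => ⟨(L.psi j).1, pc j⟩) L.nd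
      (fun q => W (x q) q.2) Φ (fun q => lam (x q) q.2) D (u1 (ph.mono fun q h => h.1))
      (fun ω hω => u1 ((sm ω hω).mono fun q h => h.2.1)) hD hpos hD0
      (small zero_le_one fun ε hε => ?_) (small (A := M + A + A) (by positivity) fun ε hε => ?_)
      fun j => small (A := B j * (1 + K + M)) (by have := B0 j; positivity) fun ε hε => ?_
    · filter_upwards [u3 ε hε, hpos] with q a1 a2
      rw [abs_of_nonneg (div_nonneg dis_nonneg a2.le), div_le_iff₀ a2, mul_one]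
      exact (q1 q).trans a1
    · obtain ⟨ω, ω0, ω1, ω2⟩ : ∃ ω, 0 < ω ∧ ω ≤ 1 ∧ ω ≤ ε :=
        ⟨min 1 ε, lt_min one_pos hε, min_le_left _ _, min_le_right _ _⟩
      filter_upwards [u3 ε hε, hpos, u1 pp, u1 ph, u1 (sm ω ω0)] with q a1 a2 a3 a4 a5
      rw [abs_of_nonneg (div_nonneg PP_nonneg a2.le), div_le_iff₀ a2]
      refine (a3 _ ω ε (a4.1.meas.sub (s1 _).measurable) a4.2.1 (fun p hp => a4.2.2 p _
        (by positivity) fun h => a5.2.2.2 p h hp) (a5.1.trans ω2)).trans ?_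
      have e1 := mul_le_mul (add_le_add_left (mul_le_mul_of_nonneg_right
        (show ω ^ 2 ≤ ε by nlinarith) M0) (A * ε)) (d2 q) (sq_nonneg _) (by positivity)
      have e2 := mul_le_mul_of_nonneg_left ((q2 q).trans a1) A0
      linarith
    · filter_upwards [hpos, u1 tb, u1 (sm ε hε), u1 evr, u1 (hx 1 one_pos), cv.sl, u1 ge,
        hD0.eventually_le_const (show 0 < ε ^ 2 by positivity)] with q a1 a2 a3 a4 a5 a6 a7 a8
      obtain ⟨t, t0, ht⟩ : ∃ t, 0 < t ∧ D q = t ^ 2 :=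
        ⟨_, Real.sqrt_pos.2 a1, (Real.sq_sqrt a1.le).symm⟩
      have t1 : t ≤ ε := (pow_le_pow_iff_left₀ t0.le hε.le two_ne_zero).1 (ht ▸ a8)
      have ii : ∀ {f : E → ℝ}, Continuous f → Integrable (fun p => f p * ψ j p * rho p) (N q.1) :=
        fun hf => haveI := a6.mc.fin; ((hf.mul (L.psi j).1).mul
          continuous_rho).integrable_of_hasCompactSupport (pc j).mul_left.mul_right
      have b0 := B0 j
      have e1 : |∫ p, W (x q) q.2 p * ψ j p * rho p ∂(N q.1)| ≤ B j * (ε / t + K)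
          * DD (N q.1) (W (x q) q.2) 0 + B j * ε * t * ∫ p, rho p ∂(N q.1) := by
        rw [← sub_zero (∫ p, _ ∂_), ← a5.1 j, ← integral_sub (ii a2.cont)
          (ii (L.vc _ _ a4.1 a4.2.1 a4.2.2).1), Stat.DD0,
          ← integral_comb2 (Stat.iDD a6 a2) (hM _ a7).1, ← Real.norm_eq_abs]
        refine norm_integral_le_of_norm_le (((Stat.iDD a6 a2).const_mul _).add
          ((hM _ a7).1.const_mul _)) (Eventually.of_forall fun p => ?_)
        have r0 := (rho_pos p).le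
        by_cases hp : ‖p‖ ≤ Rψ
        · have e2 : |W (x q) q.2 p| ≤ W (x q) q.2 p ^ 2 / t + t := by
            rw [div_add' _ _ _ t0.ne', le_div_iff₀ t0, ← sq_abs]
            nlinarith [sq_nonneg (|W (x q) q.2 p| - t), mul_nonneg (abs_nonneg (W (x q) q.2 p)) t0.le]
          rw [← sub_mul, ← sub_mul, norm_mul, norm_mul, Real.norm_of_nonneg r0, Real.norm_eq_abs,
            abs_sub_comm]
          exact (mul_le_mul_of_nonneg_right (mul_le_mul ((a3.2.2.1 p hp).trans (add_le_add_left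
            (mul_le_mul_of_nonneg_left e2 hε.le) _)) (hB j p) (norm_nonneg _) (by positivity))
            r0).trans_eq (by ring)
        · simp only [(L.psi j).2 p (not_le.1 hp).le, mul_zero, zero_mul, sub_zero, norm_zero]
          positivity
      have e3 := mul_le_mul_of_nonneg_left ((d1 q).trans_eq ht)
        (show 0 ≤ B j * (ε / t + K) by positivity)
      have e4 := mul_le_mul_of_nonneg_left (hM _ a7).2 (show 0 ≤ B j * ε * t by positivity)
      have e5 : ε / t * t ^ 2 = ε * t := by field_simp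
      have e6 := mul_le_mul_of_nonneg_left t1 (show 0 ≤ B j * K * t by positivity)
      rw [ht, Real.sqrt_sq t0.le, abs_div, abs_of_pos t0, div_le_iff₀ t0]
      have e7 : B j * (ε / t * t ^ 2) = B j * (ε * t) := by rw [e5]
      linarith
  obtain ⟨C₀, hC₀, key⟩ := key
  obtain ⟨C₁, hC₁, hst⟩ := stat hE c K' L.shr.cpos (hK.trans hK')
  obtain ⟨P, hP⟩ : ∃ P, P = ((1 + ∑ j, B j) ^ 2 * M + A * 1) * C₀ + A := ⟨_, rfl⟩
  have P0 : 0 ≤ P := by rw [hP]; positivity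
  refine ⟨K', C₀ + C₁ * (C₀ + 1 + P) + P, by positivity, ?_⟩
  filter_upwards [evr, sl, pp, ph, sm 1 one_pos, key] with q a1 a2 a3 a4 a5 a6
  refine ⟨x q, a1.1, a1.2.2, Φ q, a4.1, ?_⟩
  have e1 := a3 _ (1 + ∑ j, B j) 1 a4.1.meas a4.1.bp (fun p hp => by
    have b1 := abs_le.1 (a4.2.2 p _ (by positivity) fun h => a5.2.2.2 p h hp)
    have b2 := abs_le.1 (s2 (lam (x q) q.2) p)
    exact abs_le.2 ⟨by linarith, by linarith⟩) a5.1
  have e2 := mul_le_mul_of_nonneg_left ((d2 q).trans a6)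
    (show 0 ≤ (1 + ∑ j, B j) ^ 2 * M + A * 1 by positivity)
  have e3 : PP (N q.1) (Φ q) ≤ P * Q q := by
    rw [hP]
    linarith [mul_le_mul_of_nonneg_left (q2 q) A0]
  have e4 := (hst _ _ a4.1 _ _ _ a2).1.trans (mul_le_mul_of_nonneg_left
    (add_le_add (add_le_add ((d1 q).trans a6) (q1 q)) e3) hC₁)
  rw [hD] at a6
  rw [← max_eq_left a1.2.1.le, ← hQ, max_eq_left a1.2.1.le]
  linarith

theorem gau' (_ : STAT E m) (_ : BLOW E m) (tail : TAIL E m) : GAU E m := gau tail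

end Vale.Agent.P218D
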