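import Vale.Agent.P218D.Bas

/-! Block SL: integrality of the rescaled slices and the theorem of the block. -/

open MeasureTheory Set Filter Topology Metric
open scoped ENNReal NNReal RealInnerProductSpace

namespace Vale.Agent.P218D

open Vale.Agent.P214 (proj IsApproxTangent divAlong)
open Vale.Agent.P218 Vale.Agent.P218.H313 Vale.Agent.P218.H313.A1
open Vale.Agent.P218.H552 (MC BF NN yy GG)

set_option linter.unusedSectionVars false
set_option linter.unusedVariables false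

variable {E : Type*} [NormedAddCommGroup E] [InnerProductSpace ℝ E] [FiniteDimensional ℝ E]
  [MeasurableSpace E] [BorelSpace E]
variable {m : ℕ}

lemma intT_dil {μ : Measure E} {T : E → Submodule ℝ E} (h : IntT m μ T) {lam : ℝ} (hl : 0 < lam)
    (x₀ : E) : IntT m (dil m lam x₀ μ) (fun y => T (xx lam x₀ y)) := by
  refine ae_dil hl x₀ ?_
  filter_upwards [h] with x ⟨q, hq⟩
  refine ⟨q, ?_⟩
  rw [xx_yy hl]
  refine ⟨hq.1, fun f hf hfc => ?_⟩
  have h2 : Tendsto (fun r : ℝ => r / lam) (𝓝[>] 0) (𝓝[>] 0) := by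
    apply tendsto_nhdsWithin_of_tendsto_nhds_of_eventually_within
    · have : Tendsto (fun r : ℝ => r / lam) (𝓝 0) (𝓝 (0 / lam)) :=
        (continuous_id.div_const lam).tendsto 0
      rw [zero_div] at this
      exact this.mono_left nhdsWithin_le_nhds
    · filter_upwards [self_mem_nhdsWithin] with r hr
      have : 0 < r := hr
      exact div_pos this hl
  refine ((hq.2 f hf hfc).comp h2).congr' ?_
  filter_upwards [self_mem_nhdsWithin] with r hr0
  have hr0' : 0 < r := hr0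
  simp only [Function.comp]
  rw [integral_dil hl, div_pow]
  have e : ∀ x' : E, f ((r / lam)⁻¹ • (x' - x)) = f (r⁻¹ • (yy lam x₀ x' - yy lam x₀ x)) := by
    intro x'
    congr 1
    unfold yy
    rw [← smul_sub, sub_sub_sub_cancel_right, smul_smul]
    congr 1
    field_simp
  simp only [e]
  field_simp

lemma exists_BF_int {μ : ℝ → Measure E} (h : IsIntegralBrakkeFlow m μ) :
    ∃ T H, BF m μ T H ∧ (∀ᵐ t : ℝ, 0 ≤ t → Slice m (μ t) (T t) (H t)) ∧
      ∀ᵐ t : ℝ, 0 ≤ t → IntT m (μ t) (T t) := by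
  obtain ⟨h1, V, H, h2, -, h3⟩ := h
  refine ⟨fun t => (V t).tangent, H, ⟨fun t ht => ?_, ?_, ?_⟩, ?_, ?_⟩
  · have := h1 t ht
    infer_instance
  · rw [ae_restrict_iff' measurableSet_Ici]
    filter_upwards [h2] with t ht ht0
    obtain ⟨e1, e2⟩ := ht ht0
    rw [← e1]
    exact H552.mc_of_isMeanCurvature e2
  · intro φ hφ hφc hφ0 a b ha hab
    have h4 := h3 (fun p => φ p.1 p.2) hφ hφc (fun p => hφ0 _ _) a b ha hab
    have e : ∀ t, ∫ x, brakkeIntegrand (H t) (fun p : ℝ × E => φ p.1 p.2) t x ∂(μ t)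
        = H552.brakkeRHS (μ t) (H t) φ t := by
      intro t
      unfold H552.brakkeRHS brakkeIntegrand
      congr 1
      ext x
      ring
    simp_rw [e] at h4
    exact h4
  · filter_upwards [h2] with t ht ht0
    obtain ⟨e1, e2⟩ := ht ht0
    rw [← e1]
    exact slice_of_isMeanCurvature e2
  · filter_upwards [h2] with t ht ht0
    obtain ⟨e1, e2⟩ := ht ht0
    rw [← e1]
    exact (V t).tangent_spec.mono fun x hx => ⟨_, hx⟩

theorem int' : INT E m := by
  intro μ hμ h0 x₀ t₀ ht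
  obtain ⟨T, H, hB, hS, hI⟩ := exists_BF_int hμ
  set s₀ : ℝ := Real.log (2 / t₀) with hs₀
  have hti : ∀ s, s₀ ≤ s → t₀ / 2 ≤ ti t₀ s := by
    intro s hs
    unfold ti
    have h1 : Real.exp (-s) ≤ t₀ / 2 := by
      have h2 : Real.exp (-s) ≤ Real.exp (-s₀) := Real.exp_le_exp.2 (by linarith)
      rw [hs₀, Real.exp_neg (Real.log (2 / t₀)), Real.exp_log (by positivity), inv_div] at h2
      exact h2
    linarith
  have htau : ∀ s, s₀ ≤ s → H552.tau0 t₀ ≤ s / 2 := by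
    intro s hs
    unfold H552.tau0
    have h1 : -Real.log t₀ ≤ s₀ := by
      rw [hs₀, Real.log_div (by norm_num) ht.ne']
      have := Real.log_nonneg (show (1 : ℝ) ≤ 2 by norm_num)
      linarith
    linarith
  refine ⟨fun s y => T (ti t₀ s) (xx (Real.exp (s / 2)) x₀ y),
    fun s y => (Real.exp (s / 2))⁻¹ • H (ti t₀ s) (xx (Real.exp (s / 2)) x₀ y), s₀, ?_, ?_⟩
  swap
  · filter_upwards [ae_time t₀ hI] with s hs hs0
    rw [NN_half]
    exact intT_dil (hs (by linarith [hti s hs0])) (Real.exp_pos (s / 2)) x₀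
  constructor
  · intro s hs
    exact H552.NN_finite hB h0 x₀ ht (htau s hs)
  · refine ⟨√2 ^ m * ((√t₀)⁻¹ ^ m * (μ 0).real univ), fun s hs => ?_⟩
    have h1 := H552.gauss_bound hB h0 x₀ ht (k := 2) (by norm_num) (htau s hs)
    have e : ∀ y : E, Real.exp (-‖y‖ ^ 2 / (4 * 2)) = Real.exp (-‖y‖ ^ 2 / 8) := by
      intro y; norm_num
    simp only [e] at h1
    exact h1
  · refine ⟨_, fun s hs x r hr _ => ratio_bound hB h0 x₀ ht (hti s hs) x hr⟩
  · filter_upwards [ae_time t₀ hS] with s hs hs0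
    have h1 := hs (by linarith [hti s hs0])
    have h2 := slice_dil h1 (Real.exp_pos (s / 2)) x₀
    rw [NN_half]
    exact h2
  · intro f hf hfc hf0 a b ha hab
    have hmono := (ti_strictMono t₀).monotone hab
    obtain ⟨h1, h2⟩ := hB.weighted x₀ hf hfc hf0 (a := ti t₀ a) (b := ti t₀ b)
      (by linarith [hti a ha]) hmono (ti_lt _ _)
    have e1 : (fun s => LL (NN m μ x₀ t₀ (s / 2))
        (fun y => T (ti t₀ s) (xx (Real.exp (s / 2)) x₀ y))
        (fun y => (Real.exp (s / 2))⁻¹ • H (ti t₀ s) (xx (Real.exp (s / 2)) x₀ y)) f)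
        = fun s => Real.exp (-s) * GG m μ T H x₀ t₀ f (ti t₀ s) := by
      ext s; exact LL_dil x₀ t₀ s f
    have e2 : ∀ s, ∫ x, f x * rho x ∂(NN m μ x₀ t₀ (s / 2))
        = H552.JJ m μ x₀ t₀ f (ti t₀ s) := by
      intro s
      rw [← tim_half, H552.JJ_tim _ _ _ _ (Real.exp_pos _)]
      rfl
    refine ⟨?_, ?_⟩
    · rw [e1]; exact intervalIntegrable_time t₀ hab h1
    · rw [e2, e2, e1]
      rw [integral_time t₀ hab] at h2
      exact h2

theorem main (hL : LW E m) (hS : SLI E m) (hD : DYN E m) (hI : INT E m) : MAIN E m := by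
  intro hm0 hE k S w₀ δ₀ C₀ ψ γ w lam Z δ a r K hLF μ hμ h0 x₀ t₀ ht hκ
  obtain ⟨W₀, W, c, Rψ, r', K', hW₀, hW⟩ := hL k S w₀ δ₀ C₀ ψ γ w lam Z δ a r K hLF
  have e : (μH[m] : Measure E).restrict S = hm m W₀ := by
    unfold hm; congr 1; ext x; exact (hW₀ x).symm
  rw [e] at hκ
  obtain ⟨T, H, s₀, hRF, hint⟩ := hI μ hμ h0 x₀ t₀ ht
  obtain ⟨T', H', hB, -⟩ := A1.exists_BF_slice hμ
  have hslow := H552.slow_NN hB h0 x₀ ht
  rw [H552.tangentSlices_eq hB h0 x₀ ht] at hκ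
  rw [unique_iff hB h0 x₀ ht, H552.tangentSlices_eq hB h0 x₀ ht]
  obtain ⟨hlf, τ, hτ, hτκ⟩ := hκ
  have hseq : ∃ τ : ℕ → ℝ, Tendsto τ atTop atTop ∧
      WeakTendsto (fun i => NN m μ x₀ t₀ (τ i / 2)) (hm m W₀) := by
    refine ⟨fun i => 2 * τ i, hτ.const_mul_atTop two_pos, ?_⟩
    have e : ∀ i, 2 * τ i / 2 = τ i := fun i => by ring
    simp_rw [e]
    exact hτκ
  obtain ⟨β, C, hβ, hX⟩ := hS hm0 hE k W₀ ψ γ W w lam _ c Rψ r' K' hW _ T H s₀ hRF hlf
  refine limitSet_subsingleton hslow fun φ hφ hφc => ?_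
  obtain ⟨L, hL⟩ := hD _ T H s₀ _ hRF hint hlf hseq β C hβ hX φ hφ hφc
  refine ⟨L, ?_⟩
  have h2 := hL.comp (tendsto_id.const_mul_atTop (two_pos : (0 : ℝ) < 2))
  refine h2.congr fun τ => ?_
  simp only [Function.comp, id]
  have e : 2 * τ / 2 = τ := by ring
  rw [e]

end Vale.Agent.P218D
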