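import Vale.Agent.P218D.Zs

/-! Block SL: the nearest point projection and its Jacobian. -/

open MeasureTheory Set Filter Topology Metric
open scoped ENNReal NNReal RealInnerProductSpace

namespace Vale.Agent.P218D

open Vale.Agent.P214 (proj IsApproxTangent)
open Vale.Agent.P218 Vale.Agent.P218.H313

set_option linter.unusedSectionVars false
set_option linter.unusedVariables false

variable {E : Type*} [NormedAddCommGroup E] [InnerProductSpace ℝ E] [FiniteDimensional ℝ E]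
variable {m : ℕ} {c K : ℝ} {W : E → ℝ}

/-- the integral curves of the gradient are lines -/
lemma TubeB.line (hW : TubeB W c K) {x : E} {t : ℝ} (h : |W x| + K * |t| < c) :
    grad W (x - t • grad W x) = grad W x ∧ W (x - t • grad W x) = W x - t := by
  have hK := hW.K_nonneg
  have g1 : ‖grad W x‖ = 1 := hW.eik x (by linarith [mul_nonneg hK (abs_nonneg t)])
  set N := grad W x
  have d : ∀ s : ℝ, HasDerivAt (fun s : ℝ => x - (s * t) • N) (-(t • N)) s := fun s => by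
    simpa using (((hasDerivAt_id s).mul_const t).smul_const N).const_sub x
  have b : ∀ s ∈ Icc (0 : ℝ) 1, |W (x - (s * t) • N)| < c := fun s hs => by
    have h1 := hW.lip (x - (s * t) • N) x
    rw [sub_sub_cancel_left, norm_neg, norm_smul, g1, mul_one, Real.norm_eq_abs, abs_mul,
      abs_of_nonneg hs.1] at h1
    have h2 := mul_le_mul_of_nonneg_left (mul_le_of_le_one_left (abs_nonneg t) hs.2) hK
    linarith [abs_sub_abs_le_abs_sub (W (x - (s * t) • N)) (W x)]
  have dg := fun s : ℝ => ((hW.pg_grad.diff _).hasFDerivAt.comp_hasDerivAt s (d s)).sub_const N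
  have k := eq_zero_of_abs_deriv_le_mul_abs_self_of_eq_zero_right (K := K * |t|) (a := 0) (b := 1)
    (fun s _ => (dg s).continuousAt.continuousWithinAt) (fun s _ => (dg s).hasDerivWithinAt)
    (by simp [N]) fun s hs => by
      have e := hW.hess_grad (b s (Ico_subset_Icc_self hs))
      rw [map_neg, map_smul, ← smul_neg, ← zero_sub, ← e, ← map_sub, norm_smul, mul_comm K,
        mul_assoc]
      exact mul_le_mul_of_nonneg_left (((fderiv ℝ (grad W) _).le_opNorm _).trans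
        (mul_le_mul_of_nonneg_right (hW.b2 _) (norm_nonneg _))) (abs_nonneg _)
  have dW := fun s : ℝ => ((hW.diff _).hasFDerivAt.comp_hasDerivAt s (d s)).add
    ((hasDerivAt_id s).mul_const t)
  have k2 := constant_of_has_deriv_right_zero (a := 0) (b := 1)
    (fun s _ => (dW s).continuousAt.continuousWithinAt) (fun s hs => by
      convert (dW s).hasDerivWithinAt using 1
      rw [← inner_grad, show grad W (x - (s * t) • N) = N from
        sub_eq_zero.1 (k s (Ico_subset_Icc_self hs)), inner_neg_right,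
        real_inner_smul_right, real_inner_self_eq_norm_sq, g1]
      ring) 1 (by simp)
  exact ⟨by simpa [sub_eq_zero] using k 1 (by simp), by simpa [eq_sub_iff_add_eq] using k2⟩

namespace Jac

lemma exp_le {a : ℝ} (h : |a| ≤ 1 / 2) : Real.exp (-(a + 2 * a ^ 2)) ≤ 1 - a := by
  obtain ⟨h1, h2⟩ := abs_le.1 h
  have := Real.add_one_le_exp (a + 2 * a ^ 2)
  rw [Real.exp_neg, inv_le_iff_one_le_mul₀ (Real.exp_pos _)]
  nlinarith [mul_le_mul_of_nonneg_left this (show 0 ≤ 1 - a by linarith),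
    mul_nonneg (sq_nonneg a) (show 0 ≤ 1 - 2 * a by linarith)]

lemma det_ge (hE : Module.finrank ℝ E = m) {B : E →ₗ[ℝ] E} (hB : B.IsSymmetric) {a : ℝ}
    (ha : a ≤ 1 / 2) (h : ∀ u, ‖u - B u‖ ≤ a * ‖u‖) :
    Real.exp (-(m - B.trace ℝ E + 2 * m * a ^ 2)) ≤ B.det := by
  have k : ∀ i, |1 - hB.eigenvalues hE i| ≤ a := fun i => by
    have := h (hB.eigenvectorBasis hE i)
    rw [hB.apply_eigenvectorBasis hE i] at this
    nth_rewrite 1 [← one_smul ℝ (hB.eigenvectorBasis hE i)] at this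
    simpa [← sub_smul, norm_smul, -one_smul] using this
  rw [hB.det_eq_prod_eigenvalues hE, hB.trace_eq_sum_eigenvalues hE]
  refine le_trans ?_ (Finset.prod_le_prod (fun _ _ => (Real.exp_pos _).le) fun i _ =>
    (exp_le ((k i).trans ha)).trans_eq (sub_sub_cancel _ _))
  rw [← Real.exp_sum, Real.exp_le_exp, Finset.sum_neg_distrib, neg_le_neg_iff,
    Finset.sum_add_distrib, Finset.sum_sub_distrib]
  refine add_le_add (by simp) ((Finset.sum_le_sum (g := fun _ => 2 * a ^ 2) fun i _ => ?_).trans_eq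
    (by simp; ring))
  have := pow_le_pow_left₀ (abs_nonneg _) (k i) 2
  rw [sq_abs] at this
  linarith

variable [MeasurableSpace E] [BorelSpace E]

lemma meas_le {T : Submodule ℝ E} (hT : Module.finrank ℝ T = m) {A : E →L[ℝ] E}
    (hA : ∀ u v, ⟪A u, v⟫ = ⟪u, A v⟫) (h1 : ∀ v, A (proj T v) = A v) (h2 : ∀ v, A v ∈ T) {a : ℝ}
    (ha : a ≤ 1 / 2) (h : ‖A‖ ≤ a) : ENNReal.ofReal (Real.exp (-(tr A + 2 * m * a ^ 2))) *
      (μH[m] : Measure E) ({u | ‖u - A u‖ ≤ 1} ∩ T) ≤ wm m := by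
  have : (μH[m] : Measure T).IsAddHaarMeasure := by
    rw [← hT]
    infer_instance
  let A' : T →ₗ[ℝ] T := (A.toLinearMap.codRestrict T h2).comp T.subtype
  have e1 : A'.trace ℝ T = tr A := by
    have : A' = (T.orthogonalProjectionOnto : E →ₗ[ℝ] T).comp (A.toLinearMap.comp T.subtype) :=
      LinearMap.ext fun u => Subtype.ext (Submodule.starProjection_eq_self_iff.2 (h2 u)).symm
    rw [this, LinearMap.trace_comp_comm', tr]
    congr 1
    exact LinearMap.ext h1
  have d := det_ge hT (B := 1 - A') (LinearMap.IsSymmetric.one.sub fun u v => hA u v) ha fun u => by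
    rw [LinearMap.sub_apply, Module.End.one_apply, sub_sub_cancel]
    exact (A.le_opNorm u).trans (mul_le_mul_of_nonneg_right h (norm_nonneg _))
  rw [map_sub, LinearMap.trace_one, hT, e1, sub_sub_cancel] at d
  have p := (Real.exp_pos _).trans_le d
  have e2 : {u | ‖u - A u‖ ≤ 1} ∩ (T : Set E) = Subtype.val '' ((1 - A' :) ⁻¹' closedBall 0 1) :=
    Set.ext fun u => ⟨fun hu => ⟨⟨u, hu.2⟩, mem_closedBall_zero_iff.2 hu.1, rfl⟩,
      fun ⟨v, hv, e⟩ => e ▸ ⟨mem_closedBall_zero_iff.1 hv, v.2⟩⟩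
  have e3 : (T : Set E) ∩ closedBall 0 1 = Subtype.val '' (closedBall (0 : T) 1) :=
    Set.ext fun u => ⟨fun hu => ⟨⟨u, hu.1⟩, hu.2, rfl⟩, fun ⟨v, hv, e⟩ => e ▸ ⟨v.2, hv⟩⟩
  have e4 := plane_ball hT zero_le_one
  rw [e3, isometry_subtype_coe.hausdorffMeasure_image (.inl (Nat.cast_nonneg m))] at e4
  rw [e2, isometry_subtype_coe.hausdorffMeasure_image (.inl (Nat.cast_nonneg m)),
    Measure.addHaar_preimage_linearMap _ p.ne', e4, one_pow, ENNReal.ofReal_one, one_mul,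
    ← mul_assoc, ← ENNReal.ofReal_mul (Real.exp_pos _).le, abs_of_pos (inv_pos.2 p)]
  exact mul_le_of_le_one_left' (ENNReal.ofReal_le_one.2 ((div_le_one p).2 d))

lemma jac_le (hE : Module.finrank ℝ E = m + 1) (hW : TubeB W c K) {x : E} (hx : |W x| < c)
    (ha : |W x| * K ≤ 1 / 2) {P : Submodule ℝ E} (hτ : ‖proj P (grad W x)‖ ^ 2 ≤ 1 / 2) :
    ENNReal.ofReal (1 - W x * tr (fderiv ℝ (grad W) x) - 2 * m * (K ^ 2 * W x ^ 2 +
      ‖proj P (grad W x)‖ ^ 2)) *
      (μH[m] : Measure E) ((P : Set E) ∩ {v | ‖dpr W x v‖ ≤ 1}) ≤ wm m := by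
  have g1 := hW.eik x hx
  have g0 := hW.hess_grad hx
  obtain ⟨T, hT, hT', hT2⟩ := Zs.plane hE g1
  have g2 : ∀ v, ⟪grad W x, fderiv ℝ (grad W) x v⟫ = 0 := fun v => by
    rw [← hess_symm hW.smooth, g0, inner_zero_left]
  have h1 : ∀ v, fderiv ℝ (grad W) x (proj T v) = fderiv ℝ (grad W) x v := fun v => by
    rw [hT', map_sub, map_smul, g0, smul_zero, sub_zero]
  have k := meas_le hT (A := W x • fderiv ℝ (grad W) x) (a := |W x| * K)
    (fun u v => by simp [inner_smul_left, inner_smul_right, hess_symm hW.smooth])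
    (fun v => by simp [h1]) (fun v => T.smul_mem _ (by
      have := H552.proj_mem T (fderiv ℝ (grad W) x v)
      rwa [hT', g2, zero_smul, sub_zero] at this)) ha
    (by rw [norm_smul]; exact mul_le_mul_of_nonneg_left (hW.b2 x) (abs_nonneg _))
  generalize hτ' : ‖proj P (grad W x)‖ ^ 2 = τ at hτ
  have τ0 : 0 ≤ τ := hτ' ▸ sq_nonneg _
  have p : 0 < 1 - τ := by linarith
  have mS : MeasurableSet {u | ‖u - (W x • fderiv ℝ (grad W) x) u‖ ≤ 1} :=
    (isClosed_le (by fun_prop) continuous_const).measurableSet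
  have k2 := Zs.map_le (m := m) P.closed_of_finiteDimensional.measurableSet
    (proj T).continuous.measurable (H552.proj_mem T) (inv_pos.2 p).le (fun y hy y' hy' => by
      have h2 := H63.norm_proj_sq g1 hT' (y - y')
      have h3 : ⟪grad W x, y - y'⟫ ^ 2 ≤ τ * ‖y - y'‖ ^ 2 := by
        rw [← hτ', ← mul_pow, ← sq_abs, show ⟪grad W x, y - y'⟫ = ⟪proj P (grad W x), y - y'⟫ from
          (P.inner_starProjection_left_eq_right _ _ |>.trans (by
            rw [Submodule.starProjection_eq_self_iff.2 (P.sub_mem hy hy')])).symm]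
        exact pow_le_pow_left₀ (abs_nonneg _) (abs_real_inner_le_norm _ _) 2
      rw [dist_eq_norm, dist_eq_norm, ← map_sub, le_inv_mul_iff₀ p]
      refine le_of_sq_le_sq ?_ (norm_nonneg _)
      nlinarith [mul_nonneg (mul_nonneg τ0 p.le) (sq_nonneg ‖y - y'‖)])
    {u | ‖u - (W x • fderiv ℝ (grad W) x) u‖ ≤ 1}
  rw [Measure.map_apply (proj T).continuous.measurable mS, Measure.smul_apply,
    Measure.restrict_apply mS, Measure.restrict_apply ((proj T).continuous.measurable mS),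
    inter_comm, smul_eq_mul] at k2
  have e : {v | ‖dpr W x v‖ ≤ 1} = proj T ⁻¹' {u | ‖u - (W x • fderiv ℝ (grad W) x) u‖ ≤ 1} :=
    Set.ext fun v => by simp [dpr, h1, hT' v, inner_grad]
  rw [e]
  refine (mul_le_mul_right k2 _).trans (le_trans ?_ k)
  rw [← mul_assoc, mul_comm (ENNReal.ofReal _), ← ENNReal.ofReal_mul (by positivity)]
  refine mul_le_mul_left (ENNReal.ofReal_le_ofReal ?_) _
  rw [inv_pow, inv_mul_le_iff₀ (pow_pos p m), tr_smul, mul_pow, sq_abs]
  have h4 : Real.exp (-(2 * τ)) ≤ 1 - τ :=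
    (Real.exp_le_exp.2 (by nlinarith)).trans (exp_le (by rwa [abs_of_nonneg τ0]))
  refine le_trans ?_ (mul_le_mul_of_nonneg_right (pow_le_pow_left₀ (Real.exp_pos _).le h4 m)
    (Real.exp_pos _).le)
  rw [← Real.exp_nat_mul, ← Real.exp_add]
  refine le_trans (le_of_eq ?_) (Real.add_one_le_exp _)
  ring

lemma rho_prj (hW : TubeB W c K) {x : E} (hx : |W x| < c) :
    rho (prj W x) = rho x * Real.exp (W x * ⟪x, grad W x⟫ / 2 - W x ^ 2 / 4) := by
  rw [rho, rho, ← Real.exp_add, prj, norm_sub_sq_real, norm_smul, hW.eik x hx,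
    real_inner_smul_right, mul_one, Real.norm_eq_abs, sq_abs]
  congr 1
  ring

lemma alg {w a b q d τ n K C j : ℝ} (hK : 0 ≤ K) (hn : 1 ≤ n) (hw : |w| * (n * (K + 1)) ≤ 1 / 2)
    (ha : |a| ≤ n * K) (hb : |b| ≤ K) (hq : |q| ≤ n * K ^ 2) (hC : 0 ≤ C) (hτ : 0 ≤ τ)
    (hd : d = a - 1 / 2 * b + (q + 1 / 2) * w) (j0 : 0 ≤ j) (hj : 1 - w * a - C * (w ^ 2 + τ) ≤ j) :
    |w * a| ≤ 1 / 2 ∧ |w| * K ≤ 1 / 2 ∧ 1 ≤ j * Real.exp (w * b / 2 - w ^ 2 / 4) +
      (1 + 2 * n * (K + 1) ^ 2 + 2 * C) * (|d| * |w| + w ^ 2 + τ) ∧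
      1 ≤ j + (1 + 2 * n * (K + 1) ^ 2 + 2 * C) * (|w| + τ) := by
  have w0 := abs_nonneg w
  have h1 : |w * a| ≤ |w| * (n * K) := by rw [abs_mul]; gcongr
  have h2 : |w * b| ≤ |w| * K := by rw [abs_mul]; gcongr
  have h3 : |w| * (K + 1) ≤ 1 / 2 := le_trans (by gcongr; nlinarith) hw
  have h4 : |w| * K ≤ 1 / 2 := by linarith
  have h5 : |w| ≤ 1 / 2 := by nlinarith
  have h6 : w ^ 2 ≤ |w| := by rw [← sq_abs]; nlinarith
  have h7 : |w * a| ≤ 1 / 2 := by nlinarith
  have h8 : |w * b / 2 - w ^ 2 / 4| ≤ |w| * (K + 1) :=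
    abs_le.2 ⟨by nlinarith [abs_le.1 h2], by nlinarith [abs_le.1 h2, sq_nonneg w]⟩
  have nK : 0 ≤ n * K := by positivity
  refine ⟨h7, h4, ?_, ?_⟩
  · have e1 : w * b / 2 - w ^ 2 / 4 - w * a = -(d * w) + (q + 1 / 4) * w ^ 2 := by rw [hd]; ring
    generalize w * b / 2 - w ^ 2 / 4 = e at e1 h8
    have e2 : (1 - w * a - C * (w ^ 2 + τ)) * (1 + e) ≤ j * Real.exp e :=
      mul_le_mul hj (by linarith [Real.add_one_le_exp e]) (by linarith [abs_le.1 h8]) j0
    have e3 : w * a * e ≤ n * K * (K + 1) * w ^ 2 := (le_abs_self _).trans (by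
      rw [abs_mul, ← sq_abs]
      exact (mul_le_mul h1 h8 (abs_nonneg _) (by positivity)).trans_eq (by ring))
    have e4 : C * (w ^ 2 + τ) * e ≤ C * (w ^ 2 + τ) :=
      mul_le_of_le_one_right (by positivity) (by linarith [abs_le.1 h8])
    have e5 : d * w ≤ |d| * |w| := (le_abs_self _).trans_eq (abs_mul _ _)
    have e6 : -(n * K ^ 2) * w ^ 2 ≤ q * w ^ 2 :=
      mul_le_mul_of_nonneg_right (abs_le.1 hq).1 (sq_nonneg _)
    have e7 : 0 ≤ |d| * |w| := by positivity
    have e8 : 0 ≤ n * (K + 1) ^ 2 := by positivity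
    have e9 : (n * K ^ 2 + n * K * (K + 1)) * w ^ 2 ≤ 2 * n * (K + 1) ^ 2 * w ^ 2 :=
      mul_le_mul_of_nonneg_right (by nlinarith) (sq_nonneg _)
    nlinarith [mul_nonneg e8 e7, mul_nonneg e8 hτ, mul_nonneg hC e7, sq_nonneg w]
  · have e8 : 0 ≤ n * (K + 1) ^ 2 := by positivity
    have e9 : |w| * (n * K) ≤ |w| * (2 * n * (K + 1) ^ 2) :=
      mul_le_mul_of_nonneg_left (by nlinarith [sq_nonneg K]) w0
    nlinarith [mul_nonneg e8 hτ, mul_nonneg hC hτ, mul_nonneg hC w0, le_abs_self (w * a),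
      mul_le_mul_of_nonneg_left h6 hC]

end Jac

variable [MeasurableSpace E] [BorelSpace E]

open Jac in
theorem jac' : JAC E m := by
  intro hE c K hc hK
  obtain ⟨C, hC⟩ : ∃ C : ℝ, C = 2 * m * (K ^ 2 + 1) + 4 := ⟨_, rfl⟩
  have C0 : 0 ≤ 2 * m * (K ^ 2 + 1) := by positivity
  have p : 0 < (m + 1 : ℝ) * (K + 1) := by positivity
  have h0 : min (c / (2 * (K + 1))) (1 / 2 / ((m + 1) * (K + 1))) * (K + 1) ≤ c / 2 :=
    (mul_le_mul_of_nonneg_right (min_le_left _ _) (by positivity)).trans_eq (by field_simp)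
  have c0 : 0 < min (c / (2 * (K + 1))) (1 / 2 / ((m + 1) * (K + 1))) := by positivity
  refine ⟨_, C, 1 + 2 * (m + 1) * (K + 1) ^ 2 + 2 * C, c0, by nlinarith, by rw [hC]; positivity,
    fun W hW x hx => ?_⟩
  have h1 : |W x| + K * |W x| < c := by
    linarith [mul_le_mul_of_nonneg_right hx (show 0 ≤ K + 1 by positivity)]
  have h2 : |W x| < c := by linarith [mul_nonneg hK (abs_nonneg (W x))]
  refine ⟨(hW.line h1).2.trans (sub_self _), fun P hP => ?_⟩
  have h3 := (abs_tr_le (fderiv ℝ (grad W) x)).trans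
    (mul_le_mul_of_nonneg_left (hW.b2 x) (Nat.cast_nonneg _))
  have h4 := hW.q_le x
  rw [hE, Nat.cast_succ] at h3 h4
  obtain ⟨a1, a2, a3, a4⟩ := alg (d := dft W x) (τ := ‖proj P (grad W x)‖ ^ 2) (C := C)
    (j := jlo C W P x) hK (by simp) ((le_div_iff₀ p).1 (hx.trans (min_le_right _ _))) h3 (hW.bx x)
    h4 (by linarith) (sq_nonneg _) rfl (le_max_right _ _) (le_max_left _ _)
  have h5 : 0 ≤ C * (W x ^ 2 + ‖proj P (grad W x)‖ ^ 2) := by rw [hC]; positivity
  refine ⟨?_, ?_, a4, max_le (by linarith [abs_le.1 a1]) zero_le_two⟩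
  · rw [jlo, ENNReal.ofReal_max, ENNReal.ofReal_zero, max_eq_left zero_le]
    rcases le_total (‖proj P (grad W x)‖ ^ 2) (1 / 2) with h | h
    · refine le_trans (mul_le_mul_left (ENNReal.ofReal_le_ofReal ?_) _) (jac_le hE hW h2 a2 h)
      rw [hC]
      nlinarith [sq_nonneg (W x), sq_nonneg ‖proj P (grad W x)‖, mul_nonneg (Nat.cast_nonneg m)
        (sq_nonneg (W x)), mul_nonneg (mul_nonneg (Nat.cast_nonneg m) (sq_nonneg K))
        (sq_nonneg ‖proj P (grad W x)‖)]
    · rw [ENNReal.ofReal_of_nonpos, zero_mul]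
      · exact zero_le
      · nlinarith [abs_le.1 a1, sq_nonneg (W x)]
  · rw [rho_prj hW h2]
    nlinarith [mul_le_mul_of_nonneg_left a3 (rho_pos x).le]

end Vale.Agent.P218D
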