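import Vale.Agent.P218D.Bas

/-! Block SL: the area inequality for the projection of a graph-like set of density one. -/

open MeasureTheory Set Filter Topology Metric
open scoped ENNReal NNReal RealInnerProductSpace Pointwise

namespace Vale.Agent.P218D

open Vale.Agent.P214 (proj IsApproxTangent)
open Vale.Agent.P218 Vale.Agent.P218.H313

set_option linter.unusedSectionVars false
set_option linter.unusedVariables false

variable {E : Type*} [NormedAddCommGroup E] [InnerProductSpace ℝ E] [FiniteDimensional ℝ E]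
  [MeasurableSpace E] [BorelSpace E]
variable {m : ℕ} {c K : ℝ} {μ : Measure E} {W : E → ℝ} {x : E} {P : Submodule ℝ E}

namespace Proj

/-- the mass of the blow-ups of a compact set -/
lemma blow [IsFiniteMeasureOnCompacts μ] (hT : IsApproxTangent m μ x 1 P) {C t : Set E}
    (hC : IsCompact C) (ht : IsClosed t) (hd : Disjoint C t) : ∃ I : ℝ, 0 ≤ I ∧
      ENNReal.ofReal I ≤ (μH[m] : Measure E) ((P : Set E) ∩ tᶜ) ∧ ∀ δ > 0, ∀ᶠ r in 𝓝[>] (0 : ℝ),
        μ {y | r⁻¹ • (y - x) ∈ C} ≤ ENNReal.ofReal ((I + δ) * r ^ m) := by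
  obtain ⟨f, f1, f0, fc, f01⟩ := exists_continuous_one_zero_of_isCompact hC ht hd
  have I0 : 0 ≤ ∫ y in (P : Set E), f y ∂μH[m] := integral_nonneg fun y => (f01 y).1
  refine ⟨_, I0, ?_, fun δ hδ => ?_⟩
  · rw [← Real.enorm_eq_ofReal I0, inter_comm, ← Measure.restrict_apply ht.measurableSet.compl,
      ← lintegral_indicator_one ht.measurableSet.compl]
    refine (enorm_integral_le_lintegral_enorm _).trans (lintegral_mono fun y => ?_)
    by_cases hy : y ∈ t
    · simp [f0 hy]
    · rw [indicator_of_mem hy, Real.enorm_eq_ofReal (f01 y).1]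
      exact ENNReal.ofReal_le_one.2 (f01 y).2
  · have h1 := (hT.2 f f.continuous fc).eventually_lt_const
      (show _ < (∫ y in (P : Set E), f y ∂μH[m]) + δ by simpa using hδ)
    filter_upwards [h1, self_mem_nhdsWithin] with r hr (r0 : 0 < r)
    rw [div_lt_iff₀ (pow_pos r0 m)] at hr
    refine le_trans ?_ (ENNReal.ofReal_le_ofReal hr.le)
    have c1 : Continuous fun y : E => r⁻¹ • (y - x) := by fun_prop
    have i : Integrable (fun y => f (r⁻¹ • (y - x))) μ :=
      (f.continuous.comp c1).integrable_of_hasCompactSupport (fc.comp_homeomorph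
        ((Homeomorph.subRight x).trans (Homeomorph.smulOfNeZero r⁻¹ (inv_ne_zero r0.ne'))))
    rw [ofReal_integral_eq_lintegral_ofReal i (.of_forall fun y => (f01 _).1)]
    refine (lintegral_indicator_one (hC.measurableSet.preimage c1.measurable)).symm.trans_le
      (lintegral_mono fun y => ?_)
    by_cases hy : r⁻¹ • (y - x) ∈ C <;> simp [indicator, hy, @f1 (r⁻¹ • (y - x))]

lemma scale (P : Submodule ℝ E) (A : E →L[ℝ] E) {s : ℝ} (hs : 0 < s) :
    (μH[m] : Measure E) ((P : Set E) ∩ {v | s ≤ ‖A v‖}ᶜ) ≤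
      ENNReal.ofReal (s ^ m) * (μH[m] : Measure E) ((P : Set E) ∩ {v | ‖A v‖ ≤ 1}) := by
  refine (measure_mono (t := s • ((P : Set E) ∩ {v | ‖A v‖ ≤ 1})) fun v hv => ?_).trans_eq ?_
  · refine (mem_smul_set_iff_inv_smul_mem₀ hs.ne' _ _).2 ⟨P.smul_mem _ hv.1, ?_⟩
    have : ‖A v‖ < s := not_le.1 hv.2
    rw [mem_ofPred_eq, map_smul, norm_smul, norm_inv, Real.norm_of_nonneg hs.le,
      inv_mul_le_iff₀ hs, mul_one]
    exact this.le
  · rw [Measure.hausdorffMeasure_smul₀ (Nat.cast_nonneg m) hs.ne', ENNReal.smul_def, smul_eq_mul,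
      NNReal.rpow_natCast, ENNReal.ofReal_pow hs.le, ENNReal.coe_pow, ← Real.enorm_eq_ofReal hs.le]
    rfl

/-- the preimage of a small ball lies in a blown-down compact set -/
lemma pre (hW : TubeB W c K) {G : Set E} (hL : ∀ x' ∈ G, ‖x - x'‖ ≤ 4 * ‖prj W x - prj W x'‖)
    {ε : ℝ} (hε : 0 < ε) : ∀ᶠ r in 𝓝[>] (0 : ℝ), ∀ y ∈ G, prj W y ∈ closedBall (prj W x) r →
      y ∈ closedBall x (4 * r) ∧
        r⁻¹ • (y - x) ∈ closedBall (0 : E) 4 ∩ {v | ‖dpr W x v‖ ≤ 1 + ε} := by
  obtain ⟨δ, δ0, hδ⟩ := Metric.eventually_nhds_iff.1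
    ((hW.hasFDerivAt_prj x).isLittleO.def (c := ε / 4) (by positivity))
  filter_upwards [Ioo_mem_nhdsGT (show 0 < δ / 4 by positivity)] with r hr y hy hy'
  have r0 := hr.1
  have h1 := hL y hy
  rw [mem_closedBall_iff_norm] at hy'
  rw [norm_sub_rev x, norm_sub_rev (prj W x)] at h1
  have h2 := hδ (y := y) (by rw [dist_eq_norm]; linarith [hr.2])
  have h3 := norm_sub_norm_le (dpr W x (y - x)) (prj W y - prj W x)
  rw [norm_sub_rev] at h2
  refine ⟨by rw [mem_closedBall_iff_norm]; linarith, ?_, ?_⟩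
  · rw [mem_closedBall_zero_iff, norm_smul, norm_inv, Real.norm_of_nonneg r0.le,
      inv_mul_le_iff₀ r0]
    linarith
  · rw [mem_ofPred_eq, map_smul, norm_smul, norm_inv, Real.norm_of_nonneg r0.le,
      inv_mul_le_iff₀ r0]
    nlinarith

/-- the local estimate at a Lebesgue point -/
lemma loc [IsFiniteMeasureOnCompacts μ] (hW : TubeB W c K) {G : Set E} {j : E → ℝ} (hx : x ∈ G)
    (hT : IsApproxTangent m μ x 1 P) (j0 : 0 ≤ j x)
    (hj : ENNReal.ofReal (j x) * (μH[m] : Measure E) ((P : Set E) ∩ {v | ‖dpr W x v‖ ≤ 1}) ≤ wm m)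
    (hL : ∀ x' ∈ G, ‖x - x'‖ ≤ 4 * ‖prj W x - prj W x'‖) (hG : MeasurableSet G)
    (hl : Tendsto (fun r => (∫⁻ y in closedBall x r, ‖G.indicator j y - G.indicator j x‖ₑ ∂μ) /
      μ (closedBall x r)) (𝓝[>] 0) (𝓝 0)) {η : ℝ} (hη : 0 < η) :
    ∀ᶠ r in 𝓝[>] (0 : ℝ), ∫⁻ y in G ∩ prj W ⁻¹' closedBall (prj W x) r, ENNReal.ofReal (j y) ∂μ ≤
      ENNReal.ofReal (1 + η) * (ENNReal.ofReal (r ^ m) * wm m) := by
  obtain ⟨w, hw, w0⟩ : ∃ w : ℝ, wm m = ENNReal.ofReal w ∧ 0 < w :=
    ⟨_, (ENNReal.ofReal_toReal (wm_lt_top m).ne).symm,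
      ENNReal.toReal_pos (wm_pos m).ne' (wm_lt_top m).ne⟩
  obtain ⟨J, J0, -, hJ⟩ := blow hT (isCompact_closedBall (0 : E) 4) isClosed_empty
    (disjoint_empty _)
  obtain ⟨ε, he, ε0⟩ : ∃ ε : ℝ, (1 + 2 * ε) ^ m * w + j x * ε + ε * (J + 1) < (1 + η) * w ∧
      0 < ε := by
    have : ContinuousAt (fun ε : ℝ => (1 + 2 * ε) ^ m * w + j x * ε + ε * (J + 1)) 0 := by
      fun_prop
    exact (((this.eventually_lt_const (show _ < (1 + η) * w by
      simpa [w0] using hη)).filter_mono nhdsWithin_le_nhds).and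
      (eventually_mem_nhdsWithin (a := (0 : ℝ)) (s := Ioi 0))).exists
  have k : IsCompact (closedBall (0 : E) 4 ∩ {v | ‖dpr W x v‖ ≤ 1 + ε}) :=
    (isCompact_closedBall _ _).inter_right (isClosed_le (by fun_prop) continuous_const)
  obtain ⟨I, I0, hI, hI'⟩ := blow hT k (t := {v | 1 + 2 * ε ≤ ‖dpr W x v‖})
    (isClosed_le continuous_const (by fun_prop))
    (disjoint_left.2 fun v h1 h2 => by linarith [h1.2.out, h2.out])
  have h1 : j x * I ≤ (1 + 2 * ε) ^ m * w := by
    rw [← ENNReal.ofReal_le_ofReal_iff (by positivity), ENNReal.ofReal_mul j0,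
      ENNReal.ofReal_mul (by positivity), ← hw]
    refine (mul_le_mul_right (hI.trans (scale P _ (by positivity))) _).trans ?_
    rw [mul_left_comm]
    exact mul_le_mul_right hj _
  have t4 : Tendsto (fun r : ℝ => 4 * r) (𝓝[>] 0) (𝓝[>] 0) :=
    tendsto_nhdsWithin_iff.2 ⟨tendsto_nhdsWithin_of_tendsto_nhds
      (Continuous.tendsto' (by fun_prop) _ _ (by simp)),
      eventually_mem_nhdsWithin.mono fun r (hr : 0 < r) => mul_pos four_pos hr⟩
  filter_upwards [pre hW hL ε0, hJ 1 one_pos, hI' ε ε0, self_mem_nhdsWithin,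
    t4.eventually (hl.eventually_lt_const (ENNReal.ofReal_pos.2 ε0))] with r h2 h3 h4 (r0 : 0 < r) h5
  have mS : MeasurableSet (G ∩ prj W ⁻¹' closedBall (prj W x) r) :=
    hG.inter (measurableSet_closedBall.preimage hW.cont_prj.measurable)
  have h6 : μ (closedBall x (4 * r)) ≤ ENNReal.ofReal ((J + 1) * r ^ m) :=
    (measure_mono fun y hy => by
      rw [mem_ofPred_eq, mem_closedBall_zero_iff, norm_smul, norm_inv, Real.norm_of_nonneg r0.le,
        inv_mul_le_iff₀ r0, mul_comm, ← dist_eq_norm]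
      exact hy).trans h3
  calc _ ≤ ∫⁻ y in G ∩ prj W ⁻¹' closedBall (prj W x) r,
        (ENNReal.ofReal (j x) + ‖G.indicator j y - G.indicator j x‖ₑ) ∂μ :=
        setLIntegral_mono' mS fun y hy => by
          rw [indicator_of_mem hy.1, indicator_of_mem hx, Real.enorm_eq_ofReal_abs,
            ← ENNReal.ofReal_add j0 (abs_nonneg _)]
          exact ENNReal.ofReal_le_ofReal (by linarith [le_abs_self (j y - j x)])
    _ ≤ ENNReal.ofReal (j x) * ENNReal.ofReal ((I + ε) * r ^ m) +
        ENNReal.ofReal ε * ENNReal.ofReal ((J + 1) * r ^ m) := by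
        rw [lintegral_add_left measurable_const, setLIntegral_const]
        refine add_le_add (mul_le_mul_right ((measure_mono fun y hy =>
          (h2 y hy.1 hy.2).2).trans h4) _) ((lintegral_mono_set fun y hy =>
          (h2 y hy.1 hy.2).1).trans ?_)
        exact (ENNReal.div_le_iff_le_mul (by simp) (.inl measure_closedBall_lt_top.ne)).1 h5.le
          |>.trans (mul_le_mul_right h6 _)
    _ ≤ _ := by
        rw [hw, ← ENNReal.ofReal_mul j0, ← ENNReal.ofReal_mul ε0.le,
          ← ENNReal.ofReal_add (by positivity) (by positivity),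
          ← ENNReal.ofReal_mul (by positivity), ← ENNReal.ofReal_mul (by positivity)]
        refine ENNReal.ofReal_le_ofReal ?_
        nlinarith [pow_pos r0 m]

end Proj

open Proj in
theorem proj' (zs : ZS E m) : PROJ E m := by
  intro hE W c K hW μ T G j hμ hG hb mj j0 j2 hx hL f hf
  obtain ⟨-, z2, z3⟩ := zs hE c K hW.cpos hW.K_nonneg
  have := z2 W hW
  have mp := hW.cont_prj.measurable
  have mj' : AEMeasurable (fun x => ENNReal.ofReal (j x)) (μ.restrict G) :=
    mj.restrict.ennreal_ofReal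
  set ν := (μ.restrict G).withDensity fun x => ENNReal.ofReal (j x) with hν
  have fG : μ G < ∞ := hb.measure_lt_top
  have i : IntegrableOn j G μ := .of_bound fG mj.restrict.aestronglyMeasurable 2
    (ae_restrict_of_forall_mem hG fun x hx => by rw [Real.norm_of_nonneg (j0 x)]; exact j2 x hx)
  have : IsFiniteMeasure ν := isFiniteMeasure_withDensity_ofReal i.2
  have key : ν.map (prj W) ≤ hm m W := by
    have hl := (Besicovitch.vitaliFamily μ).ae_tendsto_lintegral_enorm_sub_div_of_integrable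
      ((integrable_indicator_iff hG).2 i)
    obtain ⟨N, hN, mN, N0⟩ := exists_measurable_superset_of_null (ae_iff.1 hl)
    have mS : MeasurableSet (prj W '' (G \ N)) := (hG.diff mN).image_of_continuousOn_injOn
      hW.cont_prj.continuousOn fun a ha b hb e => by
        have := hL a ha.1 b hb.1
        rwa [e, sub_self, norm_zero, mul_zero, norm_le_zero_iff, sub_eq_zero] at this
    have S0 : ν.map (prj W) (prj W '' (G \ N))ᶜ = 0 := by
      rw [Measure.map_apply mp mS.compl]
      refine withDensity_absolutelyContinuous _ _ ?_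
      rw [Measure.restrict_apply (mp mS.compl)]
      exact measure_mono_null (fun y hy => not_not.1 fun h => hy.1 ⟨y, ⟨hy.2, h⟩, rfl⟩) N0
    refine Measure.le_iff.2 fun A hA => ?_
    have k : ∀ η : ℝ, 0 < η → ν.map (prj W) A ≤ ENNReal.ofReal ((1 + η) ^ 2) * hm m W A := by
      intro η hη
      have : IsLocallyFiniteMeasure (((1 + η) ^ 2).toNNReal • hm m W) := inferInstance
      rw [← measure_inter_conull S0]
      refine ((Besicovitch.vitaliFamily (ν.map (prj W))).measure_le_of_frequently_le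
        (((1 + η) ^ 2).toNNReal • hm m W) .rfl _ ?_).trans
        (mul_le_mul_right (measure_mono inter_subset_left) _)
      rintro _ ⟨-, x, ⟨h1, h2⟩, rfl⟩
      refine (Besicovitch.tendsto_filterAt _ _).frequently (Eventually.frequently ?_)
      filter_upwards [loc hW h1 (hx x h1).2.1 (j0 x) (hx x h1).2.2 (hL x h1) hG
        ((not_not.1 fun h => h2 (hN h)).comp (Besicovitch.tendsto_filterAt μ x)) hη,
        z3 W hW _ (hx x h1).1 η hη] with r h3 h4
      rw [Measure.map_apply mp measurableSet_closedBall, hν,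
        withDensity_apply _ (mp measurableSet_closedBall),
        Measure.restrict_restrict (mp measurableSet_closedBall), inter_comm]
      refine (h3.trans (mul_le_mul_right h4 _)).trans_eq ?_
      rw [← mul_assoc, ← ENNReal.ofReal_mul (by positivity), ← sq]
      rfl
    by_cases hA' : hm m W A = ∞
    · simp [hA']
    have t : Tendsto (fun η : ℝ => ENNReal.ofReal ((1 + η) ^ 2) * hm m W A) (𝓝[>] 0)
        (𝓝 (ENNReal.ofReal ((1 + 0) ^ 2) * hm m W A)) :=
      ENNReal.Tendsto.mul_const (ENNReal.tendsto_ofReal (tendsto_nhdsWithin_of_tendsto_nhds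
        (Continuous.tendsto (by fun_prop) 0))) (.inr hA')
    simpa using ge_of_tendsto t (eventually_mem_nhdsWithin.mono k)
  refine le_trans (le_of_eq ?_) (lintegral_mono' key le_rfl)
  rw [lintegral_map hf mp]
  exact (lintegral_withDensity_eq_lintegral_mul₀ mj' (hf.comp mp).aemeasurable).symm

end Vale.Agent.P218D
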