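import Vale.Agent.P218D.Loc

/-! Block SL: the static Łojasiewicz inequality. -/

open MeasureTheory Set Filter Topology Metric
open scoped ENNReal NNReal RealInnerProductSpace

namespace Vale.Agent.P218D

open Vale.Agent.P214 (proj IsApproxTangent divAlong)
open Vale.Agent.P218 Vale.Agent.P218.H313

set_option linter.unusedSectionVars false
set_option linter.unusedVariables false

variable {E : Type*} [NormedAddCommGroup E] [InnerProductSpace ℝ E] [FiniteDimensional ℝ E]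
  [MeasurableSpace E] [BorelSpace E]
variable {m : ℕ} {N : ℝ → Measure E} {T : ℝ → E → Submodule ℝ E} {H : ℝ → E → E} {s₀ : ℝ}
  {κ : Measure E}

/-- the mass ratios of slices close to `κ` -/
lemma near_JJ {Cr r₀ : ℝ} (hCr : 0 < Cr) (hR : ∀ᶠ s in nearF m N T H κ, Rat m (N s) Cr)
    (hr : 0 < r₀) (hr1 : r₀ ≤ 1 / 2) [IsLocallyFiniteMeasure κ]
    (hκ : ∀ y : E, ∫⁻ z, ENNReal.ofReal (H313.ker (r₀⁻¹ • (z - y))) ∂κ
      ≤ ENNReal.ofReal ((1 + 1 / 8) * om m * r₀ ^ m)) (R₀ : ℝ) :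
    ∀ᶠ s in nearF m N T H κ, ∀ y : E, ‖y‖ ≤ R₀ → JJ m (N s) (fun _ => 1) y r₀ ≤ 5 / 4 * om m := by
  have hom := om_pos m
  have hrm : 0 < r₀ ^ m := by positivity
  obtain ⟨δ, hδ, hδ1, hδ2⟩ : ∃ δ : ℝ, 0 < δ ∧ δ ≤ r₀ ∧
      4 * (δ / r₀) * (Cr * (2 * r₀) ^ m) ≤ om m / 16 * r₀ ^ m := by
    refine ⟨min 1 (om m / 16 / (4 * Cr * 2 ^ m)) * r₀, by positivity,
      mul_le_of_le_one_left hr.le (min_le_left _ _), ?_⟩
    rw [mul_div_cancel_right₀ _ hr.ne', mul_pow]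
    calc _ ≤ 4 * (om m / 16 / (4 * Cr * 2 ^ m)) * (Cr * (2 ^ m * r₀ ^ m)) := by
          gcongr; exact min_le_right _ _
      _ = _ := by field_simp
  obtain ⟨t, -, ht, hcov⟩ := finite_cover_balls_of_compact (isCompact_closedBall (0 : E) R₀) hδ
  have h1 : ∀ y ∈ t, ∀ᶠ s in nearF m N T H κ, ∫ z, H313.ker (r₀⁻¹ • (z - y)) ∂(N s)
      < (1 + 1 / 8) * om m * r₀ ^ m + om m / 16 * r₀ ^ m := by
    intro y _
    refine (nearF_lim (continuous_ker_scale r₀ y) (hasCompactSupport_ker_scale hr y)).eventually_lt_const ?_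
    have h2 := hκ y
    rw [← ofReal_integral_eq_lintegral_ofReal (integrable_ker_scale y hr)
      (Eventually.of_forall fun z => kern_nonneg _), ENNReal.ofReal_le_ofReal_iff (by positivity)] at h2
    have : 0 < om m / 16 * r₀ ^ m := by positivity
    linarith
  filter_upwards [(eventually_all_finite ht).2 h1, hR, nearF_sl] with s h2 h3 h4 y hy
  have := h4.mc.fin
  obtain ⟨y', hy', hyy⟩ := mem_iUnion₂.1 (hcov (mem_closedBall_zero_iff.2 hy))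
  rw [mem_ball, dist_comm, dist_eq_norm] at hyy
  have h5 := ker_shift (μ := N s) (h := fun _ => 1) continuous_const (fun _ => zero_le_one)
    (fun _ => le_rfl) hr (hyy.le.trans hδ1)
  have h6 : 4 * (‖y' - y‖ / r₀) * (N s).real (closedBall y' (2 * r₀))
      ≤ 4 * (δ / r₀) * (Cr * (2 * r₀) ^ m) := by
    gcongr
    exact h3 y' _ (by positivity) (by linarith)
  have h7 := h2 y' hy'
  unfold JJ
  rw [div_le_iff₀ hrm]
  simp only [mul_one] at h5 ⊢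
  linarith

theorem sli (hZ : ZS E m) (hG : GAU E m) (hM : MASS E m) : SLI E m := by
  intro hm0 hE k W₀ ψ γ W V lam Z c Rψ r K hL N T H s₀ h hlf
  have hW₀ := tubeB_of_D hL.shr
  have hK := hW₀.K_nonneg
  have hc := hW₀.cpos
  obtain ⟨K', C, hC, hg⟩ := hG hm0 hE k W₀ ψ γ W V lam Z c Rψ r K hL N T H s₀ h hlf
  obtain ⟨Cr, hCr, hR⟩ : ∃ Cr : ℝ, 0 < Cr ∧ ∀ s, s₀ ≤ s → Rat m (N s) Cr := by
    obtain ⟨C, hC⟩ := h.ratio
    refine ⟨max C 1, by positivity, fun s hs x r h1 h2 => (hC s hs x r h1 h2).trans ?_⟩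
    gcongr; exact le_max_left _ _
  obtain ⟨β, hβ, hβ1, hβγ⟩ : ∃ β : ℝ, 1 / 2 < β ∧ β < 1 ∧ β ≤ γ :=
    ⟨min γ (3 / 4), lt_min hL.gam (by norm_num), (min_le_right _ _).trans_lt (by norm_num),
      min_le_left _ _⟩
  have hβ0 : 0 < β := by linarith
  obtain ⟨r₄, hr₄, hM1⟩ := hM hm0 hE c (max K' 0) Cr β hc (le_max_right _ _) hCr hβ1
  obtain ⟨r₁, hr₁, hZ1⟩ := (hZ hE c K hc hK).1 (1 / 8) (by norm_num)
  obtain ⟨r₀, hr₀, h1, h2, h3⟩ : ∃ r₀ : ℝ, 0 < r₀ ∧ r₀ ≤ r₄ ∧ r₀ ≤ r₁ ∧ r₀ ≤ 1 / 2 :=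
    ⟨min r₄ (min r₁ (1 / 2)), by positivity, min_le_left _ _,
      (min_le_right _ _).trans (min_le_left _ _), (min_le_right _ _).trans (min_le_right _ _)⟩
  obtain ⟨R₀, CM, ε₀, hCM, hε₀, hM2⟩ := hM1 r₀ hr₀ h1
  have hlate : ∀ᶠ s in nearF m N T H (hm m W₀), s₀ ≤ s := nearF_atTop (eventually_ge_atTop s₀)
  have hJ := near_JJ (T := T) (H := H) hCr (hlate.mono hR) hr₀ h3
    (fun y => hZ1 W₀ hW₀ y r₀ hr₀ h2) R₀
  obtain ⟨ε₁, hε₁, h4⟩ : ∃ ε₁ : ℝ, 0 < ε₁ ∧ (C + 1) * (2 * ε₁) = min ε₀ 1 :=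
    ⟨min ε₀ 1 / (2 * (C + 1)), by positivity, by field_simp⟩
  have hF0 := RF.FA_nonneg (N s₀)
  have hF1 := RF.FA_nonneg (hm m W₀)
  refine ⟨β, (K + CM) * (C + 1) ^ β + FA (N s₀) / ε₁ ^ β, hβ, ?_⟩
  filter_upwards [nearI_le hg.curry, nearI_le hlate, nearI_le hJ, nearI_le nearF_sl, nearI_int]
    with s hs hs0 hsJ hS hI
  have hd : 0 ≤ dis (N s) (T s) (H s) := dis_nonneg
  generalize hdd : dis (N s) (T s) (H s) = d at hs hd ⊢
  have p1 : 0 ≤ (K + CM) * (C + 1) ^ β * d ^ β := by positivity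
  have p2 : 0 ≤ FA (N s₀) / ε₁ ^ β * d ^ β := by positivity
  rw [add_mul]
  rcases le_total ε₁ d with hbig | hsm
  · have a1 := h.FA_anti le_rfl hs0
    have a2 : FA (N s₀) ≤ FA (N s₀) / ε₁ ^ β * d ^ β := by
      calc _ = FA (N s₀) / ε₁ ^ β * ε₁ ^ β := by field_simp
        _ ≤ _ := by gcongr
    linarith
  have key : ∀ᶠ ε in 𝓝[>] (0 : ℝ), FA (N s) - FA (hm m W₀)
      ≤ (K + CM) * ((C + 1) * (d + ε)) ^ β + K * ε := by
    filter_upwards [hs, Ioc_mem_nhdsGT hε₁] with ε ⟨x, hx, hεr, Φ, hΦ, hb⟩ hε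
    have hDD := DD_nonneg (μ := N s) (W := W x ε) 0
    have hTG := TG_nonneg (μ := N s) (T := T s) (W := W x ε) 0
    have hPP := PP_nonneg (μ := N s) (Φ := Φ)
    have hε0 := hε.1
    have hQ0 : 0 < (C + 1) * (d + ε) := by positivity
    have hQ : (C + 1) * (d + ε) ≤ min ε₀ 1 := by rw [← h4]; gcongr; linarith [hε.2]
    have e1 : (C + 1) * (d + ε) = C * (d + ε) + d + ε := by ring
    have a1 := hM2 (W x ε) Φ (N s) (T s) (H s) _ _ (hΦ.mono hc le_rfl (le_max_left _ _)) hS hI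
      (hR s hs0) hsJ (by positivity) (hL.area x ε hx hε0 hεr)
      (by rw [hdd]; linarith [sq_nonneg ‖lam x ε‖]) hQ0 (hQ.trans (min_le_left _ _))
    have a2 : ‖lam x ε‖ ^ (2 * γ) ≤ ((C + 1) * (d + ε)) ^ β := by
      rw [Real.rpow_mul (norm_nonneg _), Real.rpow_two]
      calc _ ≤ ((C + 1) * (d + ε)) ^ γ :=
            Real.rpow_le_rpow (sq_nonneg _) (by linarith) (by linarith)
        _ ≤ _ := Real.rpow_le_rpow_of_exponent_ge hQ0 (hQ.trans (min_le_right _ _)) hβγ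
    have a3 := mul_le_mul_of_nonneg_left a2 hK
    linarith
  have hlim : Tendsto (fun ε : ℝ => (K + CM) * ((C + 1) * (d + ε)) ^ β + K * ε) (𝓝[>] 0)
      (𝓝 ((K + CM) * ((C + 1) * (d + 0)) ^ β + K * 0)) := by
    refine Tendsto.mono_left (Continuous.tendsto ?_ 0) nhdsWithin_le_nhds
    exact (continuous_const.mul ((by fun_prop : Continuous fun ε : ℝ => (C + 1) * (d + ε)).rpow_const
      fun _ => Or.inr hβ0.le)).add (by fun_prop)
  have a4 := ge_of_tendsto hlim key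
  rw [add_zero, mul_zero, add_zero, Real.mul_rpow (by positivity) hd, ← mul_assoc] at a4
  linarith

end Vale.Agent.P218D
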