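import Vale.Agent.P218D.Loc

/-! Block SL: the mass ratio along an inward tangential step. -/

open MeasureTheory Set Filter Topology Metric
open scoped ENNReal NNReal RealInnerProductSpace

namespace Vale.Agent.P218D

open Vale.Agent.P214 (proj IsApproxTangent divAlong)
open Vale.Agent.P218 Vale.Agent.P218.H313

set_option linter.unusedSectionVars false
set_option linter.unusedVariables false

variable {E : Type*} [NormedAddCommGroup E] [InnerProductSpace ℝ E] [FiniteDimensional ℝ E]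
  [MeasurableSpace E] [BorelSpace E]
variable {m : ℕ} {c K : ℝ}
variable {μ : Measure E} {T : E → Submodule ℝ E} {H : E → E} {W : E → ℝ}

/-- the derivative of the scaled kernel -/
noncomputable def dk (t : ℝ) (x z v : E) : ℝ :=
  psi' (‖z - x‖ ^ 2 / t ^ 2) * (2 * ⟪z - x, v⟫ / t ^ 2)

lemma dk_zero {t : ℝ} (ht : 0 < t) {x z : E} (hz : z ∉ closedBall x t) (v : E) :
    dk t x z v = 0 := by
  unfold dk
  rw [mem_closedBall, not_le, dist_eq_norm] at hz
  rw [psi'_zero, zero_mul]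
  rw [one_le_div (by positivity)]
  gcongr

lemma abs_dk_le {t : ℝ} (ht : 0 < t) (x z v : E) : |dk t x z v| ≤ 4 / t * ‖v‖ := by
  by_cases hz : z ∈ closedBall x t
  · rw [mem_closedBall, dist_eq_norm] at hz
    unfold dk
    rw [abs_mul, abs_div, abs_mul, abs_of_pos (by positivity : 0 < t ^ 2), abs_two]
    have h1 := psi'_bound (show 0 ≤ ‖z - x‖ ^ 2 / t ^ 2 by positivity)
    have h2 : |⟪z - x, v⟫| ≤ t * ‖v‖ := (abs_real_inner_le_norm _ _).trans (by gcongr)
    calc _ ≤ 2 * (2 * (t * ‖v‖) / t ^ 2) := by gcongr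
      _ = _ := by field_simp; ring
  · rw [dk_zero ht hz, abs_zero]; positivity

lemma dk_add (t : ℝ) (x z v w : E) : dk t x z (v + w) = dk t x z v + dk t x z w := by
  unfold dk; rw [inner_add_right]; ring

lemma cont_dk (t : ℝ) (x v : E) : Continuous fun z => dk t x z v := by
  unfold dk
  have := continuous_psi'
  fun_prop

lemma hasDerivAt_shift (t : ℝ) (y e z : E) (τ : ℝ) :
    HasDerivAt (fun τ : ℝ => psi (‖z - (y - τ • e)‖ ^ 2 / t ^ 2)) (dk t (y - τ • e) z e) τ := by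
  have h0 : HasDerivAt (fun τ : ℝ => z - (y - τ • e)) e τ := by
    have := (((hasDerivAt_id τ).smul_const e).const_sub y).const_sub z
    simpa using this
  have h1 := h0.norm_sq.div_const (t ^ 2)
  exact (hasDerivAt_psi _).comp τ h1

/-- the first variation along a constant vector -/
lemma dk_lower (hS : Slice m μ T H) {t : ℝ} (ht : 0 < t) (x e : E) (he : ‖e‖ ≤ 1) {B : Set E}
    (hB : IsCompact B) (hxB : closedBall x t ⊆ B) :
    -∫ z in B, (‖H z‖ + 4 / t * ‖e - proj (T z) e‖) ∂μ ≤ ∫ z in B, dk t x z e ∂μ := by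
  have := hS.mc.fin
  have hFc := contDiff_Fw (h := fun _ : E => (1 : ℝ)) contDiff_const x t
  have hXC : ContDiff ℝ 1 fun z => Fw (fun _ : E => (1 : ℝ)) x t z • e := hFc.smul contDiff_const
  have hXc : HasCompactSupport fun z => Fw (fun _ : E => (1 : ℝ)) x t z • e := by
    refine HasCompactSupport.intro (isCompact_closedBall x t) fun y hy => ?_
    rw [Fw_zero ht hy, zero_smul]
  have hfv := hS.mc.fv _ hXC hXc
  have hdiv : ∀ z, divAlong (T z) (fun z => Fw (fun _ : E => (1 : ℝ)) x t z • e) z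
      = dk t x z (proj (T z) e) := by
    intro z
    rw [divAlong_smul (T z) (hFc.differentiable (by norm_num) z) (differentiableAt_const e),
      H552.inner_proj_left, inner_grad, fderiv_Fw contDiff_const, divAlong_eq]
    simp [dk, tr]
  simp only [hdiv] at hfv
  have pm := hS.proj_apply_meas (v := fun _ => e) aestronglyMeasurable_const
  have mk : ∀ {v : E → E}, AEStronglyMeasurable v μ →
      AEStronglyMeasurable (fun z => dk t x z (v z)) μ := by
    intro v hv
    unfold dk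
    have h1 : Continuous fun z : E => psi' (‖z - x‖ ^ 2 / t ^ 2) := by
      have := continuous_psi'
      fun_prop
    exact h1.aestronglyMeasurable.mul ((((continuous_id.sub continuous_const).aestronglyMeasurable.inner
      hv).const_mul 2).mul_const (t ^ 2)⁻¹)
  have ik : ∀ {v : E → E}, AEStronglyMeasurable v μ → (∀ z, ‖v z‖ ≤ 1) →
      Integrable (fun z => dk t x z (v z)) μ := fun {v} hv h1 =>
    hS.integrable_ball (mk hv) (fun z hz => dk_zero ht hz _) (C := 4 / t)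
      (Eventually.of_forall fun z => (abs_dk_le ht _ _ _).trans (by
        have := h1 z
        gcongr; nlinarith [sq_nonneg ‖H z‖]))
  have i1 := ik pm fun z => (norm_proj_apply_le _ _).trans he
  have i2 : Integrable (fun z => dk t x z (e - proj (T z) e)) μ :=
    ik (aestronglyMeasurable_const.sub pm) fun z => (norm_sub_proj_le _ _).trans he
  have hF0 : ∀ z, 0 ≤ Fw (fun _ : E => (1 : ℝ)) x t z := fun z => by
    unfold Fw; rw [mul_one]; exact psi_nonneg _
  have hF1 : ∀ z, Fw (fun _ : E => (1 : ℝ)) x t z ≤ 1 := fun z => by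
    unfold Fw; rw [mul_one]; exact psi_le_one (by positivity)
  have b3 : ∀ z, |⟪Fw (fun _ : E => (1 : ℝ)) x t z • e, H z⟫| ≤ ‖H z‖ := fun z => by
    refine (abs_real_inner_le_norm _ _).trans (mul_le_of_le_one_left (norm_nonneg _) ?_)
    rw [norm_smul, Real.norm_of_nonneg (hF0 z)]
    exact mul_le_one₀ (hF1 z) (norm_nonneg _) he
  have i3 : Integrable (fun z => ⟪Fw (fun _ : E => (1 : ℝ)) x t z • e, H z⟫) μ :=
    hS.integrable_ball (hXC.continuous.aestronglyMeasurable.inner hS.mc.meas)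
      (fun z hz => by rw [Fw_zero ht hz, zero_smul, inner_zero_left]) (C := 1)
      (Eventually.of_forall fun z => (b3 z).trans (by
        nlinarith [sq_nonneg (‖H z‖ - 1), norm_nonneg (H z)]))
  have e1 : ∫ z in B, dk t x z e ∂μ = ∫ z in B,
      (dk t x z (e - proj (T z) e) - ⟪Fw (fun _ : E => (1 : ℝ)) x t z • e, H z⟫) ∂μ := by
    rw [setIntegral_eq_integral_of_forall_compl_eq_zero fun z hz => dk_zero ht (mt (@hxB z) hz) _,
      setIntegral_eq_integral_of_forall_compl_eq_zero fun z hz => by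
        rw [dk_zero ht (mt (@hxB z) hz), Fw_zero ht (mt (@hxB z) hz)]; simp,
      integral_sub i2 i3, sub_eq_add_neg, ← hfv, ← integral_add i2 i1]
    congr 1; ext z
    rw [← dk_add]; simp
  have iH : IntegrableOn (fun z => ‖H z‖) B μ := by
    have h3 : IntegrableOn (fun _ : E => (1 : ℝ)) B μ := continuousOn_const.integrableOn_compact hB
    refine Integrable.mono' (h3.add (hS.mc.locL2 B hB)) hS.mc.meas.norm.restrict
      (Eventually.of_forall fun z => ?_)
    simp only [norm_norm, Pi.add_apply]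
    nlinarith [sq_nonneg (‖H z‖ - 1), norm_nonneg (H z)]
  have iP : IntegrableOn (fun z => 4 / t * ‖e - proj (T z) e‖) B μ := by
    have h3 : IntegrableOn (fun _ : E => (1 : ℝ)) B μ := continuousOn_const.integrableOn_compact hB
    refine (Integrable.mono' h3 (aestronglyMeasurable_const.sub pm).norm.restrict
      (Eventually.of_forall fun z => ?_)).const_mul _
    rw [norm_norm]
    exact (norm_sub_proj_le _ _).trans he
  rw [e1, ← integral_neg]
  refine integral_mono (iH.add iP).neg (i2.sub i3).integrableOn fun z => ?_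
  have h1 := (abs_le.1 (abs_dk_le ht x z (e - proj (T z) e))).1
  have h2 := (abs_le.1 (b3 z)).2
  simp only
  linarith

lemma shift_le (hS : Slice m μ T H) {t : ℝ} (ht : 0 < t) (y e : E) (he : ‖e‖ ≤ 1) :
    ∫ z, H313.ker (t⁻¹ • (z - y)) ∂μ ≤ ∫ z, H313.ker (t⁻¹ • (z - (y - (3 * t) • e))) ∂μ
      + 3 * t * ∫ z in closedBall y (4 * t), (‖H z‖ + 4 / t * ‖e - proj (T z) e‖) ∂μ := by
  have := hS.mc.fin
  set B := closedBall y (4 * t) with hB
  have hBc : IsCompact B := isCompact_closedBall _ _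
  have hsub : ∀ τ ∈ Icc 0 (3 * t), closedBall (y - τ • e) t ⊆ B := by
    intro τ hτ
    refine closedBall_subset_closedBall' ?_
    rw [dist_eq_norm, sub_sub_cancel_left, norm_neg, norm_smul, Real.norm_of_nonneg hτ.1]
    nlinarith [hτ.1, hτ.2]
  have hc : ∀ τ : ℝ, Continuous fun z : E => psi (‖z - (y - τ • e)‖ ^ 2 / t ^ 2) := fun τ =>
    contDiff_psi.continuous.comp (by fun_prop)
  have hd : ∀ τ : ℝ, HasDerivAt (fun τ : ℝ => ∫ z in B, psi (‖z - (y - τ • e)‖ ^ 2 / t ^ 2) ∂μ)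
      (∫ z in B, dk t (y - τ • e) z e ∂μ) τ := fun τ =>
    (hasDerivAt_integral_of_dominated_loc_of_deriv_le (μ := μ.restrict B) (s := univ)
      (F := fun (τ : ℝ) z => psi (‖z - (y - τ • e)‖ ^ 2 / t ^ 2))
      (F' := fun (τ : ℝ) z => dk t (y - τ • e) z e) (bound := fun _ => 4 / t * ‖e‖) univ_mem
      (Eventually.of_forall fun τ => (hc τ).aestronglyMeasurable)
      ((hc τ).continuousOn.integrableOn_compact hBc) (cont_dk _ _ _).aestronglyMeasurable
      (Eventually.of_forall fun z τ _ => abs_dk_le ht _ _ _)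
      (continuousOn_const.integrableOn_compact hBc)
      (Eventually.of_forall fun z τ _ => hasDerivAt_shift t y e z τ)).2
  have h1 := (convex_Icc 0 (3 * t)).mul_sub_le_image_sub_of_le_deriv
    (fun τ _ => (hd τ).continuousAt.continuousWithinAt)
    (fun τ _ => (hd τ).differentiableAt.differentiableWithinAt)
    (C := -∫ z in B, (‖H z‖ + 4 / t * ‖e - proj (T z) e‖) ∂μ)
    (fun τ hτ => by
      rw [(hd τ).deriv]
      exact dk_lower hS ht _ e he hBc (hsub τ (interior_subset hτ)))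
    0 ⟨le_rfl, by positivity⟩ (3 * t) ⟨by positivity, le_rfl⟩ (by positivity)
  have e : ∀ τ ∈ Icc 0 (3 * t), ∫ z in B, psi (‖z - (y - τ • e)‖ ^ 2 / t ^ 2) ∂μ
      = ∫ z, H313.ker (t⁻¹ • (z - (y - τ • e))) ∂μ := by
    intro τ hτ
    rw [← setIntegral_eq_integral_of_forall_compl_eq_zero (s := B)
      fun z hz => ker_scale_zero' ht (mt (@hsub τ hτ z) hz)]
    simp only [ker_scale ht.ne']
  rw [e 0 ⟨le_rfl, by positivity⟩, e (3 * t) ⟨by positivity, le_rfl⟩] at h1
  simp only [zero_smul, sub_zero] at h1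
  linarith

lemma exists_dir {y ν : E} (hν : ‖ν‖ = 1) {K r : ℝ} (hK : |⟪y, ν⟫| ≤ K) (hy : 6 * K + 3 ≤ ‖y‖)
    (hr : 0 < r) (hr1 : r ≤ 1) :
    ∃ e : E, ‖e‖ ≤ 1 ∧ ⟪e, ν⟫ = 0 ∧ ‖y - (3 * r) • e‖ ≤ ‖y‖ - 5 / 2 * r := by
  have hK0 : 0 ≤ K := (abs_nonneg _).trans hK
  set v := y - ⟪y, ν⟫ • ν with hv
  have h1 : ⟪v, ν⟫ = 0 := by
    rw [hv, inner_sub_left, inner_smul_left, real_inner_self_eq_norm_sq, hν]; simp
  have h2 : ‖y‖ - K ≤ ‖v‖ := by
    have := norm_sub_norm_le y (⟪y, ν⟫ • ν)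
    rw [norm_smul, hν, mul_one, Real.norm_eq_abs] at this
    linarith
  have h3 : 0 < ‖v‖ := by linarith
  have h4 : ⟪y, v⟫ = ‖v‖ ^ 2 := by
    have : y = v + ⟪y, ν⟫ • ν := by rw [hv]; abel
    conv_lhs => rw [this]
    rw [inner_add_left, inner_smul_left, real_inner_self_eq_norm_sq, real_inner_comm v ν, h1]
    simp
  have h5 : ‖‖v‖⁻¹ • v‖ = 1 := by
    rw [norm_smul, norm_inv, norm_norm, inv_mul_cancel₀ h3.ne']
  refine ⟨‖v‖⁻¹ • v, h5.le, by rw [inner_smul_left, h1, mul_zero], ?_⟩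
  refine abs_le_of_sq_le_sq' ?_ (by linarith) |>.2
  rw [norm_sub_sq_real, inner_smul_right, inner_smul_right, h4, norm_smul, h5,
    Real.norm_of_nonneg (by positivity)]
  have h6 : ‖v‖⁻¹ * ‖v‖ ^ 2 = ‖v‖ := by field_simp
  rw [h6]
  nlinarith

theorem step : STEP E m := by
  intro hE c K Cr η hc hK hCr hη
  obtain ⟨σ, hσ, hσ1⟩ : ∃ σ : ℝ, 0 < σ ∧ 12 * σ * Cr * 4 ^ m ≤ η / 3 :=
    ⟨η / 3 / (12 * Cr * 4 ^ m), by positivity, le_of_eq (by field_simp)⟩
  obtain ⟨r₃, hr₃, h1, h2, h3⟩ : ∃ r₃ : ℝ, 0 < r₃ ∧ r₃ ≤ 1 / 4 ∧ (1 + 4 * K) * r₃ ≤ c / 2 ∧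
      3 * (17 * K + 2) * Cr * 4 ^ m * r₃ ≤ η / 3 := by
    refine ⟨min (min (1 / 4) (c / 2 / (1 + 4 * K))) (η / 3 / (3 * (17 * K + 2) * Cr * 4 ^ m)),
      by positivity, (min_le_left _ _).trans (min_le_left _ _), ?_, ?_⟩
    · rw [mul_comm, ← le_div_iff₀ (by positivity)]
      exact (min_le_left _ _).trans (min_le_right _ _)
    · rw [mul_comm, ← le_div_iff₀ (by positivity)]
      exact min_le_right _ _
  refine ⟨r₃, 6 * K + 3, hr₃, by positivity, fun r₀ hr0 hr => ?_⟩
  have hrm : 0 < r₀ ^ m := by positivity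
  obtain ⟨ε₁, hε₁, h4⟩ : ∃ ε₁ : ℝ, 0 < ε₁ ∧ 3 * r₀ * ((1 + 4 / r₀ / σ) * ε₁) ≤ η / 3 * r₀ ^ m :=
    ⟨η / 3 * r₀ ^ m / (3 * r₀ * (1 + 4 / r₀ / σ)), by positivity, le_of_eq (by field_simp)⟩
  refine ⟨ε₁, hε₁, fun W μ T H R y hW hS hR hy1 hyR hyW hgg => ?_⟩
  have := hS.mc.fin
  have k1 : (1 + 4 * K) * r₀ ≤ (1 + 4 * K) * r₃ := by gcongr
  have hKr : 0 ≤ K * r₀ := by positivity
  have hcc : r₀ + K * (4 * r₀) < c := by linarith
  obtain ⟨e, he, heν, hey⟩ := exists_dir (hW.eik y (by linarith)) (hW.bx y) hy1 hr0 (by linarith)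
  refine ⟨y - (3 * r₀) • e, hey, ?_⟩
  have s1 := shift_le hS hr0 y e he
  have hR0 : 0 ≤ R := (norm_nonneg _).trans hyR
  have hBc := isCompact_closedBall y (4 * r₀)
  have pm := hS.proj_apply_meas (v := fun _ => e) aestronglyMeasurable_const
  have iu : IntegrableOn (fun z => ‖H z‖ + 4 / r₀ * ‖e - proj (T z) e‖) (closedBall y (4 * r₀)) μ := by
    have h3 : IntegrableOn (fun _ : E => (1 : ℝ) + 4 / r₀) (closedBall y (4 * r₀)) μ :=
      continuousOn_const.integrableOn_compact hBc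
    refine Integrable.mono' (h3.add (hS.mc.locL2 _ hBc))
      (hS.mc.meas.norm.add ((aestronglyMeasurable_const.sub pm).norm.const_mul _)).restrict
      (Eventually.of_forall fun z => ?_)
    have a1 : 4 / r₀ * ‖e - proj (T z) e‖ ≤ 4 / r₀ * 1 := by
      gcongr; exact (norm_sub_proj_le _ _).trans he
    rw [Real.norm_of_nonneg (by positivity)]
    simp only [Pi.add_apply]
    nlinarith [sq_nonneg (‖H z‖ - 1), norm_nonneg (H z)]
  have s2 := int_ball_le hS hW hR (R := R) (A := 17 * K + 2 + 4 / r₀ * σ) (B := 1 + 4 / r₀ / σ)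
    (by positivity) (by linarith) (by positivity) iu (fun z hz hd => by
      have a1 : |W z| < c := tube_ball hW hyW hz hcc
      have a2 := normH_le (H := H) hW hE hd a1 (norm_ball hyR hz (by linarith))
      have a3 := tilt_le (T := T) (H := H) (W := W) hR0 hσ z
      have a4 := perp_le hW hE hd a1 e
      have a5 : |⟪e, grad W z⟫| ≤ K * (4 * r₀) := by
        have : ⟪e, grad W z⟫ = ⟪e, grad W z - grad W y⟫ := by rw [inner_sub_right, heν, sub_zero]
        rw [this]
        refine (abs_real_inner_le_norm _ _).trans ?_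
        rw [mem_closedBall, dist_eq_norm] at hz
        calc _ ≤ 1 * (K * ‖z - y‖) := by gcongr; exact hW.lip_grad z y
          _ ≤ _ := by rw [one_mul]; gcongr
      have a6 : ‖e‖ * ‖proj (T z) (grad W z)‖ ≤ ‖proj (T z) (grad W z)‖ :=
        mul_le_of_le_one_left (norm_nonneg _) he
      have a7 : 4 / r₀ * ‖e - proj (T z) e‖
          ≤ 4 / r₀ * (K * (4 * r₀) + (σ + gg T H W R z / σ)) := by gcongr; linarith
      have a8 : 4 / r₀ * (K * (4 * r₀) + (σ + gg T H W R z / σ))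
          = 16 * K + 4 / r₀ * σ + 4 / r₀ / σ * gg T H W R z := by field_simp; ring
      linarith)
  have s3 : (1 + 4 / r₀ / σ) * ∫ z in closedBall y (4 * r₀), gg T H W R z ∂μ
      ≤ (1 + 4 / r₀ / σ) * ε₁ := by gcongr
  have s4 : 3 * r₀ * ((17 * K + 2 + 4 / r₀ * σ) * (Cr * (4 * r₀) ^ m))
      = (3 * (17 * K + 2) * Cr * 4 ^ m * r₀ + 12 * σ * Cr * 4 ^ m) * r₀ ^ m := by
    rw [mul_pow]; field_simp; ring
  have s5 : 3 * (17 * K + 2) * Cr * 4 ^ m * r₀ ≤ η / 3 := le_trans (by gcongr) h3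
  have s6 : (3 * (17 * K + 2) * Cr * 4 ^ m * r₀ + 12 * σ * Cr * 4 ^ m) * r₀ ^ m
      ≤ (η / 3 + η / 3) * r₀ ^ m := by gcongr
  have s7 := mul_le_mul_of_nonneg_left (s2.trans (add_le_add_right s3 _))
    (show 0 ≤ 3 * r₀ by positivity)
  simp only [JJ, mul_one]
  rw [div_add' _ _ _ hrm.ne']
  gcongr
  rw [mul_add, s4] at s7
  linarith

end Vale.Agent.P218D
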