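import Vale.Agent.P218D.Loc

/-! Block SL: the two point lemma. -/

open MeasureTheory Set Filter Topology Metric
open scoped ENNReal NNReal RealInnerProductSpace

namespace Vale.Agent.P218D

open Vale.Agent.P214 (proj IsApproxTangent divAlong)
open Vale.Agent.P218 Vale.Agent.P218.H313

set_option linter.unusedSectionVars false
set_option linter.unusedVariables false

variable {E : Type*} [NormedAddCommGroup E] [InnerProductSpace ℝ E] [FiniteDimensional ℝ E]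
  [MeasurableSpace E] [BorelSpace E]
variable {m : ℕ} {c K : ℝ}
variable {μ : Measure E} {T : E → Submodule ℝ E} {H : E → E} {W : E → ℝ}

/-- the error term of the monotonicity formula at a good point -/
lemma Good.err_le (hE : Module.finrank ℝ E = m + 1) (hS : Slice m μ T H) (hW : TubeB W c K)
    {Cr R σ r₀ h₀ b : ℝ} (hR : Rat m μ Cr) (hR0 : 0 ≤ R) (hσ : 0 < σ) (hσ1 : σ ≤ 1) {x : E}
    (hx : Good m μ T H W R (σ ^ 2) r₀ h₀ x) (hr1 : r₀ ≤ 1) (hc : h₀ + K * r₀ < c) {h : E → ℝ}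
    (hh : ContDiff ℝ 1 h) (h1 : ∀ y, h y ≤ 1) (hb : 0 ≤ b)
    (hg : ∀ y, ‖proj (T y) (grad h y)‖ ≤ b * ‖proj (T y) (grad W y)‖) (t : ℝ) (ht : 0 < t)
    (htr : t ≤ r₀) :
    ∫ y in closedBall x t, err T H h y ∂μ
      ≤ (b * σ * (Cr + 1) + ((K + 2) * Cr + 1)) * t ^ m := by
  have hK := hW.K_nonneg
  have h2 := int_ball_le hS hW hR (R := R) (A := b * σ + (K + 2)) (B := b / σ + 1) ht
    (htr.trans hr1) (by positivity) (hS.err_integrableOn hh (isCompact_closedBall x t))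
    (fun y hy hd => by
      have a1 : |W y| < c := tube_ball hW hx.ht hy (by nlinarith)
      have a2 := normH_le (H := H) hW hE hd a1 (norm_ball hx.rad hy (htr.trans hr1))
      have a3 := tilt_le (T := T) (H := H) (W := W) hR0 hσ y
      have a4 : h y * ‖H y‖ ≤ ‖H y‖ := mul_le_of_le_one_left (norm_nonneg _) (h1 y)
      have a5 : b * ‖proj (T y) (grad W y)‖ ≤ b * (σ + gg T H W R y / σ) := by gcongr
      have a6 : b * (σ + gg T H W R y / σ) = b * σ + b / σ * gg T H W R y := by ring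
      have a7 := hg y
      unfold err
      linarith)
  have h3 := hx.mx t ht htr
  have h4 : (b / σ + 1) * ∫ y in closedBall x t, gg T H W R y ∂μ
      ≤ (b / σ + 1) * (σ ^ 2 * t ^ m) := by gcongr
  have h5 : (b / σ + 1) * (σ ^ 2 * t ^ m) = b * σ * t ^ m + σ ^ 2 * t ^ m := by
    field_simp
  have h6 : σ ^ 2 * t ^ m ≤ 1 * t ^ m := by gcongr; nlinarith
  nlinarith

lemma grad_one (y : E) : grad (fun _ : E => (1 : ℝ)) y = 0 :=
  grad_unique fun v => by simp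

lemma Good.JJ_le (hE : Module.finrank ℝ E = m + 1) (hS : Slice m μ T H) (hW : TubeB W c K)
    {Cr R σ r₀ h₀ : ℝ} (hR : Rat m μ Cr) (hCr : 0 ≤ Cr) (hR0 : 0 ≤ R) (hσ : 0 < σ) (hσ1 : σ ≤ 1)
    {x : E} (hx : Good m μ T H W R (σ ^ 2) r₀ h₀ x) (hr1 : r₀ ≤ 1) (hc : h₀ + K * r₀ < c)
    {s : ℝ} (hs : 0 < s) (hsr : s ≤ r₀) :
    JJ m μ (fun _ => 1) x s ≤ JJ m μ (fun _ => 1) x r₀ + ((K + 2) * Cr + 1) * r₀ := by
  have hK := hW.K_nonneg
  have h1 := JJ_mono hS (h := fun _ => 1) contDiff_const (fun _ => zero_le_one) hs hsr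
    (hx.err_le hE hS hW hR hR0 hσ hσ1 hr1 hc (b := 0) contDiff_const (fun _ => le_rfl) le_rfl
      (fun y => by rw [grad_one]; simp))
  have h2 : 0 ≤ ((K + 2) * Cr + 1) * s := by positivity
  nlinarith

lemma Good.one (hE : Module.finrank ℝ E = m + 1) (hS : Slice m μ T H) (hW : TubeB W c K)
    {Cr R σ r₀ h₀ : ℝ} (hR : Rat m μ Cr) (hCr : 0 ≤ Cr) (hR0 : 0 ≤ R) (hσ : 0 < σ) (hσ1 : σ ≤ 1)
    {x : E} (hx : Good m μ T H W R (σ ^ 2) r₀ h₀ x) (hr0 : 0 < r₀) (hr1 : r₀ ≤ 1)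
    (hc : h₀ + K * r₀ < c) (hΛ : ((K + 2) * Cr + 1) * r₀ ≤ om m / 24)
    (hJ : JJ m μ (fun _ => 1) x r₀ ≤ 3 / 2 * om m) : IsApproxTangent m μ x 1 (T x) := by
  obtain ⟨q, hq⟩ := hx.tan
  have hom := om_pos m
  have h3 := hq.2 H313.ker continuous_ker ker_compact
  rw [A1.integral_ker_plane hq.1] at h3
  have h4 : (q : ℝ) * om m ≤ 3 / 2 * om m + om m / 24 := by
    refine le_of_tendsto h3 ?_
    filter_upwards [Ioc_mem_nhdsGT hr0] with s hs
    have := hx.JJ_le hE hS hW hR hCr hR0 hσ hσ1 hr1 hc hs.1 hs.2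
    simp only [JJ, mul_one] at this hJ
    linarith
  have h5 : om m / 2 ≤ (q : ℝ) * om m := ge_of_tendsto h3 (hx.dens _ (by linarith))
  have h6 : q = 1 := by
    have a1 : (q : ℝ) < 2 := by nlinarith
    have a2 : (0 : ℝ) < q := by nlinarith
    have a3 : q < 2 := by exact_mod_cast a1
    have a4 : 0 < q := by exact_mod_cast a2
    omega
  rwa [h6] at hq

lemma two_core (hE : Module.finrank ℝ E = m + 1) (hS : Slice m μ T H) (hW : TubeB W c K)
    {Cr R σ r₀ h₀ L : ℝ} (hR : Rat m μ Cr) (hCr : 0 ≤ Cr) (hR0 : 0 ≤ R) (hσ : 0 < σ) (hσ1 : σ ≤ 1)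
    {x x' : E} (hx : Good m μ T H W R (σ ^ 2) r₀ h₀ x) (hx' : Good m μ T H W R (σ ^ 2) r₀ h₀ x')
    (hr1 : r₀ ≤ 1 / 2) (hc : h₀ + K * r₀ < c) (hΛ : ((K + 2) * Cr + 1) * r₀ ≤ om m / 24)
    (hL : 1 ≤ L) (hL1 : 4 * Cr * 2 ^ m ≤ om m / 8 * L) (hL2 : 32 * L * σ * (Cr + 1) ≤ om m / 8)
    (hJ : JJ m μ (fun _ => 1) x r₀ ≤ 3 / 2 * om m) (hd : 0 < ‖x - x'‖)
    (hdL : L * ‖x - x'‖ ≤ r₀) (hWd : ‖x - x'‖ / 2 ≤ W x - W x') : False := by
  have := hS.mc.fin
  have hom := om_pos m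
  have hK := hW.K_nonneg
  obtain ⟨d, hd'⟩ : ∃ d, d = ‖x - x'‖ := ⟨_, rfl⟩
  rw [← hd'] at hd hdL hWd
  obtain ⟨ρ, hρ⟩ : ∃ ρ, ρ = L * d := ⟨_, rfl⟩
  rw [← hρ] at hdL
  have hρ0 : 0 < ρ := by rw [hρ]; positivity
  have hdρ : d ≤ ρ := by rw [hρ]; nlinarith
  have hW1 : ContDiff ℝ 1 W := hW.smooth.of_le (by norm_num)
  have hw : ContDiff ℝ 1 (fun y => W y - W x') := hW1.sub contDiff_const
  have hgw : ∀ y, grad (fun y => W y - W x') y = grad W y := fun y =>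
    grad_unique fun v => by rw [fderiv_sub_const, inner_grad]
  have hs : 0 < d / 4 := by positivity
  set h₁ : E → ℝ := fun y => gam (d / 4) (W y - W x') with hh₁
  have c1 : ContDiff ℝ 1 h₁ := (contDiff_gam _).comp hw
  have c2 : ContDiff ℝ 1 (fun y => 1 - h₁ y) := contDiff_const.sub c1
  have g1 : ∀ y, ‖proj (T y) (grad h₁ y)‖ ≤ 16 / d * ‖proj (T y) (grad W y)‖ := by
    intro y
    rw [hh₁, grad_gam hw, hgw, map_smul, norm_smul, Real.norm_eq_abs]
    have := abs_gam'_le hs (W y - W x')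
    have e : 4 / (d / 4) = 16 / d := by field_simp; norm_num
    rw [e] at this
    gcongr
  have g2 : ∀ y, ‖proj (T y) (grad (fun y => 1 - h₁ y) y)‖ ≤ 16 / d * ‖proj (T y) (grad W y)‖ := by
    intro y
    have : grad (fun y => 1 - h₁ y) y = -grad h₁ y :=
      grad_unique fun v => by rw [fderiv_const_sub, inner_neg_left, inner_grad]; rfl
    rw [this, map_neg, norm_neg]
    exact g1 y
  have p0 : ∀ y, 0 ≤ h₁ y := fun y => gam_nonneg _ _
  have p1 : ∀ y, h₁ y ≤ 1 := fun y => gam_le_one _ _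
  have e1 := om_mul_le hS c1 p0 hx.dens hρ0 fun t ht htr =>
    hx.err_le hE hS hW hR hR0 hσ hσ1 (by linarith) hc c1 p1 (by positivity) g1 t ht (htr.trans hdL)
  have e2 := om_mul_le hS c2 (fun y => sub_nonneg.2 (p1 y)) hx'.dens hρ0 fun t ht htr =>
    hx'.err_le hE hS hW hR hR0 hσ hσ1 (by linarith) hc c2 (fun y => by linarith [p0 y])
      (by positivity) g2 t ht (htr.trans hdL)
  have v1 : h₁ x = 1 := gam_one hs (by linarith)
  have v2 : h₁ x' = 0 := gam_zero hs (by simp; positivity)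
  rw [v1] at e1
  rw [v2] at e2
  have e3 := ker_shift (μ := μ) c2.continuous (fun y => sub_nonneg.2 (p1 y))
    (fun y => by linarith [p0 y]) hρ0 (hd' ▸ hdρ)
  rw [← hd'] at e3
  have e4 := hx.JJ_le hE hS hW hR hCr hR0 hσ hσ1 (by linarith) hc hρ0 hdL
  have hρm : 0 < ρ ^ m := by positivity
  have e5 : JJ m μ h₁ x ρ + (∫ y, H313.ker (ρ⁻¹ • (y - x)) * (1 - h₁ y) ∂μ) / ρ ^ m
      = JJ m μ (fun _ => 1) x ρ := by
    unfold JJ
    rw [← add_div, ← integral_add (integrable_ker_mul c1.continuous x hρ0)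
      (integrable_ker_mul c2.continuous x hρ0)]
    congr 2; ext y; ring
  have e6 : 4 * (d / ρ) * μ.real (closedBall x (2 * ρ)) ≤ om m / 8 * ρ ^ m := by
    have a1 := hR x (2 * ρ) (by positivity) (by linarith)
    have a2 : d / ρ = 1 / L := by rw [hρ]; field_simp
    rw [a2]
    calc _ ≤ 4 * (1 / L) * (Cr * (2 * ρ) ^ m) := by gcongr
      _ = 4 * Cr * 2 ^ m / L * ρ ^ m := by rw [mul_pow]; ring
      _ ≤ _ := mul_le_mul_of_nonneg_right (by rw [div_le_iff₀ (by linarith)]; exact hL1) hρm.le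
  have e7 : JJ m μ (fun y => 1 - h₁ y) x' ρ
      ≤ (∫ y, H313.ker (ρ⁻¹ • (y - x)) * (1 - h₁ y) ∂μ) / ρ ^ m + om m / 8 := by
    unfold JJ
    rw [div_add' _ _ _ hρm.ne']
    gcongr
    linarith
  have e8 : (16 / d * σ * (Cr + 1) + ((K + 2) * Cr + 1)) * ρ
      = 16 * L * σ * (Cr + 1) + ((K + 2) * Cr + 1) * ρ := by
    rw [hρ]; field_simp
  have e9 : ((K + 2) * Cr + 1) * ρ ≤ ((K + 2) * Cr + 1) * r₀ := by gcongr
  rw [e8] at e1 e2
  linarith

theorem two : TWO E m := by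
  intro hE c K Cr hc hK hCr
  have hom := om_pos m
  obtain ⟨L, hL, hL1⟩ : ∃ L : ℝ, 1 ≤ L ∧ 4 * Cr * 2 ^ m ≤ om m / 8 * L := by
    refine ⟨max 1 (4 * Cr * 2 ^ m / (om m / 8)), le_max_left _ _, ?_⟩
    have := le_max_right 1 (4 * Cr * 2 ^ m / (om m / 8))
    rw [div_le_iff₀ (by positivity)] at this
    linarith
  obtain ⟨σ, hσ, hσ1, hL2⟩ : ∃ σ : ℝ, 0 < σ ∧ σ ≤ 1 ∧ 32 * L * σ * (Cr + 1) ≤ om m / 8 := by
    refine ⟨min 1 (om m / 8 / (32 * L * (Cr + 1))), by positivity, min_le_left _ _, ?_⟩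
    have := min_le_right 1 (om m / 8 / (32 * L * (Cr + 1)))
    rw [le_div_iff₀ (by positivity)] at this
    linarith
  obtain ⟨r₂, hr₂, h1, h2, h3, h4⟩ : ∃ r₂ : ℝ, 0 < r₂ ∧ r₂ ≤ 1 / 2 ∧ (1 + K) * r₂ ≤ c / 2 ∧
      ((K + 2) * Cr + 1) * r₂ ≤ om m / 24 ∧ (1 + K) * r₂ ≤ 1 / 4 := by
    refine ⟨min (min (1 / 2) (c / 2 / (1 + K)))
      (min (om m / 24 / ((K + 2) * Cr + 1)) (1 / 4 / (1 + K))), by positivity,
      (min_le_left _ _).trans (min_le_left _ _), ?_, ?_, ?_⟩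
    · rw [mul_comm, ← le_div_iff₀ (by positivity)]
      exact (min_le_left _ _).trans (min_le_right _ _)
    · rw [mul_comm, ← le_div_iff₀ (by positivity)]
      exact (min_le_right _ _).trans (min_le_left _ _)
    · rw [mul_comm, ← le_div_iff₀ (by positivity)]
      exact (min_le_right _ _).trans (min_le_right _ _)
  have hL0 : 0 < L := by linarith
  have hc2 : 1 / (4 * L) ≤ 1 := by rw [div_le_one (by positivity)]; linarith
  refine ⟨σ ^ 2, r₂, 1 / (4 * L), by positivity, hr₂, by positivity, hc2, ?_⟩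
  intro r₀ hr0 hr W μ T H R hW hS hR hR0
  have hh : 1 / (4 * L) * r₀ ≤ r₀ := mul_le_of_le_one_left hr0.le hc2
  have k1 : (1 + K) * r₀ ≤ (1 + K) * r₂ := by gcongr
  have hcc : 1 / (4 * L) * r₀ + K * r₀ < c := by linarith
  have hΛ : ((K + 2) * Cr + 1) * r₀ ≤ om m / 24 := le_trans (by gcongr) h3
  refine ⟨fun x hx hJ => hx.one hE hS hW hR hCr.le hR0 hσ hσ1 hr0 (by linarith) hcc hΛ hJ,
    fun x x' hx hJ hx' hJ' => ?_⟩
  have hKr : 0 ≤ K * r₀ := by positivity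
  have n1 := hW.eik x (by linarith [hx.ht])
  have n2 := hW.eik x' (by linarith [hx'.ht])
  have t1 : ‖x - x'‖ ≤ ‖prj W x - prj W x'‖ + ‖W x • grad W x - W x' • grad W x'‖ := by
    have : x - x' = (prj W x - prj W x') + (W x • grad W x - W x' • grad W x') := by
      unfold prj; abel
    rw [this]
    exact norm_add_le _ _
  have hp := norm_nonneg (prj W x - prj W x')
  rcases le_total r₀ (L * ‖x - x'‖) with hA | hB
  · have t2 : ‖W x • grad W x - W x' • grad W x'‖ ≤ 2 * (1 / (4 * L) * r₀) := by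
      refine (norm_sub_le _ _).trans ?_
      rw [norm_smul, norm_smul, n1, n2, mul_one, mul_one, Real.norm_eq_abs, Real.norm_eq_abs]
      linarith [hx.ht, hx'.ht]
    have t3 : 2 * (1 / (4 * L) * r₀) ≤ ‖x - x'‖ / 2 := by
      calc _ ≤ 2 * (1 / (4 * L) * (L * ‖x - x'‖)) := by gcongr
        _ = _ := by field_simp; norm_num
    linarith
  rcases (norm_nonneg (x - x')).eq_or_lt with hd | hd
  · rw [← hd]; positivity
  by_cases hC : |W x - W x'| ≤ ‖x - x'‖ / 2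
  · have t2 : ‖W x • grad W x - W x' • grad W x'‖ ≤ |W x - W x'| + r₀ * (K * ‖x - x'‖) := by
      have : W x • grad W x - W x' • grad W x'
          = (W x - W x') • grad W x + W x' • (grad W x - grad W x') := by
        rw [sub_smul, smul_sub]; abel
      rw [this]
      refine (norm_add_le _ _).trans ?_
      rw [norm_smul, norm_smul, n1, mul_one, Real.norm_eq_abs, Real.norm_eq_abs]
      gcongr
      · exact hx'.ht.trans hh
      · exact hW.lip_grad x x'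
    have t3 : r₀ * (K * ‖x - x'‖) ≤ 1 / 4 * ‖x - x'‖ := by
      rw [← mul_assoc]; gcongr; linarith
    linarith
  exfalso
  rw [not_le] at hC
  rcases le_total (W x') (W x) with h | h
  · rw [abs_of_nonneg (by linarith)] at hC
    exact two_core hE hS hW hR hCr.le hR0 hσ hσ1 hx hx' (by linarith) hcc hΛ hL hL1 hL2 hJ hd hB
      hC.le
  · rw [abs_of_nonpos (by linarith), norm_sub_rev] at hC
    rw [norm_sub_rev] at hd hB
    exact two_core hE hS hW hR hCr.le hR0 hσ hσ1 hx' hx (by linarith) hcc hΛ hL hL1 hL2 hJ' hd hB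
      (by linarith)

end Vale.Agent.P218D
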