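import Vale.Agent.P218D.Mass
import Vale.Agent.P218D.Two
import Vale.Agent.P218D.Step
import Vale.Agent.P218D.Dyn
import Vale.Agent.P218D.Int
import Vale.Agent.P218D.Sli
import Vale.Agent.P218D.Gau
import Vale.Agent.P218D.Bad
import Vale.Agent.P218D.Lw
import Vale.Agent.P218D.Jac
import Vale.Agent.P218D.Zs
import Vale.Agent.P218D.Proj

/-! Block SL: the interface `LF` implies uniqueness of the tangent flow. -/

namespace Vale.Agent.P218D

variable {E : Type*} [NormedAddCommGroup E] [InnerProductSpace ℝ E] [FiniteDimensional ℝ E]
  [MeasurableSpace E] [BorelSpace E] {m : ℕ}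

theorem mass' : MASS E m := mass jac' zs (proj' zs) two (bad E m) (tail E m) step

theorem sli' : SLI E m := sli zs (gau (tail E m)) mass'

/-- **uniqueness of the tangent flow from `LF`** -/
theorem sl_main : MAIN E m := main (lw E m) sli' dyn int'

end Vale.Agent.P218D
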