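import Vale.Agent.P218D.Spec

/-! Block SL: basic lemmas on `TubeB` (ports of the lemmas on `TubeD`). -/

open MeasureTheory Set Filter Topology Metric
open scoped ENNReal NNReal RealInnerProductSpace

namespace Vale.Agent.P218D

open Vale.Agent.P214 (proj IsApproxTangent divAlong)
open Vale.Agent.P218 Vale.Agent.P218.H313

set_option linter.unusedSectionVars false
set_option linter.unusedVariables false

section tube

variable {E : Type*} [NormedAddCommGroup E] [InnerProductSpace ℝ E] [FiniteDimensional ℝ E]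
variable {m : ℕ} {W : E → ℝ} {c K : ℝ}

lemma tubeB_of_D (hW : TubeD W c K) : TubeB W c K :=
  ⟨hW.cpos, hW.smooth, hW.b0, hW.b1, hW.b2, hW.bx, hW.eik⟩

lemma TubeB.mono (hW : TubeB W c K) {c' K' : ℝ} (h0 : 0 < c') (hc : c' ≤ c) (hK : K ≤ K') :
    TubeB W c' K' :=
  ⟨h0, hW.smooth, fun x => (hW.b0 x).trans hK, fun x => (hW.b1 x).trans hK,
    fun x => (hW.b2 x).trans hK, fun x => (hW.bx x).trans hK,
    fun x hx => hW.eik x (hx.trans_le hc)⟩

lemma TubeB.K_nonneg (hW : TubeB W c K) : 0 ≤ K := (abs_nonneg _).trans (hW.b0 0)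

lemma TubeB.cont (hW : TubeB W c K) : Continuous W := hW.smooth.continuous

lemma TubeB.grad_cd (hW : TubeB W c K) : ContDiff ℝ 1 (grad W) := contDiff_grad_one hW.smooth

lemma TubeB.pg (hW : TubeB W c K) : PG W where
  cd := hW.smooth.of_le (by norm_num)
  b0 := PB.of_bound (C := K) fun x => by rw [Real.norm_eq_abs]; exact hW.b0 x
  b1 := PB.of_bound (C := K) fun x => by rw [← norm_grad]; exact hW.b1 x

lemma TubeB.pg_grad (hW : TubeB W c K) : PG (grad W) where
  cd := hW.grad_cd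
  b0 := PB.of_bound (C := K) hW.b1
  b1 := PB.of_bound (C := K) hW.b2

lemma TubeB.diff (hW : TubeB W c K) (x : E) : DifferentiableAt ℝ W x := hW.pg.diff x

/-- the shape term `q = |D²W|²` is bounded -/
lemma TubeB.q_le (hW : TubeB W c K) (x : E) :
    |tr ((fderiv ℝ (grad W) x).comp (fderiv ℝ (grad W) x))| ≤ Module.finrank ℝ E * K ^ 2 := by
  refine (abs_tr_le _).trans ?_
  gcongr
  refine (ContinuousLinearMap.opNorm_comp_le _ _).trans ?_
  have := hW.b2 x
  have h0 := norm_nonneg (fderiv ℝ (grad W) x)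
  nlinarith

lemma TubeB.isOpen (hW : TubeB W c K) : IsOpen {x | |W x| < c} :=
  isOpen_lt hW.smooth.continuous.abs continuous_const

/-- the Hessian kills the gradient in the tube -/
lemma TubeB.hess_grad (hW : TubeB W c K) {x : E} (hx : |W x| < c) :
    fderiv ℝ (grad W) x (grad W x) = 0 := by
  have h1 : ContDiff ℝ 1 (grad W) := contDiff_grad_one hW.smooth
  have hd : HasFDerivAt (grad W) (fderiv ℝ (grad W) x) x :=
    (h1.differentiable (by norm_num) x).hasFDerivAt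
  have h2 : HasFDerivAt (fun y => ‖grad W y‖ ^ 2)
      (2 • (innerSL ℝ (grad W x)).comp (fderiv ℝ (grad W) x)) x := hd.norm_sq
  have h3 : (fun y => ‖grad W y‖ ^ 2) =ᶠ[𝓝 x] fun _ => 1 := by
    filter_upwards [hW.isOpen.mem_nhds hx] with y hy
    rw [hW.eik y hy]; norm_num
  have h4 : HasFDerivAt (fun y => ‖grad W y‖ ^ 2) (0 : E →L[ℝ] ℝ) x :=
    (hasFDerivAt_const (1 : ℝ) x).congr_of_eventuallyEq h3
  have h5 := h2.unique h4
  apply ext_inner_left ℝ
  intro v
  rw [inner_zero_right, ← hess_symm hW.smooth]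
  have h6 := congrArg (fun L : E →L[ℝ] ℝ => L v) h5
  simp at h6
  rw [real_inner_comm]
  exact h6

theorem TubeB.trace_est (hW : TubeB W c K) (hE : Module.finrank ℝ E = m + 1) (x : E)
    (T : Submodule ℝ E) (hT : Module.finrank ℝ T = m) (hx : |W x| < c) :
    |tr ((proj T).comp (fderiv ℝ (grad W) x)) - 1 / 2 * ⟪x, grad W x⟫
      + (tr ((fderiv ℝ (grad W) x).comp (fderiv ℝ (grad W) x)) + 1 / 2) * W x - dft W x|
      ≤ K * ‖proj T (grad W x)‖ ^ 2 := by
  obtain ⟨n, hn1, hnT, -, hn⟩ := H63.exists_normal hE hT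
  have e0 : tr ((proj T).comp (fderiv ℝ (grad W) x))
      = tr (fderiv ℝ (grad W) x) - ⟪fderiv ℝ (grad W) x n, n⟫ := H63.divAlong_normal hn (grad W) x
  rw [e0]
  unfold dft
  set g := grad W x with hg
  set B := fderiv ℝ (grad W) x with hB
  have hg1 : ‖g‖ = 1 := hW.eik x hx
  have hBg : B g = 0 := hW.hess_grad hx
  set v := n - ⟪n, g⟫ • g with hv
  have hBv : B n = B v := by rw [hv, map_sub, map_smul, hBg, smul_zero, sub_zero]
  have e2 : ⟪B n, n⟫ = ⟪v, B v⟫ := by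
    rw [hBv, hess_symm hW.smooth x v n]
    change ⟪v, B n⟫ = _
    rw [hBv]
  have e3 : ‖proj T g‖ ^ 2 = ‖v‖ ^ 2 := by
    rw [H63.norm_proj_sq hn1 hn, hv, H63.norm_sub_sq' hn1 hg1, hg1]; norm_num
  have h2 : |⟪B n, n⟫| ≤ K * ‖proj T g‖ ^ 2 := by
    rw [e2, e3]
    refine (abs_real_inner_le_norm _ _).trans ?_
    have h1 : ‖B v‖ ≤ K * ‖v‖ :=
      (B.le_opNorm v).trans (mul_le_mul_of_nonneg_right (hW.b2 x) (norm_nonneg _))
    calc ‖v‖ * ‖B v‖ ≤ ‖v‖ * (K * ‖v‖) := mul_le_mul_of_nonneg_left h1 (norm_nonneg _)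
      _ = _ := by ring
  have e4 : tr B - ⟪B n, n⟫ - 1 / 2 * ⟪x, g⟫ + (tr (B.comp B) + 1 / 2) * W x
      - (tr B - 1 / 2 * ⟪x, g⟫ + (tr (B.comp B) + 1 / 2) * W x) = -⟪B n, n⟫ := by ring
  rw [e4, abs_neg]
  exact h2

theorem TubeB.normal_est (hW : TubeB W c K) (hE : Module.finrank ℝ E = m + 1) (x : E)
    (T : Submodule ℝ E) (hT : Module.finrank ℝ T = m) (hx : |W x| < c) {φ : E} (hφ : φ ∈ Tᗮ)
    (v : E) :
    |⟪v, φ⟫ - ⟪v, grad W x⟫ * ⟪grad W x, φ⟫| ≤ ‖v‖ * ‖proj T (grad W x)‖ * ‖φ‖ := by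
  obtain ⟨n, hn1, hnT, hnφ, hn⟩ := H63.exists_normal hE hT
  have hg1 : ‖grad W x‖ = 1 := hW.eik x hx
  generalize grad W x = g at hg1 ⊢
  set c := ⟪n, φ⟫ with hc
  have hφ' : φ = c • n := hnφ φ hφ
  have hcφ : |c| = ‖φ‖ := by rw [hφ', norm_smul, hn1, mul_one, Real.norm_eq_abs]
  have e1 : ⟪v, φ⟫ - ⟪v, g⟫ * ⟪g, φ⟫ = c * ⟪v, n - ⟪n, g⟫ • g⟫ := by
    rw [hφ']
    simp only [real_inner_smul_right, inner_sub_right]
    rw [real_inner_comm n g]; ring
  have e2 : ‖proj T g‖ = ‖n - ⟪n, g⟫ • g‖ := by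
    have e3 : ‖proj T g‖ ^ 2 = ‖n - ⟪n, g⟫ • g‖ ^ 2 := by
      rw [H63.norm_proj_sq hn1 hn, H63.norm_sub_sq' hn1 hg1, hg1]; norm_num
    exact (pow_left_inj₀ (norm_nonneg _) (norm_nonneg _) two_ne_zero).1 e3
  rw [e1, abs_mul, hcφ]
  have h2 := abs_real_inner_le_norm v (n - ⟪n, g⟫ • g)
  rw [← e2] at h2
  calc ‖φ‖ * |⟪v, n - ⟪n, g⟫ • g⟫| ≤ ‖φ‖ * (‖v‖ * ‖proj T g‖) :=
        mul_le_mul_of_nonneg_left h2 (norm_nonneg _)
    _ = _ := by ring

theorem TubeB.hess_est (hW : TubeB W c K) (hE : Module.finrank ℝ E = m + 1) (x : E)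
    (T : Submodule ℝ E) (hT : Module.finrank ℝ T = m) (hx : |W x| < c) (A : E →L[ℝ] E) :
    |tr ((proj T).comp A) - (tr A - ⟪A (grad W x), grad W x⟫)|
      ≤ 4 * ‖A‖ * ‖proj T (grad W x)‖ := by
  obtain ⟨n, hn1, hnT, hnφ, hn⟩ := H63.exists_normal hE hT
  have hg1 : ‖grad W x‖ = 1 := hW.eik x hx
  generalize grad W x = g at hg1 ⊢
  have e0 : tr ((proj T).comp A) = tr A - ⟪A n, n⟫ := by
    have h1 : (proj T).comp A = A - ((innerSL ℝ n).comp A).smulRight n := by
      ext v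
      simp [hn]
    rw [h1, tr_sub]
    congr 1
    have h2 := tr_comp_smulRight (ContinuousLinearMap.id ℝ E) ((innerSL ℝ n).comp A) n
    rw [ContinuousLinearMap.id_comp] at h2
    rw [h2]
    simp [real_inner_comm]
  have e1 : tr A - ⟪A n, n⟫ - (tr A - ⟪A g, g⟫) = -(⟪A n, n⟫ - ⟪A g, g⟫) := by ring
  rw [e0, e1, abs_neg]
  have h1 := H63.abs_quad_sub_le A hn1 hg1
  have e2 : √(1 - ⟪n, g⟫ ^ 2) = ‖proj T g‖ := by
    have e3 : ‖proj T g‖ ^ 2 = 1 - ⟪n, g⟫ ^ 2 := by
      rw [H63.norm_proj_sq hn1 hn, hg1]; norm_num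
    rw [← e3, Real.sqrt_sq (norm_nonneg _)]
  rw [e2] at h1
  exact h1

lemma TubeB.flat (hW : TubeB W c K) {x : E} {r : ℝ} {y y' : E}
    (hy : y ∈ closedBall x r) (hy' : y' ∈ closedBall x r) (h0 : W y = 0) (h0' : W y' = 0) :
    |⟪grad W x, y - y'⟫| ≤ K * r * ‖y - y'‖ := by
  have hWd : ∀ z, HasFDerivAt W (fderiv ℝ W z) z := fun z =>
    (hW.smooth.differentiable (by norm_num) z).hasFDerivAt
  set F : E → ℝ := fun z => W z - ⟪grad W x, z⟫ with hF
  have hFd : ∀ z ∈ closedBall x r, HasFDerivWithinAt F (fderiv ℝ W z - innerSL ℝ (grad W x))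
      (closedBall x r) z := by
    intro z _
    exact ((hWd z).sub (innerSL ℝ (grad W x)).hasFDerivAt).hasFDerivWithinAt
  have hlip : ∀ z ∈ closedBall x r, ‖fderiv ℝ W z - innerSL ℝ (grad W x)‖ ≤ K * r := by
    intro z hz
    have h1 : ‖grad W z - grad W x‖ ≤ K * ‖z - x‖ := by
      apply Convex.norm_image_sub_le_of_norm_hasFDerivWithin_le (𝕜 := ℝ) (s := univ)
        (f' := fderiv ℝ (grad W)) _ (fun y _ => hW.b2 y) convex_univ (mem_univ _) (mem_univ _)
      intro y _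
      exact ((contDiff_grad_one hW.smooth).differentiable (by norm_num) y).hasFDerivAt.hasFDerivWithinAt
    have h2 : ‖z - x‖ ≤ r := by rwa [← dist_eq_norm]
    have hK : 0 ≤ K := (norm_nonneg _).trans (hW.b2 x)
    refine ContinuousLinearMap.opNorm_le_bound _ (by
      have : 0 ≤ r := (norm_nonneg _).trans h2
      positivity) fun v => ?_
    have h3 : (fderiv ℝ W z - innerSL ℝ (grad W x)) v = ⟪grad W z - grad W x, v⟫ := by
      rw [inner_sub_left, inner_grad]; rfl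
    rw [h3]
    refine (norm_inner_le_norm _ _).trans ?_
    apply mul_le_mul_of_nonneg_right _ (norm_nonneg _)
    exact h1.trans (mul_le_mul_of_nonneg_left h2 hK)
  have h4 := (convex_closedBall x r).norm_image_sub_le_of_norm_hasFDerivWithin_le (𝕜 := ℝ)
    hFd hlip hy' hy
  simp only [hF, h0, h0', zero_sub] at h4
  rw [inner_sub_right]
  rw [Real.norm_eq_abs] at h4
  refine le_trans (le_of_eq ?_) h4
  rw [← abs_neg]
  congr 1
  ring

lemma TubeB.lip (hW : TubeB W c K) (x y : E) : |W x - W y| ≤ K * ‖x - y‖ := by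
  have := Convex.norm_image_sub_le_of_norm_fderiv_le (𝕜 := ℝ) (s := univ) (f := W) (C := K)
    (fun z _ => hW.diff z) (fun z _ => by rw [← norm_grad]; exact hW.b1 z) convex_univ
    (mem_univ y) (mem_univ x)
  rwa [Real.norm_eq_abs] at this

lemma TubeB.lip_grad (hW : TubeB W c K) (x y : E) : ‖grad W x - grad W y‖ ≤ K * ‖x - y‖ :=
  Convex.norm_image_sub_le_of_norm_fderiv_le (𝕜 := ℝ) (s := univ) (f := grad W) (C := K)
    (fun z _ => hW.pg_grad.diff z) (fun z _ => hW.b2 z) convex_univ (mem_univ y) (mem_univ x)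

lemma TubeB.hasFDerivAt_prj (hW : TubeB W c K) (x : E) : HasFDerivAt (prj W) (dpr W x) x := by
  have h1 := (hW.diff x).hasFDerivAt
  have h2 := (hW.pg_grad.diff x).hasFDerivAt
  have h3 := (hasFDerivAt_id (𝕜 := ℝ) x).sub (h1.smul h2)
  refine h3.congr_fderiv ?_
  unfold dpr
  abel

lemma TubeB.cont_prj (hW : TubeB W c K) : Continuous (prj W) :=
  continuous_id.sub (hW.cont.smul hW.pg_grad.cont)

lemma TubeB.cont_dft (hW : TubeB W c K) : Continuous (dft W) := by
  have h2 : Continuous (fderiv ℝ (grad W)) := hW.grad_cd.continuous_fderiv (by norm_num)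
  have h3 : Continuous (grad W) := hW.pg_grad.cont
  have h6 : Continuous (fun x => tr (fderiv ℝ (grad W) x)) := (trL E).continuous.comp h2
  have h7 : Continuous (fun x => tr ((fderiv ℝ (grad W) x).comp (fderiv ℝ (grad W) x))) :=
    (trL E).continuous.comp (h2.clm_comp h2)
  unfold dft
  exact (h6.sub (continuous_const.mul (continuous_id.inner h3))).add
    ((h7.add continuous_const).mul hW.cont)

lemma TubeB.dft_le (hW : TubeB W c K) (x : E) :
    |dft W x| ≤ Module.finrank ℝ E * K + K + (Module.finrank ℝ E * K ^ 2 + 1) * K := by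
  have hK := hW.K_nonneg
  have h1 : |tr (fderiv ℝ (grad W) x)| ≤ Module.finrank ℝ E * K :=
    (abs_tr_le _).trans (mul_le_mul_of_nonneg_left (hW.b2 x) (Nat.cast_nonneg _))
  have h2 := hW.bx x
  have h3 := hW.q_le x
  have h4 := hW.b0 x
  have h5 : |(tr ((fderiv ℝ (grad W) x).comp (fderiv ℝ (grad W) x)) + 1 / 2) * W x|
      ≤ (Module.finrank ℝ E * K ^ 2 + 1) * K := by
    rw [abs_mul]
    refine mul_le_mul ((abs_add_le _ _).trans ?_) h4 (abs_nonneg _) (by positivity)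
    rw [abs_of_pos (by norm_num : (0 : ℝ) < 1 / 2)]
    linarith
  unfold dft
  refine (abs_add_le _ _).trans (add_le_add ((abs_sub _ _).trans (add_le_add h1 ?_)) h5)
  rw [abs_mul, abs_of_pos (by norm_num : (0 : ℝ) < 1 / 2)]
  linarith [abs_nonneg ⟪x, grad W x⟫]

lemma TubeB.isClosed_zero (hW : TubeB W c K) : IsClosed {x | W x = 0} :=
  isClosed_eq hW.cont continuous_const

end tube

variable {E : Type*} [NormedAddCommGroup E] [InnerProductSpace ℝ E] [FiniteDimensional ℝ E]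
  [MeasurableSpace E] [BorelSpace E]
variable {m : ℕ} {c K : ℝ}
variable {μ : Measure E} {T : E → Submodule ℝ E} {H : E → E} {W Φ : E → ℝ}

lemma Tub.mono (hW : Tub W Φ c K) {c' K' : ℝ} (h0 : 0 < c') (hc : c' ≤ c) (hK : K ≤ K') :
    Tub W Φ c' K' :=
  ⟨hW.toTubeB.mono h0 hc hK, hW.meas, fun x => (hW.bp x).trans hK, fun x hx =>
    (hW.ric x (hx.trans_le hc)).trans (mul_le_mul_of_nonneg_right hK (sq_nonneg _))⟩

lemma tub_of_D (hW : TubeD W c K) : Tub W (fun _ => 0) c K :=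
  ⟨tubeB_of_D hW, measurable_const, fun _ => by simpa using hW.K_nonneg, fun x hx => by
    simpa [dft] using hW.ric x hx⟩

lemma PP_nonneg : 0 ≤ PP μ Φ :=
  integral_nonneg fun x => mul_nonneg (sq_nonneg _) (rho_pos x).le

lemma int_PP (hS : GSlice m μ T H) (hΦ : Measurable Φ) {B : ℝ} (hb : ∀ x, |Φ x| ≤ B) :
    Integrable (fun x => Φ x ^ 2 * rho x) μ :=
  hS.integrable_PB (hΦ.pow_const 2).aestronglyMeasurable
    ((PB.of_bound (C := B) fun x => by rw [Real.norm_eq_abs]; exact hb x).pow 2)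

lemma int_TG (hS : GSlice m μ T H) (hW : TubeB W c K) (j : ℕ) :
    Integrable (fun x => wt j x * ‖proj (T x) (grad W x)‖ ^ 2 * rho x) μ := by
  refine hS.integrable_dom (g := fun x => wt j x * ‖grad W x‖ ^ 2)
    ((PG.wt j).cont.aestronglyMeasurable.mul
      ((hS.proj_apply_meas hW.pg_grad.cont.aestronglyMeasurable).norm.pow 2))
    ((PG.wt j).b0.mul (hW.pg_grad.b0.norm.pow 2)) fun x => ?_
  have h1 := norm_proj_apply_le (T x) (grad W x)
  have h2 := wt_pos j x
  rw [abs_of_nonneg (by positivity), abs_of_nonneg (by positivity)]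
  gcongr

lemma int_DD (hS : GSlice m μ T H) (hW : TubeB W c K) (j : ℕ) :
    Integrable (fun x => W x ^ 2 * wt j x * rho x) μ :=
  hS.integrable_PB ((hW.cont.pow 2).mul (PG.wt j).cont).aestronglyMeasurable
    ((hW.pg.b0.pow 2).mul (PG.wt j).b0)

lemma int_VW (hS : GSlice m μ T H) (hW : TubeB W c K) (j : ℕ) :
    Integrable (fun x => W x ^ 2 * wt j x * ‖vel T H x‖ ^ 2 * rho x) μ :=
  hS.integrable_mul_vel_sq ((hW.cont.pow 2).mul (PG.wt j).cont).aestronglyMeasurable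
    ((hW.pg.b0.pow 2).mul (PG.wt j).b0)

lemma TubeB.pg_sq_wt (hW : TubeB W c K) (j : ℕ) : PG (fun x => W x ^ 2 * wt j x) :=
  (hW.pg.pow 2).mul (PG.wt j)

/-- the gradient of `W² (1 + |x|²)^j` -/
lemma TubeB.grad_sq_wt (hW : TubeB W c K) (j : ℕ) (x : E) :
    grad (fun x => W x ^ 2 * wt j x) x
      = (2 * W x * wt j x) • grad W x + (W x ^ 2) • grad (wt j) x := by
  rw [grad_mul ((hW.pg.pow 2).diff x) ((PG.wt j).diff x), grad_sq (hW.diff x), smul_smul,
    add_comm]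
  congr 2; ring

lemma VW_zero_le (hS : GSlice m μ T H) (hW : TubeB W c K) :
    VW μ T H W 0 ≤ K ^ 2 * dis μ T H := by
  unfold VW dis
  rw [← integral_const_mul]
  refine integral_mono (int_VW hS hW 0) (hS.int_vel_sq.const_mul _) fun x => ?_
  have h1 := hW.b0 x
  have h2 : W x ^ 2 ≤ K ^ 2 := by rw [← sq_abs]; gcongr
  have h3 := rho_pos x
  have h4 : 0 ≤ ‖vel T H x‖ ^ 2 * rho x := by positivity
  simp only [wt, pow_zero, mul_one]
  nlinarith

lemma TubeB.continuous_jac {ζ : E → ℝ} (hW : TubeB W c K) (hζ : ContDiff ℝ 2 ζ) :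
    Continuous (jac W ζ) := by
  have h1 : Continuous (fderiv ℝ (grad ζ)) :=
    (contDiff_grad_one hζ).continuous_fderiv (by norm_num)
  have h2 : Continuous (fderiv ℝ (grad W)) := hW.grad_cd.continuous_fderiv (by norm_num)
  have h3 : Continuous (grad W) := hW.pg_grad.cont
  have h4 : Continuous (grad ζ) := (contDiff_grad_one hζ).continuous
  have h5 := hζ.continuous
  have h6 : Continuous (fun x => tr (fderiv ℝ (grad ζ) x)) := (trL E).continuous.comp h1
  have h7 : Continuous (fun x => tr ((fderiv ℝ (grad W) x).comp (fderiv ℝ (grad W) x))) :=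
    (trL E).continuous.comp (h2.clm_comp h2)
  unfold jac
  exact ((h6.sub ((h1.clm_apply h3).inner h3)).sub
    (continuous_const.mul (continuous_id.inner h4))).add ((h7.add continuous_const).mul h5)

lemma wm_lt_top (m : ℕ) : wm m < ⊤ := by
  have := isAddHaar_euc m
  exact (isCompact_closedBall _ _).measure_lt_top

lemma wm_pos (m : ℕ) : 0 < wm m := by
  have := isAddHaar_euc m
  exact measure_closedBall_pos _ _ one_pos

lemma nearI_le {N : ℝ → Measure E} {T : ℝ → E → Submodule ℝ E} {H : ℝ → E → E} {κ : Measure E} :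
    nearI m N T H κ ≤ nearF m N T H κ := inf_le_left

lemma nearI_int {N : ℝ → Measure E} {T : ℝ → E → Submodule ℝ E} {H : ℝ → E → E}
    {κ : Measure E} : ∀ᶠ s in nearI m N T H κ, IntT m (N s) (T s) :=
  (inf_le_right : nearI m N T H κ ≤ _) (mem_principal_self _)

end Vale.Agent.P218D
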