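import Vale.Agent.P218D.Stat

/-! Block SL: the blow-up argument with multipliers. -/

open MeasureTheory Set Filter Topology Metric
open scoped ENNReal NNReal RealInnerProductSpace

namespace Vale.Agent.P218D

open Vale.Agent.P214 (proj divAlong)
open Vale.Agent.P218 Vale.Agent.P218.H313

set_option linter.unusedSectionVars false
set_option linter.unusedVariables false

variable {E : Type*} [NormedAddCommGroup E] [InnerProductSpace ℝ E] [FiniteDimensional ℝ E]
  [MeasurableSpace E] [BorelSpace E]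
variable {m : ℕ} {c K : ℝ}
variable {μ : Measure E} {T : E → Submodule ℝ E} {H : E → E} {W Φ w : E → ℝ}

namespace Blow

/-- Cauchy-Schwarz against a bounded function -/
lemma cs (hS : GSlice m μ T H) {a b : E → ℝ} (ha : AEStronglyMeasurable a μ) (pa : PB a)
    (hb : AEStronglyMeasurable b μ) {δ M : ℝ} (hd : ∀ x, |b x| ≤ δ) (hM : ∫ x, rho x ∂μ ≤ M) :
    |∫ x, a x * b x * rho x ∂μ| ≤ √(∫ x, a x ^ 2 * rho x ∂μ) * (δ * √M) := by
  have pb : PB b := PB.of_bound hd
  have h0 : 0 ≤ δ := (abs_nonneg _).trans (hd 0)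
  have i0 : Integrable (fun x => rho x) μ := by simpa using hS.mom 0
  have i2 := hS.integrable_PB (hb.pow 2) (pb.pow 2)
  refine (abs_integral_mul_le (fun x => (rho_pos x).le) (hS.integrable_PB (ha.pow 2) (pa.pow 2))
    i2 (hS.integrable_PB (ha.mul hb) (pa.mul pb))).trans
    (mul_le_mul_of_nonneg_left ?_ (Real.sqrt_nonneg _))
  rw [← Real.sqrt_sq h0, ← Real.sqrt_mul (sq_nonneg _)]
  refine Real.sqrt_le_sqrt (le_trans ?_ (mul_le_mul_of_nonneg_left hM (sq_nonneg δ)))
  rw [← integral_const_mul]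
  exact integral_mono i2 (i0.const_mul _) fun x => mul_le_mul_of_nonneg_right
    (sq_le_sq' (abs_le.1 (hd x)).1 (abs_le.1 (hd x)).2) (rho_pos x).le

lemma iDD (hS : GSlice m μ T H) (hw : PG w) (j : ℕ) :
    Integrable (fun x => w x ^ 2 * wt j x * rho x) μ :=
  hS.integrable_PB ((hw.cont.pow 2).mul (PG.wt j).cont).aestronglyMeasurable
    ((hw.b0.pow 2).mul (PG.wt j).b0)

lemma loc_le (hS : GSlice m μ T H) (hw : PG w) (R : ℝ) :
    ∫ x in closedBall (0 : E) R, (w x ^ 2 + ‖proj (T x) (grad w x)‖ ^ 2 + ‖H x‖ ^ 2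
      + w x ^ 2 * ‖H x‖) ∂μ ≤ Real.exp (R ^ 2 / 4) * (DD μ w 0 + TG μ T w 0 + 2 * dis μ T H
        + (∫ x, (1 + ‖x‖) ^ 2 * rho x ∂μ + VW μ T H w 0 + DD μ w 1)) := by
  have j1 : Integrable (fun x => w x ^ 2 * rho x) μ := by simpa [wt] using iDD hS hw 0
  have j2 : Integrable (fun x => ‖proj (T x) (grad w x)‖ ^ 2 * rho x) μ :=
    hS.integrable_dom (g := fun x => ‖fderiv ℝ w x‖ ^ 2) ((hS.proj_apply_meas
      (continuous_grad hw.cd).aestronglyMeasurable).norm.pow 2) (hw.b1.norm.pow 2) fun x => by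
      rw [abs_of_nonneg (sq_nonneg _), abs_of_nonneg (sq_nonneg _), ← norm_grad]
      exact pow_le_pow_left₀ (norm_nonneg _) (norm_proj_apply_le _ _) 2
  have j5 : Integrable (fun x => w x ^ 2 * wt 0 x * ‖vel T H x‖ ^ 2 * rho x) μ :=
    hS.integrable_mul_vel_sq ((hw.cont.pow 2).mul (PG.wt 0).cont).aestronglyMeasurable
      ((hw.b0.pow 2).mul (PG.wt 0).b0)
  have k1 := ((j1.const_mul 1).add (j2.const_mul 1)).add (hS.int_vel_sq.const_mul 2)
  have k2 := (((hS.mom 2).const_mul 1).add (j5.const_mul 1)).add ((iDD hS hw 1).const_mul 1)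
  have e := integral_add k1 k2
  simp only [Pi.add_apply] at e
  rw [integral_comb j1 j2 hS.int_vel_sq, integral_comb (hS.mom 2) j5 (iDD hS hw 1)] at e
  simp only [one_mul] at e
  rw [Stat.DD0, Stat.TG0, dis, VW, DD_eq, ← e, ← integral_const_mul]
  have k := (k1.add k2).const_mul (Real.exp (R ^ 2 / 4))
  simp only [Pi.add_apply, one_mul] at k
  refine le_trans (integral_mono_of_nonneg (Eventually.of_forall fun x => by
    simp only [Pi.zero_apply]; positivity) k.integrableOn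
    ((ae_restrict_iff' measurableSet_closedBall).2 (Eventually.of_forall fun x hx => ?_)))
    (setIntegral_le_integral k (Eventually.of_forall fun x => ?_))
  · refine (nh_pointwise (T := T) (by simpa using hx) _ _).trans (le_of_eq ?_)
    simp only [wt, pow_zero]
    ring
  · have h1 := wt_pos 1 x
    have h2 := rho_pos x
    have h3 := wt_pos 0 x
    simp only [Pi.zero_apply]
    positivity

lemma low (hS : GSlice m μ T H) (hw : PG w) (n : ℕ) :
    DD μ w 0 ≤ ∫ x, cut n x * rho x * w x ^ 2 ∂μ + 1 / ((n : ℝ) + 1) ^ 2 * DD μ w 1 := by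
  have j7 : Integrable (fun x => cut n x * rho x * w x ^ 2) μ :=
    (hS.integrable_PB ((continuous_cut n).mul (hw.cont.pow 2)).aestronglyMeasurable
      ((PB.of_compact (continuous_cut n) (cut_compact n)).mul (hw.b0.pow 2))).congr
      (Eventually.of_forall fun x => by simp only [Pi.mul_apply, Pi.pow_apply]; ring)
  rw [DD_eq, DD_eq, ← integral_const_mul, ← integral_add j7 ((iDD hS hw 1).const_mul _)]
  refine integral_mono (iDD hS hw 0) (j7.add ((iDD hS hw 1).const_mul _)) fun x => ?_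
  have h1 : 1 - cut n x ≤ 1 / ((n : ℝ) + 1) ^ 2 * wt 1 x := by
    by_cases hx : ‖x‖ ≤ (n : ℝ) + 1
    · have : cut n x = 1 := H552.chi_eq_one (cut_pos_arg n) hx
      rw [this, sub_self]
      have := wt_pos 1 x
      positivity
    · rw [one_div, inv_mul_eq_div, le_div_iff₀ (by positivity), wt]
      have h3 := cut_pos_arg n
      have h4 := mul_nonneg (cut_nonneg n x) (sq_nonneg ((n : ℝ) + 1))
      nlinarith [not_le.1 hx]
  have h2 := mul_le_mul_of_nonneg_right h1 (mul_nonneg (sq_nonneg (w x)) (rho_pos x).le)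
  simp only [wt, pow_zero] at h2 ⊢
  linarith

lemma DD_smul (a : ℝ) (j : ℕ) : DD μ (fun x => a * W x) j = a ^ 2 * DD μ W j := by
  simp only [DD, ← integral_const_mul, mul_pow, mul_assoc]

lemma VW_smul (a : ℝ) : VW μ T H (fun x => a * W x) 0 = a ^ 2 * VW μ T H W 0 := by
  simp only [VW, ← integral_const_mul, mul_pow, mul_assoc]

lemma TG_smul (hw : PG W) (a : ℝ) : TG μ T (fun x => a * W x) 0 = a ^ 2 * TG μ T W 0 := by
  simp only [Stat.TG0, ← integral_const_mul, grad_const_mul a (hw.diff _), map_smul, norm_smul,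
    mul_pow, mul_assoc, Real.norm_eq_abs, sq_abs]

/-- the Jacobi operators are close -/
lemma jac_close {W₀ ζ : E → ℝ} (h₀ : TubeB W₀ c K) (hζ : ContDiff ℝ 2 ζ)
    (hζc : HasCompactSupport ζ) {ε : ℝ} (hε : 0 < ε) : ∃ ω > 0, ∀ W : E → ℝ, TubeB W c K →
      Cl2 ω W W₀ → ∀ x, |jac W ζ x - jac W₀ ζ x| ≤ ε := by
  obtain ⟨B, hB, hζ0, -, hζ2⟩ := exists_bounds2 hζ hζc
  obtain ⟨R, hR⟩ := (hζc.isCompact.union
    ((hasCompactSupport_grad hζc).fderiv (𝕜 := ℝ)).isCompact).isBounded.subset_closedBall 0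
  have hK := h₀.K_nonneg
  obtain ⟨A, hA⟩ : ∃ A : ℝ, A = 2 * B * K + Module.finrank ℝ E * (2 * K) * B := ⟨_, rfl⟩
  have hA0 : 0 ≤ A := by rw [hA]; positivity
  refine ⟨min (|R| + 1)⁻¹ (ε / (A + 1)), by positivity, fun W hW h x => ?_⟩
  generalize hω : min (|R| + 1)⁻¹ (ε / (A + 1)) = ω at h
  have ω0 : 0 < ω := by rw [← hω]; positivity
  have e : jac W ζ x - jac W₀ ζ x = -(⟪fderiv ℝ (grad ζ) x (grad W x - grad W₀ x), grad W x⟫
      + ⟪fderiv ℝ (grad ζ) x (grad W₀ x), grad W x - grad W₀ x⟫)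
      + tr ((fderiv ℝ (grad W) x).comp (fderiv ℝ (grad W) x - fderiv ℝ (grad W₀) x)
        + (fderiv ℝ (grad W) x - fderiv ℝ (grad W₀) x).comp (fderiv ℝ (grad W₀) x)) * ζ x := by
    simp only [jac, map_sub, inner_sub_left, inner_sub_right, ContinuousLinearMap.comp_sub,
      ContinuousLinearMap.sub_comp, tr_add, tr_sub]
    ring
  rw [e]
  by_cases hx : x ∈ closedBall (0 : E) R
  · obtain ⟨-, h1, h2⟩ := h x ((mem_closedBall_zero_iff.1 hx).trans ((le_abs_self R).trans
      ((le_inv_comm₀ ω0 (by positivity)).1 (hω ▸ min_le_left _ _) |>.trans' (by linarith))))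
    have op : ∀ {u : E} {a : ℝ}, ‖u‖ ≤ a → ‖fderiv ℝ (grad ζ) x u‖ ≤ B * a := fun h =>
      (ContinuousLinearMap.le_opNorm _ _).trans (mul_le_mul (hζ2 x) h (norm_nonneg _) hB)
    have e1 := abs_le.1 ((abs_real_inner_le_norm _ _).trans
      (mul_le_mul (op h1) (hW.b1 x) (norm_nonneg _) (by positivity)))
    have e2 := abs_le.1 ((abs_real_inner_le_norm _ _).trans
      (mul_le_mul (op (h₀.b1 x)) h1 (norm_nonneg _) (by positivity)))
    have e3 := (norm_add_le _ _).trans (add_le_add ((ContinuousLinearMap.opNorm_comp_le _ _).trans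
      (mul_le_mul (hW.b2 x) h2 (norm_nonneg _) hK)) ((ContinuousLinearMap.opNorm_comp_le _ _).trans
      (mul_le_mul h2 (h₀.b2 x) (norm_nonneg _) ω0.le)))
    have e4 := abs_le.1 ((abs_mul _ _).trans_le (mul_le_mul ((abs_tr_le _).trans
      (mul_le_mul_of_nonneg_left e3 (Nat.cast_nonneg _))) (hζ0 x) (abs_nonneg _) (by positivity)))
    have e5 : ω * (A + 1) ≤ ε := (le_div_iff₀ (by positivity)).1 (hω ▸ min_le_right _ _)
    rw [hA] at e5
    exact abs_le.2 ⟨by linarith, by linarith⟩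
  · have h1 := mt (hR ·) hx
    rw [mem_union, not_or] at h1
    simp [image_eq_zero_of_notMem_tsupport h1.1, image_eq_zero_of_notMem_tsupport h1.2, hε.le]

lemma small {ι : Type*} {l : Filter ι} {f : ι → ℝ} {A : ℝ} (hA : 0 ≤ A)
    (h : ∀ ε > 0, ∀ᶠ i in l, |f i| ≤ ε * A) : Tendsto f l (𝓝 0) := by
  refine Metric.tendsto_nhds.2 fun ε hε => (h (ε / (A + 1)) (by positivity)).mono fun i hi => ?_
  rw [dist_zero_right, Real.norm_eq_abs]
  refine hi.trans_lt ?_
  rw [div_mul_eq_mul_div, div_lt_iff₀ (by positivity)]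
  linarith

end Blow

open Blow

theorem blow : BLOW E m := by
  intro h0 hE U N T H W₀ c K hW h k ψ hψ hnd W Φ lam D hWi hcl hD hpos hD0 hdis hPP hor
  have := h.lf
  obtain ⟨C₁, hC₁, hst⟩ := stat hE c K hW.cpos hW.K_nonneg
  obtain ⟨M, hM⟩ := h.mom 0
  have hM' : ∀ᶠ i in (U : Filter (ℝ × ℝ)), ∫ x, rho x ∂(N i) ≤ M := hM.mono fun i hi => by
    simpa using hi
  obtain ⟨a, ha⟩ : ∃ a : ℝ × ℝ → ℝ, a = fun i => (√(D i))⁻¹ := ⟨_, rfl⟩
  have a0 : ∀ i, 0 ≤ a i := fun i => by rw [ha]; positivity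
  have a2 : ∀ i, 0 < D i → ∀ x, a i ^ 2 * x = x / D i := fun i hi x => by
    rw [ha, inv_pow, Real.sq_sqrt hi.le, inv_mul_eq_div]
  have a1 : ∀ i, 0 < D i → ∀ x, a i * √x = √(x / D i) := fun i hi x => by
    rw [ha, Real.sqrt_div' _ hi.le, inv_mul_eq_div]
  have d1 : ∀ i, DD (N i) (W i) 0 ≤ D i := fun i => by rw [hD]; linarith [sq_nonneg ‖lam i‖]
  have d2 : ∀ i, ‖lam i‖ ^ 2 ≤ D i := fun i => by
    rw [hD]; linarith [DD_nonneg (μ := N i) (W := W i) 0]
  have pw : ∀ᶠ i in (U : Filter (ℝ × ℝ)), PG fun x => a i * W i x :=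
    hWi.mono fun i hi => hi.toTubeB.pg.const_mul _
  have w1 : ∀ᶠ i in (U : Filter (ℝ × ℝ)), ∫ x, (a i * W i x) ^ 2 * rho x ∂(N i) ≤ 1 :=
    hpos.mono fun i hi => by rw [← Stat.DD0, DD_smul, a2 i hi, div_le_one hi]; exact d1 i
  obtain ⟨u, hum, hu2, hu⟩ := h.exists_weak_lim (w := fun i x => a i * W i x)
    (pw.mono fun i hi => ⟨hi.cont, hi.b0⟩) w1
  choose l hl using fun j => Conv.exists_ulim (U := U) (x := fun i => a i * lam i j) (C := 1)
    (hpos.mono fun i hi => by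
      rw [← sq_le_one_iff_abs_le_one, mul_pow, a2 i hi, div_le_one hi, ← sq_abs]
      exact (pow_le_pow_left₀ (abs_nonneg _) (norm_le_pi_norm (lam i) j) 2).trans (d2 i))
  choose B hB using fun j => (hψ j).2.exists_bound_of_continuous (hψ j).1
  have s1 : ∀ v : Fin k → ℝ, Continuous fun p => ∑ j, v j * ψ j p := fun v =>
    continuous_finsetSum _ fun j _ => continuous_const.mul (hψ j).1
  have s2 : ∀ (v : Fin k → ℝ) p, |∑ j, v j * ψ j p| ≤ ‖v‖ * ∑ j, B j := fun v p => by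
    rw [Finset.mul_sum]
    exact (Finset.abs_sum_le_sum_abs _ _).trans (Finset.sum_le_sum fun j _ => (abs_mul _ _).trans_le
      (mul_le_mul (norm_le_pi_norm v j) (hB j p) (abs_nonneg _) (norm_nonneg _)))
  have pe : ∀ᶠ i in (U : Filter (ℝ × ℝ)), Measurable (fun p => Φ i p - ∑ j, lam i j * ψ j p) ∧
      ∀ p, |Φ i p - ∑ j, lam i j * ψ j p| ≤ K + ‖lam i‖ * ∑ j, B j := hWi.mono fun i hi =>
    ⟨hi.meas.sub (s1 _).measurable, fun p => (abs_sub _ _).trans (add_le_add (hi.bp p) (s2 _ p))⟩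
  obtain ⟨A, hA⟩ : ∃ A, A = 4 + 2 * ((∑ j, B j) ^ 2 * M) := ⟨_, rfl⟩
  have hQ : ∀ᶠ i in (U : Filter (ℝ × ℝ)), dis (N i) (T i) (H i) ≤ D i ∧
      DD (N i) (W i) 0 + dis (N i) (T i) (H i) + PP (N i) (Φ i) ≤ A * D i := by
    filter_upwards [hWi, h.sl, hpos, hM', pe, hdis.eventually_le_const one_pos,
      hPP.eventually_le_const one_pos] with i hi hs hp h1 h2 h3 h4
    rw [div_le_one hp] at h3 h4
    have i0 : Integrable (fun x => rho x) (N i) := by simpa using hs.mom 0
    have i1 := int_PP hs h2.1 h2.2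
    have e1 : PP (N i) (Φ i) ≤ 2 * PP (N i) (fun p => Φ i p - ∑ j, lam i j * ψ j p)
        + 2 * (‖lam i‖ * ∑ j, B j) ^ 2 * ∫ x, rho x ∂(N i) := by
      rw [PP, PP, ← integral_comb2 i1 i0]
      refine integral_mono (int_PP hs hi.meas hi.bp) ((i1.const_mul _).add (i0.const_mul _))
        fun p => ?_
      have e := sq_le_sq' (abs_le.1 (s2 (lam i) p)).1 (abs_le.1 (s2 (lam i) p)).2
      have e' : Φ i p ^ 2 ≤ 2 * (Φ i p - ∑ j, lam i j * ψ j p) ^ 2
          + 2 * (‖lam i‖ * ∑ j, B j) ^ 2 := by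
        nlinarith [sq_nonneg (Φ i p - 2 * ∑ j, lam i j * ψ j p)]
      exact (mul_le_mul_of_nonneg_right e' (rho_pos p).le).trans_eq (by ring)
    have e2 : 0 ≤ ∫ x, rho x ∂(N i) := integral_nonneg fun x => (rho_pos x).le
    have e3 := mul_le_mul (mul_le_mul_of_nonneg_right (d2 i) (sq_nonneg (∑ j, B j))) h1 e2
      (by positivity)
    refine ⟨h3, ?_⟩
    rw [hA]
    linarith [d1 i]
  have sq0 : ∀ {f : ℝ × ℝ → ℝ}, Tendsto f U (𝓝 0) → Tendsto (fun i => √(f i)) U (𝓝 0) :=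
    fun h => by simpa using h.sqrt
  obtain ⟨hu0, hl0⟩ := hnd u l hum hu2 (fun ζ hζ hζc => by
    obtain ⟨C, hC, hest⟩ := jeq hE c K hW.cpos hW.K_nonneg ζ hζ hζc
    obtain ⟨Bζ, -, hζ0, -⟩ := exists_bounds2 hζ hζc
    have pj : ∀ {V : E → ℝ}, TubeB V c K → PB (jac V ζ) := fun hV =>
      PB.of_compact (hV.continuous_jac hζ) (hasCompactSupport_jac hζc)
    have pz : ∀ j, Continuous (fun p => ψ j p * ζ p) ∧ PB fun p => ψ j p * ζ p := fun j =>
      ⟨(hψ j).1.mul hζ.continuous, (PB.of_bound (hB j)).mul (PB.of_bound hζ0)⟩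
    have t1 : Tendsto (fun i => ∫ x, a i * W i x * (jac W₀ ζ x - jac (W i) ζ x) * rho x ∂(N i)) U
        (𝓝 0) := small (Real.sqrt_nonneg M) fun ε hε => by
      obtain ⟨ω, ω0, hω⟩ := jac_close (tubeB_of_D hW) hζ hζc hε
      filter_upwards [hWi, h.sl, hM', pw, w1, hcl ω ω0] with i hi hs h1 h2 h3 h4
      refine (cs hs h2.cont.aestronglyMeasurable h2.b0 (((tubeB_of_D hW).continuous_jac hζ).sub
        (hi.toTubeB.continuous_jac hζ)).aestronglyMeasurable (fun x => (abs_sub_comm _ _).trans_le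
          (hω _ hi.toTubeB h4 x)) h1).trans ?_
      exact mul_le_of_le_one_left (by positivity) (Real.sqrt_le_one.2 h3)
    have t2 : Tendsto (fun i => a i * (∫ x, W i x * jac (W i) ζ x * rho x ∂(N i)
        - ∫ x, Φ i x * ζ x * rho x ∂(N i))) U (𝓝 0) := by
      refine squeeze_zero_norm' ?_ (show Tendsto (fun i => C * (A * √(D i)
        + √M * √(dis (N i) (T i) (H i) / D i))) U (𝓝 0) by
          simpa using (((sq0 hD0).const_mul A).add ((sq0 hdis).const_mul √M)).const_mul C)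
      filter_upwards [hWi, h.sl, hpos, hM', hQ] with i hi hs hp h1 h2
      have e1 := (int_vel_le hs).trans
        (mul_le_mul_of_nonneg_right (Real.sqrt_le_sqrt h1) (Real.sqrt_nonneg _))
      have e2 : a i * D i = √(D i) := by rw [ha, inv_mul_eq_div, Real.div_sqrt]
      rw [norm_mul, Real.norm_of_nonneg (a0 i), ← a1 i hp, ← e2]
      refine (mul_le_mul_of_nonneg_left ((hest _ _ hi _ _ _ hs).trans
        (mul_le_mul_of_nonneg_left (add_le_add h2.2 e1) hC)) (a0 i)).trans_eq (by ring)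
    have t3 : Tendsto (fun i => a i * ∫ x, (Φ i x - ∑ j, lam i j * ψ j x) * ζ x * rho x ∂(N i)) U
        (𝓝 0) := by
      refine squeeze_zero_norm' ?_ (by simpa using (sq0 hPP).mul_const (Bζ * √M))
      filter_upwards [h.sl, hpos, hM', pe] with i hs hp h1 h2
      rw [norm_mul, Real.norm_of_nonneg (a0 i), ← a1 i hp, mul_assoc]
      exact mul_le_mul_of_nonneg_left (cs hs h2.1.aestronglyMeasurable (PB.of_bound h2.2)
        hζ.continuous.aestronglyMeasurable hζ0 h1) (a0 i)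
    have t4 := tendsto_finsetSum Finset.univ fun j _ => (hl j).mul (h.lim_PB (pz j).1 (pz j).2)
    have e : ∀ (ν : Measure E) (v : Fin k → ℝ), (∀ j, Integrable (fun p => ψ j p * ζ p * rho p) ν) →
        ∫ p, (∑ j, v j * ψ j p) * ζ p * rho p ∂ν = ∑ j, v j * ∫ p, ψ j p * ζ p * rho p ∂ν :=
      fun ν v hv => by
        simp only [← integral_const_mul, Finset.sum_mul, mul_assoc] at hv ⊢
        exact integral_finsetSum _ fun j _ => (hv j).const_mul _
    rw [e _ _ fun j => h.integrable_lim (pz j).1.aestronglyMeasurable (pz j).2]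
    have t5 := ((t1.add t2).add t3).add t4
    simp only [zero_add] at t5
    rw [← tendsto_nhds_unique (hu _ ((tubeB_of_D hW).continuous_jac hζ) (pj (tubeB_of_D hW))).2
      (t5.congr' ?_)]
    · exact integral_congr_ae (Eventually.of_forall fun x => by ring)
    filter_upwards [hWi, h.sl, pw, pe] with i hi hs h1 h2
    have i1 := hs.integrable_PB (h1.cont.mul ((tubeB_of_D hW).continuous_jac
      hζ)).aestronglyMeasurable (h1.b0.mul (pj (tubeB_of_D hW)))
    have i2 := hs.integrable_PB (h1.cont.mul (hi.toTubeB.continuous_jac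
      hζ)).aestronglyMeasurable (h1.b0.mul (pj hi.toTubeB))
    have i3 := hs.integrable_PB (hi.meas.mul hζ.continuous.measurable).aestronglyMeasurable
      ((PB.of_bound hi.bp).mul (PB.of_bound hζ0))
    have i4 := hs.integrable_PB ((s1 (lam i)).mul hζ.continuous).aestronglyMeasurable
      ((PB.of_bound (s2 (lam i))).mul (PB.of_bound hζ0))
    simp only [Pi.mul_apply] at i1 i2 i3 i4
    simp only [mul_sub, sub_mul]
    rw [integral_sub i1 i2, integral_sub i3 i4,
      e _ _ fun j => hs.integrable_PB (pz j).1.aestronglyMeasurable (pz j).2, mul_sub,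
      Finset.mul_sum]
    simp only [mul_assoc, integral_const_mul]
    ring) fun j => by
      rw [← tendsto_nhds_unique (hu _ (hψ j).1 (PB.of_bound (hB j))).2 ((hor j).congr fun i => by
        simp only [ha, mul_assoc, integral_const_mul, div_eq_inv_mul])]
      exact integral_congr_ae (Eventually.of_forall fun x => by ring)
  obtain ⟨M₂, hM₂⟩ := h.mom 2
  have b : ∀ᶠ i in (U : Filter (ℝ × ℝ)), TG (N i) (T i) (fun x => a i * W i x) 0 ≤ C₁ * A ∧
      DD (N i) (fun x => a i * W i x) 1 ≤ C₁ * A ∧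
      VW (N i) (T i) (H i) (fun x => a i * W i x) 0 ≤ K ^ 2 := by
    filter_upwards [hWi, h.sl, hpos, hQ] with i hi hs hp h1
    have e1 := mul_le_mul_of_nonneg_left h1.2 hC₁
    have e2 := mul_le_mul_of_nonneg_left h1.1 (sq_nonneg K)
    obtain ⟨e3, e4⟩ := hst _ _ hi _ _ _ hs
    simp only [TG_smul hi.toTubeB.pg, DD_smul, VW_smul, a2 i hp, div_le_iff₀ hp]
    exact ⟨by linarith, by linarith, (VW_zero_le hs hi.toTubeB).trans e2⟩
  obtain ⟨n, hn⟩ := exists_nat_gt (4 * (C₁ * A))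
  have hfin := strong_compactness U h0 (h.sl.mono fun i hi => hi.toSlice) h.lim h.ratio
    (fun x _ hb => density_le hE hW x hb) (w := fun i x => a i * W i x) (pw.mono fun i hi => hi.cd)
    (fun R => ⟨Real.exp (R ^ 2 / 4) * (1 + C₁ * A + 2 * 1 + (M₂ + K ^ 2 + C₁ * A)), by
      filter_upwards [h.sl, pw, w1, b, hM₂, hQ, hD0.eventually_le_const one_pos] with
        i hs h1 h2 h3 h4 h5 h6
      refine (loc_le hs h1 R).trans (mul_le_mul_of_nonneg_left ?_ (Real.exp_pos _).le)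
      rw [← Stat.DD0] at h2
      linarith [h3.1, h3.2.1, h3.2.2, h5.1]⟩)
    (fun ζ hζ hζc => by
      have c1 := hζ.mul (continuous_rho.inv₀ fun x => (rho_pos x).ne')
      have h1 := (hu _ c1 (PB.of_compact c1 hζc.mul_right)).2
      rw [integral_eq_zero_of_ae (hu0.mono fun x hx => by simp [hx])] at h1
      refine h1.congr fun i => integral_congr_ae (Eventually.of_forall fun x => ?_)
      have := (rho_pos x).ne'
      simp only [Pi.mul_apply, Pi.inv_apply]
      field_simp)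
    (fun x => cut n x * rho x) ((continuous_cut n).mul continuous_rho) (cut_compact n).mul_right
  have hl' : Tendsto (fun i => ‖a i • lam i‖ ^ 2) U (𝓝 0) := by
    simpa using (tendsto_pi_nhds.2 fun j => (by simpa [hl0] using hl j :
      Tendsto (fun i => (a i • lam i) j) U (𝓝 ((0 : Fin k → ℝ) j)))).norm.pow 2
  have : ∀ᶠ i in (U : Filter (ℝ × ℝ)), False := by
    filter_upwards [h.sl, pw, hpos, b, hfin.eventually_lt_const (show (0 : ℝ) < 1 / 2 by norm_num),
      hl'.eventually_le_const (show (0 : ℝ) < 1 / 4 by norm_num)] with i hs h1 hp h2 h3 h4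
    have e1 := low hs h1 n
    have e2 : 1 / ((n : ℝ) + 1) ^ 2 * DD (N i) (fun x => a i * W i x) 1 ≤ 1 / 4 := by
      rw [one_div, inv_mul_eq_div, div_le_iff₀ (by positivity)]
      nlinarith [h2.2.1, sq_nonneg (n : ℝ), (Nat.cast_nonneg n : (0 : ℝ) ≤ n)]
    have e3 : a i ^ 2 * D i = 1 := by rw [a2 i hp, div_self hp.ne']
    rw [norm_smul, mul_pow, Real.norm_eq_abs, sq_abs] at h4
    rw [DD_smul] at e1
    rw [hD, mul_add] at e3
    linarith
  exact this.exists.elim fun _ => id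

theorem blow' (_ : STAT E m) (_ : JEQ E m) : BLOW E m := blow

end Vale.Agent.P218D
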