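import Vale.Agent.P218D.Blow
import Vale.Agent.P264Z.Brouwer

/-! Block SL: the gauge. -/

open MeasureTheory Set Filter Topology Metric
open scoped ENNReal NNReal RealInnerProductSpace

namespace Vale.Agent.P218D.Gau

open Vale.Agent.P218 Vale.Agent.P218.H313

set_option linter.unusedSectionVars false
set_option linter.unusedVariables false

variable {E : Type*} [NormedAddCommGroup E] [InnerProductSpace ℝ E] [FiniteDimensional ℝ E]
  [MeasurableSpace E] [BorelSpace E]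

lemma cpt {g : E → ℝ} {R : ℝ} (hR : ∀ p, R ≤ ‖p‖ → g p = 0) : HasCompactSupport g :=
  HasCompactSupport.intro (isCompact_closedBall 0 R) fun p hp =>
    hR p (not_le.1 fun h => hp (mem_closedBall_zero_iff.2 h)).le

/-- weak convergence is uniform on an equi-Lipschitz family -/
lemma unif {ι : Type*} {l : Filter ι} {N : ι → Measure E} {κ : Measure E}
    (hf : ∀ᶠ i in l, IsFiniteMeasureOnCompacts (N i)) [IsLocallyFiniteMeasure κ]
    (hl : ∀ φ : E → ℝ, Continuous φ → HasCompactSupport φ →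
      Tendsto (fun i => ∫ x, φ x ∂(N i)) l (𝓝 (∫ x, φ x ∂κ)))
    {g : E → ℝ} (hg : Continuous g) {R K δ : ℝ} (hR : ∀ p, R ≤ ‖p‖ → g p = 0) (hK : 0 ≤ K)
    (hδ : 0 < δ) : ∀ᶠ i in l, ∀ f : E → ℝ, Continuous f → (∀ p, ‖p‖ ≤ R → |f p| ≤ K) →
      (∀ p p', ‖p‖ ≤ R → ‖p'‖ ≤ R → |f p - f p'| ≤ K * ‖p - p'‖) →
      |∫ p, f p * g p ∂(N i) - ∫ p, f p * g p ∂κ| ≤ δ := by
  have gc := cpt hR
  obtain ⟨A, hA⟩ : ∃ A, A = ∫ p, |g p| ∂κ := ⟨_, rfl⟩
  have hA0 : 0 ≤ A := hA ▸ integral_nonneg fun _ => abs_nonneg _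
  obtain ⟨η, η0, hη⟩ : ∃ η > 0, η * (K * (2 * A + 2) + 1) = δ :=
    ⟨δ / _, by positivity, div_mul_cancel₀ _ (by positivity)⟩
  obtain ⟨t, t1, t2, t3⟩ := finite_cover_balls_of_compact (isCompact_closedBall (0 : E) R) η0
  have := t2.fintype
  obtain ⟨χ, hχ⟩ := PartitionOfUnity.exists_isSubordinate isClosed_closedBall
    (fun j : t => ball (j : E) η) (fun _ => isOpen_ball) (by rwa [biUnion_eq_iUnion] at t3)
  have c1 : ∀ j, Continuous fun p => χ j p * g p := fun j => (χ j).continuous.mul hg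
  have key : ∀ (ν : Measure E) [IsFiniteMeasureOnCompacts ν] (f : E → ℝ), Continuous f →
      (∀ p p', ‖p‖ ≤ R → ‖p'‖ ≤ R → |f p - f p'| ≤ K * ‖p - p'‖) →
      |∫ p, f p * g p ∂ν - ∑ j : t, f j * ∫ p, χ j p * g p ∂ν| ≤ K * η * ∫ p, |g p| ∂ν := by
    intro ν _ f f1 f2
    have i1 := fun j : t => ((c1 j).integrable_of_hasCompactSupport (μ := ν)
      gc.mul_left).const_mul (f j)
    have i2 : Integrable (fun p => f p * g p) ν :=
      (f1.mul hg).integrable_of_hasCompactSupport gc.mul_left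
    simp only [← integral_const_mul]
    rw [← integral_finsetSum _ fun j _ => i1 j, ← integral_sub i2
      (integrable_finsetSum _ fun j _ => i1 j), ← Real.norm_eq_abs]
    refine norm_integral_le_of_norm_le ((hg.integrable_of_hasCompactSupport gc).abs.const_mul _)
      (Eventually.of_forall fun p => ?_)
    by_cases hp : ‖p‖ ≤ R
    · have e := χ.sum_eq_one (mem_closedBall_zero_iff.2 hp)
      rw [finsum_eq_sum_of_fintype] at e
      have e1 : f p * g p - ∑ j : t, f j * (χ j p * g p) = (∑ j : t, χ j p * (f p - f j)) * g p := by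
        simp only [mul_sub, Finset.sum_sub_distrib, ← Finset.sum_mul, e, sub_mul,
          ← mul_assoc, mul_comm (f _) (χ _ p), one_mul]
      rw [e1, norm_mul, Real.norm_eq_abs, Real.norm_eq_abs]
      refine mul_le_mul_of_nonneg_right ((Finset.abs_sum_le_sum_abs _ _).trans ?_) (abs_nonneg _)
      rw [← one_mul (K * η), ← e, Finset.sum_mul]
      refine Finset.sum_le_sum fun j _ => ?_
      rw [abs_mul, abs_of_nonneg (χ.nonneg j p)]
      by_cases h0 : χ j p = 0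
      · simp [h0]
      · refine mul_le_mul_of_nonneg_left ((f2 p j hp (mem_closedBall_zero_iff.1 (t1 j.2))).trans
          (mul_le_mul_of_nonneg_left ?_ hK)) (χ.nonneg j p)
        exact (mem_ball_iff_norm.1 (hχ j (subset_tsupport _ h0))).le
    · simp [hR p (not_le.1 hp).le]
  have l1 : Tendsto (fun i => ∑ j : t, |∫ p, χ j p * g p ∂(N i) - ∫ p, χ j p * g p ∂κ|) l
      (𝓝 0) := by
    simpa using tendsto_finsetSum Finset.univ fun j _ =>
      ((hl _ (c1 j) gc.mul_left).sub_const (∫ p, χ j p * g p ∂κ)).abs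
  filter_upwards [hf, l1.eventually_le_const η0, (hl _ hg.abs gc.abs).eventually_le_const
    (lt_add_one _)] with i h1 h2 h3 f f1 f2 f3
  have e1 := abs_le.1 (key (N i) f f1 f3)
  have e2 := abs_le.1 (key κ f f1 f3)
  have e3 : |∑ j : t, f j * ∫ p, χ j p * g p ∂(N i) - ∑ j : t, f j * ∫ p, χ j p * g p ∂κ|
      ≤ K * η := by
    simp only [← Finset.sum_sub_distrib, ← mul_sub]
    refine (Finset.abs_sum_le_sum_abs _ _).trans
      (le_trans ?_ (mul_le_mul_of_nonneg_left h2 hK))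
    rw [Finset.mul_sum]
    exact Finset.sum_le_sum fun j _ => (abs_mul _ _).trans_le (mul_le_mul_of_nonneg_right
      (f2 j (mem_closedBall_zero_iff.1 (t1 j.2))) (abs_nonneg _))
  have e4 := abs_le.1 e3
  have e5 := mul_le_mul_of_nonneg_left h3 (mul_nonneg hK η0.le)
  rw [← hA] at e2 e5
  exact abs_le.2 ⟨by linarith, by linarith⟩

/-- a selection tending to zero -/
lemma sel {X : Type*} [NormedAddCommGroup X] {l : Filter (ℝ × ℝ)}
    (hl : Tendsto Prod.snd l (𝓝[>] 0)) {P : ℝ × ℝ → X → Prop}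
    (h : ∀ η > 0, ∀ᶠ q in l, ∃ x, P q x ∧ ‖x‖ ≤ η) :
    ∃ x : ℝ × ℝ → X, ∀ η > 0, ∀ᶠ q in l, P q (x q) ∧ ‖x q‖ ≤ η := by
  have : ∀ q : ℝ × ℝ, ∃ x, (∃ x, P q x) → 0 < q.2 → P q x ∧ ∀ y, P q y → ‖x‖ ≤ ‖y‖ + q.2 := by
    intro q
    by_cases e : (∃ x, P q x) ∧ 0 < q.2
    · obtain ⟨_, ⟨x, h1, rfl⟩, h2⟩ := Real.lt_sInf_add_pos (s := norm '' {x | P q x})
        (Nonempty.image _ e.1) e.2
      exact ⟨x, fun _ _ => ⟨h1, fun y hy => h2.le.trans (add_le_add (csInf_le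
        ⟨0, by rintro _ ⟨_, _, rfl⟩; exact norm_nonneg _⟩ ⟨y, hy, rfl⟩) le_rfl)⟩⟩
    · exact ⟨0, fun a b => (e ⟨a, b⟩).elim⟩
  choose x hx using this
  refine ⟨x, fun η hη => ?_⟩
  filter_upwards [h _ (half_pos hη), hl.eventually self_mem_nhdsWithin,
    (hl.mono_right nhdsWithin_le_nhds).eventually_le_const (half_pos hη)] with q ⟨y, h1, h2⟩ h3 h4
  obtain ⟨h5, h6⟩ := hx q ⟨y, h1⟩ h3
  exact ⟨h5, by linarith [h6 y h1]⟩

variable {m k : ℕ} {W₀ : E → ℝ} {ψ : Fin k → E → ℝ} {γ : ℝ}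
  {W V : (Fin k → ℝ) → ℝ → E → ℝ} {lam : (Fin k → ℝ) → ℝ → Fin k → ℝ}
  {Z : (Fin k → ℝ) → ℝ → ℝ} {c Rψ r K s₀ : ℝ}
  {N : ℝ → Measure E} {T : ℝ → E → Submodule ℝ E} {H : ℝ → E → E}

/-- existence of the gauge -/
lemma gauge (L : LFW m k W₀ ψ γ W V lam Z c Rψ r K) [IsLocallyFiniteMeasure (hm m W₀)] :
    ∃ x : ℝ × ℝ → Fin k → ℝ, ∀ η > 0, ∀ᶠ q in nearF m N T H (hm m W₀) ×ˢ 𝓝[>] (0 : ℝ),
      (∀ i, ∫ p, V (x q) q.2 p * ψ i p * rho p ∂(N q.1) = 0) ∧ ‖x q‖ ≤ η := by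
  refine sel (P := fun q x => ∀ i, ∫ p, V x q.2 p * ψ i p * rho p ∂(N q.1) = 0) tendsto_snd
    fun η hη => ?_
  obtain ⟨r₁, h1, h2⟩ := L.gauge
  obtain ⟨r', a0, a1, a2, a3⟩ : ∃ r', 0 < r' ∧ r' ≤ r₁ ∧ r' ≤ r ∧ r' ≤ η :=
    ⟨min r₁ (min r η), lt_min h1 (lt_min L.rpos hη), min_le_left _ _,
      (min_le_right _ _).trans (min_le_left _ _), (min_le_right _ _).trans (min_le_right _ _)⟩
  obtain ⟨ε₀, b0, b1⟩ := h2 r' a0 a1
  have hf : ∀ᶠ s in nearF m N T H (hm m W₀), IsFiniteMeasureOnCompacts (N s) :=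
    nearF_sl.mono fun s hs => hs.mc.fin
  have g0 : ∀ i p, Rψ ≤ ‖p‖ → ψ i p * rho p = 0 := fun i p hp => by
    rw [(L.psi i).2 p hp, zero_mul]
  have gc : ∀ i, Continuous fun p => ψ i p * rho p := fun i => (L.psi i).1.mul continuous_rho
  have u := eventually_all.2 fun i => unif hf (fun φ => nearF_lim) (gc i) (g0 i) L.shr.K_nonneg
    (show 0 < r' / 4 by positivity)
  filter_upwards [tendsto_fst.eventually hf, tendsto_fst.eventually u, tendsto_snd.eventually
    (Ioc_mem_nhdsGT (lt_min b0 L.rpos))] with ⟨s, ε⟩ c1 c2 ⟨c3, c4⟩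
  obtain ⟨d1, d2⟩ := b1 ε c3 (c4.trans (min_le_left _ _))
  have v := fun x (hx : ‖x‖ ≤ r') => L.vc x ε (hx.trans a2) c3 (c4.trans (min_le_right _ _))
  obtain ⟨x, e1, e2⟩ := P264Z.exists_zero_of_sphere (E := Fin k → ℝ) a0
    (f := fun x i => -∫ p, V x ε p * ψ i p * rho p ∂(N s))
    (continuousOn_pi.2 fun i => (continuousOn_of_dominated (bound := fun p => K * |ψ i p * rho p|)
      (F := fun x p => V x ε p * ψ i p * rho p)
      (fun x hx => (((v x (by simpa using hx)).1.mul (L.psi i).1).mul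
        continuous_rho).aestronglyMeasurable)
      (fun x hx => Eventually.of_forall fun p => by
        by_cases hp : ‖p‖ ≤ Rψ
        · rw [mul_assoc, norm_mul]
          exact mul_le_mul_of_nonneg_right ((v x (by simpa using hx)).2.1 p hp) (abs_nonneg _)
        · simp [(L.psi i).2 p (not_le.1 hp).le])
      (((gc i).integrable_of_hasCompactSupport (cpt (g0 i))).abs.const_mul K)
      (Eventually.of_forall fun p => by
        by_cases hp : ψ i p = 0
        · simpa [hp] using continuousOn_const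
        · exact ((d1 i p hp).mul continuousOn_const).mul continuousOn_const)).neg)
    fun x hx t ht e => by
      have : ‖x‖ ≤ r' / 2 := (pi_norm_le_iff_of_nonneg (by positivity)).2 fun i => by
        have f1 := abs_le.1 (c2 i _ (v x hx.le).1 (v x hx.le).2.1 (v x hx.le).2.2)
        have f2 := abs_le.1 (d2 x hx.le i)
        have f3 := congrFun e i
        simp only [Pi.add_apply, Pi.smul_apply, smul_eq_mul, Pi.zero_apply,
          mul_assoc] at f1 f2 f3
        exact abs_le.2 ⟨by nlinarith [ht.1, ht.2], by nlinarith [ht.1, ht.2]⟩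
      linarith
  exact ⟨x, fun i => neg_eq_zero.1 (congrFun e2 i), e1.le.trans a3⟩

end Vale.Agent.P218D.Gau
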