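import Vale.Agent.P218D.Mass1

/-! Block SL: local estimates near the zero set of a tube function. -/

open MeasureTheory Set Filter Topology Metric
open scoped ENNReal NNReal RealInnerProductSpace

namespace Vale.Agent.P218D

open Vale.Agent.P214 (proj IsApproxTangent divAlong)
open Vale.Agent.P218 Vale.Agent.P218.H313

set_option linter.unusedSectionVars false
set_option linter.unusedVariables false

variable {E : Type*} [NormedAddCommGroup E] [InnerProductSpace ℝ E] [FiniteDimensional ℝ E]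
  [MeasurableSpace E] [BorelSpace E]
variable {m : ℕ} {c K : ℝ}
variable {μ : Measure E} {T : E → Submodule ℝ E} {H : E → E} {W : E → ℝ}

lemma vel_intOn (hS : Slice m μ T H) {A : Set E} (hA : IsCompact A) :
    IntegrableOn (fun y => ‖vel T H y‖ ^ 2) A μ := by
  have := hS.mc.fin
  have h1 : IntegrableOn (fun y : E => ‖y‖ ^ 2) A μ :=
    (continuous_norm.pow 2).continuousOn.integrableOn_compact hA
  refine Integrable.mono' (((hS.mc.locL2 A hA).add h1).const_mul 2)
    (hS.vel_meas.norm.pow 2).restrict (Eventually.of_forall fun y => ?_)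
  rw [norm_pow, norm_norm]
  have h2 : ‖vel T H y‖ ≤ ‖H y‖ + ‖y‖ := by
    unfold vel
    refine (norm_add_le _ _).trans ?_
    rw [norm_smul]
    have := norm_sub_proj_le (T y) y
    have := norm_nonneg (y - proj (T y) y)
    norm_num
    linarith
  simp only [Pi.add_apply]
  nlinarith [norm_nonneg (vel T H y), sq_nonneg (‖H y‖ - ‖y‖), norm_nonneg (H y), norm_nonneg y]

lemma gg_intOn (hS : Slice m μ T H) (hW : TubeB W c K) (R : ℝ) {A : Set E} (hA : IsCompact A) :
    IntegrableOn (gg T H W R) A μ :=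
  (vel_intOn hS hA).add
    ((hS.sq_proj_grad_integrableOn (hW.smooth.of_le (by norm_num)) hA).const_mul _)

lemma perp_le (hW : TubeB W c K) (hE : Module.finrank ℝ E = m + 1) {y : E} {P : Submodule ℝ E}
    (hP : Module.finrank ℝ P = m) (hy : |W y| < c) (v : E) :
    ‖v - proj P v‖ ≤ |⟪v, grad W y⟫| + ‖v‖ * ‖proj P (grad W y)‖ := by
  set φ := v - proj P v with hφ
  have hm : φ ∈ Pᗮ := H552.sub_proj_mem P v
  have h1 := hW.normal_est hE y P hP hy hm v
  have h2 : ⟪v, φ⟫ = ‖φ‖ ^ 2 := by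
    have h3 : ⟪proj P v, φ⟫ = 0 := Submodule.inner_right_of_mem_orthogonal (H552.proj_mem P v) hm
    rw [← real_inner_self_eq_norm_sq]
    conv_rhs => rw [hφ, inner_sub_left, ← hφ, h3, sub_zero]
  have h3 : |⟪v, grad W y⟫ * ⟪grad W y, φ⟫| ≤ |⟪v, grad W y⟫| * ‖φ‖ := by
    rw [abs_mul]
    gcongr
    refine (abs_real_inner_le_norm _ _).trans ?_
    rw [hW.eik y hy, one_mul]
  have h4 : ‖φ‖ ^ 2 ≤ (|⟪v, grad W y⟫| + ‖v‖ * ‖proj P (grad W y)‖) * ‖φ‖ := by
    have h5 := (abs_le.1 h1).2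
    have h6 := (abs_le.1 h3).2
    rw [h2] at h5
    linarith
  rcases (norm_nonneg φ).eq_or_lt with h | h
  · rw [← h]; positivity
  · rw [sq] at h4
    exact le_of_mul_le_mul_right h4 h

lemma normH_le (hW : TubeB W c K) (hE : Module.finrank ℝ E = m + 1) {y : E} {R : ℝ}
    (hP : Module.finrank ℝ (T y) = m) (hy : |W y| < c) (hR : ‖y‖ ≤ R + 1) :
    ‖H y‖ ≤ K + 2 + gg T H W R y := by
  have h1 := perp_le hW hE hP hy y
  have h2 := hW.bx y
  have h3 : H y = vel T H y - (1 / 2 : ℝ) • (y - proj (T y) y) := by unfold vel; abel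
  have h4 : ‖H y‖ ≤ ‖vel T H y‖ + ‖y - proj (T y) y‖ := by
    rw [h3]
    refine (norm_sub_le _ _).trans ?_
    rw [norm_smul]
    have := norm_nonneg (y - proj (T y) y)
    norm_num
    linarith
  have h5 : ‖y‖ * ‖proj (T y) (grad W y)‖ ≤ (R + 1) * ‖proj (T y) (grad W y)‖ := by gcongr
  unfold gg
  nlinarith [sq_nonneg (‖vel T H y‖ - 1), sq_nonneg ((R + 1) * ‖proj (T y) (grad W y)‖ - 1),
    sq_nonneg ‖vel T H y‖, sq_nonneg ((R + 1) * ‖proj (T y) (grad W y)‖)]

lemma tilt_le {R σ : ℝ} (hR : 0 ≤ R) (hσ : 0 < σ) (y : E) :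
    ‖proj (T y) (grad W y)‖ ≤ σ + gg T H W R y / σ := by
  set t := ‖proj (T y) (grad W y)‖ with ht
  have h0 : 0 ≤ t := norm_nonneg _
  have h1 : t ^ 2 ≤ gg T H W R y := by
    unfold gg
    rw [← ht]
    have : 1 ≤ (R + 1) ^ 2 := by nlinarith
    nlinarith [sq_nonneg ‖vel T H y‖, sq_nonneg t]
  have h2 : t ≤ σ + t ^ 2 / σ := by
    rw [← sub_nonneg]
    have : σ + t ^ 2 / σ - t = ((σ - t) ^ 2 + σ * t) / σ := by field_simp; ring
    rw [this]; positivity
  have h3 : t ^ 2 / σ ≤ gg T H W R y / σ := by gcongr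
  linarith

/-- integrate a pointwise bound by a constant plus a multiple of `gg` over a ball -/
lemma int_ball_le (hS : Slice m μ T H) (hW : TubeB W c K) {Cr : ℝ} (hR : Rat m μ Cr) {R : ℝ}
    {x : E} {t A B : ℝ} (ht : 0 < t) (ht1 : t ≤ 1) (hA : 0 ≤ A) {u : E → ℝ}
    (hu : IntegrableOn u (closedBall x t) μ)
    (hle : ∀ y ∈ closedBall x t, Module.finrank ℝ (T y) = m → u y ≤ A + B * gg T H W R y) :
    ∫ y in closedBall x t, u y ∂μ
      ≤ A * (Cr * t ^ m) + B * ∫ y in closedBall x t, gg T H W R y ∂μ := by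
  have := hS.mc.fin
  have hc := isCompact_closedBall x t
  have i1 : IntegrableOn (fun _ : E => A) (closedBall x t) μ :=
    continuousOn_const.integrableOn_compact hc
  have i2 : IntegrableOn (fun y => B * gg T H W R y) (closedBall x t) μ :=
    (gg_intOn hS hW R hc).const_mul B
  calc _ ≤ ∫ y in closedBall x t, (A + B * gg T H W R y) ∂μ := by
        refine setIntegral_mono_on_ae hu (i1.add i2) measurableSet_closedBall ?_
        filter_upwards [hS.mc.dim] with y hy hyb using hle y hyb hy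
    _ = A * μ.real (closedBall x t) + B * ∫ y in closedBall x t, gg T H W R y ∂μ := by
        rw [integral_add i1 i2, integral_const_mul, setIntegral_const, smul_eq_mul, mul_comm]
    _ ≤ _ := by gcongr; exact hR x t ht ht1

lemma tube_ball (hW : TubeB W c K) {x y : E} {s t : ℝ} (hx : |W x| ≤ s) (hy : y ∈ closedBall x t)
    (hc : s + K * t < c) : |W y| < c := by
  have h1 := hW.lip y x
  rw [mem_closedBall, dist_eq_norm] at hy
  have h2 : K * ‖y - x‖ ≤ K * t := mul_le_mul_of_nonneg_left hy hW.K_nonneg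
  have := abs_sub_abs_le_abs_sub (W y) (W x)
  linarith

lemma norm_ball {x y : E} {R t : ℝ} (hx : ‖x‖ ≤ R) (hy : y ∈ closedBall x t) (ht : t ≤ 1) :
    ‖y‖ ≤ R + 1 := by
  rw [mem_closedBall, dist_eq_norm] at hy
  have := norm_sub_norm_le y x
  linarith

/-- comparison of kernels centred at nearby points -/
lemma ker_shift [IsFiniteMeasureOnCompacts μ] {h : E → ℝ} (hh : Continuous h)
    (h0 : ∀ y, 0 ≤ h y) (h1 : ∀ y, h y ≤ 1) {x x' : E} {t : ℝ} (ht : 0 < t)
    (hx : ‖x - x'‖ ≤ t) :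
    ∫ y, H313.ker (t⁻¹ • (y - x')) * h y ∂μ ≤ ∫ y, H313.ker (t⁻¹ • (y - x)) * h y ∂μ
      + 4 * (‖x - x'‖ / t) * μ.real (closedBall x (2 * t)) := by
  have i1 := integrable_ker_mul (μ := μ) hh x ht
  have i2 := integrable_ker_mul (μ := μ) hh x' ht
  have i3 : Integrable ((closedBall x (2 * t)).indicator fun _ => 4 * (‖x - x'‖ / t)) μ :=
    (integrable_indicator_iff measurableSet_closedBall).2
      (continuousOn_const.integrableOn_compact (isCompact_closedBall _ _))
  have e : 4 * (‖x - x'‖ / t) * μ.real (closedBall x (2 * t))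
      = ∫ y, (closedBall x (2 * t)).indicator (fun _ => 4 * (‖x - x'‖ / t)) y ∂μ := by
    rw [integral_indicator measurableSet_closedBall, setIntegral_const, smul_eq_mul, mul_comm]
  rw [e, ← integral_add i1 i3]
  refine integral_mono i2 (i1.add i3) fun y => ?_
  simp only
  by_cases hy : y ∈ closedBall x (2 * t)
  · rw [indicator_of_mem hy]
    have h2 := abs_ker_sub_le (t⁻¹ • (y - x')) (t⁻¹ • (y - x))
    have h3 : ‖t⁻¹ • (y - x') - t⁻¹ • (y - x)‖ = ‖x - x'‖ / t := by
      rw [← smul_sub, norm_smul, norm_inv, Real.norm_of_nonneg ht.le, div_eq_inv_mul]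
      congr 2; abel
    rw [h3] at h2
    have h4 := (abs_le.1 h2).2
    have h5 : 0 ≤ 4 * (‖x - x'‖ / t) := by positivity
    have h6 := h0 y
    have h7 := h1 y
    nlinarith
  · have h2 : y ∉ closedBall x' t := by
      intro h3
      apply hy
      rw [mem_closedBall, dist_eq_norm] at h3 ⊢
      have : ‖y - x‖ ≤ ‖y - x'‖ + ‖x' - x‖ := norm_sub_le_norm_sub_add_norm_sub _ _ _
      rw [norm_sub_rev x' x] at this
      linarith
    rw [ker_scale_zero' ht h2, zero_mul, indicator_of_notMem hy, add_zero]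
    exact mul_nonneg (kern_nonneg _) (h0 y)

end Vale.Agent.P218D
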