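import Vale.Agent.P218D.Mass1

/-! Block SL: the mass comparison. -/

open MeasureTheory Set Filter Topology Metric
open scoped ENNReal NNReal RealInnerProductSpace

namespace Vale.Agent.P218D

open Vale.Agent.P214 (proj IsApproxTangent divAlong)
open Vale.Agent.P218 Vale.Agent.P218.H313

set_option linter.unusedSectionVars false
set_option linter.unusedVariables false

lemma lin_sqrt_le {θ L a κ : ℝ} (h0 : 0 ≤ θ) (h1 : θ ≤ 1) (hL : 0 ≤ L) (ha : 0 ≤ a) (hκ : 0 < κ) :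
    a * (2 * √(θ * L)) ≤ κ * L + a ^ 2 / κ := by
  have h2 : √(θ * L) ≤ √L := Real.sqrt_le_sqrt (by nlinarith)
  have h3 : √L ^ 2 = L := Real.sq_sqrt hL
  have h4 : a * (2 * √(θ * L)) ≤ a * (2 * √L) := by gcongr
  refine h4.trans ?_
  rw [← sub_nonneg]
  have h5 : κ * L + a ^ 2 / κ - a * (2 * √L) = (κ * √L - a) ^ 2 / κ := by
    field_simp
    nlinarith
  rw [h5]; positivity

lemma small_P {θ ε : ℝ} (h0 : 0 < θ) (h1 : θ < 1) (hε : 0 < ε) :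
    ∃ ε₀ > 0, ε₀ ≤ 1 ∧ ∀ Q, 0 < Q → Q ≤ ε₀ →
      Real.exp ((2 * √(θ * -Real.log Q) + 1) ^ 2 / 4 + 3 * (2 * √(θ * -Real.log Q))) * Q ≤ ε := by
  set κ := (1 - θ) / 2 with hκ
  have hκ0 : 0 < κ := by rw [hκ]; linarith
  set A := 1 / 4 + (7 / 2) ^ 2 / κ with hA
  set L₀ := max 0 ((A - Real.log ε) / κ) with hL₀
  refine ⟨Real.exp (-L₀), Real.exp_pos _, Real.exp_le_one_iff.2 (by simp [hL₀]), ?_⟩
  intro Q hQ hQe
  set L := -Real.log Q with hL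
  have hLL : L₀ ≤ L := by
    have := Real.log_le_log hQ hQe
    rw [Real.log_exp] at this
    linarith
  have hL0 : 0 ≤ L := (le_max_left _ _).trans hLL
  have hL1 : A - Real.log ε ≤ κ * L := by
    have := (le_max_right _ _).trans hLL
    rw [div_le_iff₀ hκ0] at this
    linarith
  have hQ' : Q = Real.exp (-L) := by rw [hL, neg_neg, Real.exp_log hQ]
  have h3 : √(θ * L) ^ 2 = θ * L := Real.sq_sqrt (by positivity)
  have h4 := lin_sqrt_le h0.le h1.le hL0 (show (0 : ℝ) ≤ 7 / 2 by norm_num) hκ0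
  calc _ = Real.exp ((2 * √(θ * L) + 1) ^ 2 / 4 + 3 * (2 * √(θ * L)) + -L) := by
        rw [Real.exp_add _ (-L), ← hQ']
    _ ≤ Real.exp (Real.log ε) := by
        apply Real.exp_le_exp.2
        have h5 : θ * L = L - 2 * (κ * L) := by rw [hκ]; ring
        nlinarith
    _ = ε := Real.exp_log hε

lemma expA {R : ℝ} (hR : 0 ≤ R) :
    Real.exp (R ^ 2 / 4) * Real.exp (3 * R) ≤ Real.exp ((R + 1) ^ 2 / 4 + 3 * R) := by
  rw [← Real.exp_add]; exact Real.exp_le_exp.2 (by nlinarith)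

lemma expB {R : ℝ} (hR : 0 ≤ R) : Real.exp (R ^ 2 / 4) ≤ Real.exp ((R + 1) ^ 2 / 4 + 3 * R) :=
  Real.exp_le_exp.2 (by nlinarith)

lemma expC {R d t Q : ℝ} (hR : 0 ≤ R) (hd : 0 ≤ d) (ht : 0 ≤ t) (hQ : d + t ≤ Q) :
    Real.exp ((R + 1) ^ 2 / 4) * (d + (R + 1) ^ 2 * t)
      ≤ Real.exp ((R + 1) ^ 2 / 4 + 3 * R) * Q := by
  have e1 : R + 1 ≤ Real.exp R := Real.add_one_le_exp R
  have e2 : (R + 1) ^ 2 ≤ Real.exp (3 * R) := by
    calc (R + 1) ^ 2 ≤ Real.exp R ^ 2 := by gcongr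
      _ = Real.exp (2 * R) := by rw [← Real.exp_nat_mul]; norm_num
      _ ≤ _ := Real.exp_le_exp.2 (by linarith)
  have e3 : 1 ≤ (R + 1) ^ 2 := by nlinarith
  have e4 : d + (R + 1) ^ 2 * t ≤ Real.exp (3 * R) * Q := by
    calc _ ≤ (R + 1) ^ 2 * (d + t) := by nlinarith
      _ ≤ _ := by gcongr
  rw [Real.exp_add, mul_assoc]
  gcongr

lemma fin_num {Q β β' θ : ℝ} (hQ0 : 0 < Q) (hQ1 : Q ≤ 1) (hβ : β ≤ β') (hβ0 : 0 ≤ β')
    (hβ1 : β' < 1) (hθ0 : 0 < θ) (hθ1 : θ < 1) :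
    Q ≤ Q ^ β ∧ Real.exp (3 * (2 * √(θ * -Real.log Q))) * Q ≤ Real.exp (3 ^ 2 / (1 - β')) * Q ^ β ∧
      Real.exp (-(1 - (1 - β' / θ)) * (2 * √(θ * -Real.log Q)) ^ 2 / 4) ≤ Q ^ β := by
  set L := -Real.log Q with hL
  have hL0 : 0 ≤ L := by have := Real.log_nonpos hQ0.le hQ1; linarith
  have hQ' : Q = Real.exp (-L) := by rw [hL, neg_neg, Real.exp_log hQ0]
  have hQβ : Real.exp (-(β' * L)) ≤ Q ^ β := by
    rw [Real.rpow_def_of_pos hQ0]
    apply Real.exp_le_exp.2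
    have e : Real.log Q = -L := by rw [hL, neg_neg]
    rw [e]; nlinarith
  refine ⟨?_, ?_, ?_⟩
  · refine le_trans ?_ hQβ
    calc Q = Real.exp (-L) := hQ'
      _ ≤ _ := Real.exp_le_exp.2 (by nlinarith)
  · have h4 := lin_sqrt_le hθ0.le hθ1.le hL0 (show (0 : ℝ) ≤ 3 by norm_num) (sub_pos.2 hβ1)
    calc _ = Real.exp (3 * (2 * √(θ * L)) + -L) := by rw [Real.exp_add, ← hQ']
      _ ≤ Real.exp (3 ^ 2 / (1 - β') + -(β' * L)) := Real.exp_le_exp.2 (by linarith)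
      _ ≤ _ := by rw [Real.exp_add]; gcongr
  · refine le_trans (le_of_eq ?_) hQβ
    congr 1
    rw [mul_pow, Real.sq_sqrt (by positivity)]
    field_simp
    ring

variable {E : Type*} [NormedAddCommGroup E] [InnerProductSpace ℝ E] [FiniteDimensional ℝ E]
  [MeasurableSpace E] [BorelSpace E]
variable {m : ℕ}

lemma JJ_one (μ : Measure E) (y : E) (r : ℝ) :
    JJ m μ (fun _ => 1) y r = (∫ z, H313.ker (r⁻¹ • (z - y)) ∂μ) / r ^ m := by
  simp [JJ]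

theorem mass (hJ : JAC E m) (hZ : ZS E m) (hP : PROJ E m) (hT : TWO E m) (hB : BAD E m)
    (hTl : TAIL E m) (hSt : STEP E m) : MASS E m := by
  intro hm0 hd c K Cr β hc hK hCr hβ
  have hom := om_pos m
  obtain ⟨c₁, C₁, C₂, hc₁, hc₁c, hC₂, hJ'⟩ := hJ hd c K hc hK
  obtain ⟨a, r₂, c₂, ha, hr₂, hc₂, hc₂1, hT'⟩ := hT hd c K Cr hc hK hCr
  obtain ⟨r₃, R₁, hr₃, hR₁, hSt'⟩ := hSt hd c K Cr (om m / 8) hc hK hCr (by positivity)
  obtain ⟨r₁, hr₁, hZ'⟩ := (hZ hd c K hc hK).1 (1 / 8) (by norm_num)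
  refine ⟨min (min r₂ r₃) (min r₁ (min c₁ (1 / 4))), by positivity, fun r₀ hr₀ hr => ?_⟩
  simp only [le_min_iff] at hr
  obtain ⟨⟨h2, h3⟩, h1, hrc, hr4⟩ := hr
  obtain ⟨ε₁, hε₁, hSt''⟩ := hSt' r₀ hr₀ h3
  have hh : c₂ * r₀ ≤ r₀ := mul_le_of_le_one_left hr₀.le hc₂1
  obtain ⟨CB, hCB, hB'⟩ := hB Cr a r₀ (c₂ * r₀) hCr ha hr₀ (by linarith) (by positivity)
  obtain ⟨β', hββ, hβ1, hβ0⟩ : ∃ β' : ℝ, β ≤ β' ∧ β' < 1 ∧ 1 / 2 ≤ β' :=
    ⟨max β (1 / 2), le_max_left _ _, max_lt hβ (by norm_num), le_max_right _ _⟩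
  obtain ⟨θ, hθ0, hθ1, hβθ⟩ : ∃ θ : ℝ, 0 < θ ∧ θ < 1 ∧ β' < θ :=
    ⟨(1 + β') / 2, by linarith, by linarith, by linarith⟩
  obtain ⟨CT, hCT, hTl'⟩ := hTl Cr (1 - β' / θ) (by rw [sub_pos, div_lt_one hθ0]; exact hβθ)
  obtain ⟨b, hb⟩ : ∃ b, b = 4 / r₀ + C₂ := ⟨_, rfl⟩
  have hb0 : 0 < b := by rw [hb]; positivity
  obtain ⟨δ, hδ0, e1⟩ : ∃ δ : ℝ, 0 < δ ∧ b * (δ * (Cr * r₀ ^ m)) = om m / 16 * r₀ ^ m :=
    ⟨om m / (16 * b * Cr), by positivity, by field_simp⟩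
  have hrm : 0 < r₀ ^ m := by positivity
  obtain ⟨M, hM⟩ : ∃ M, M = CB + b / δ + C₂ := ⟨_, rfl⟩
  have hM0 : 0 < M := by rw [hM]; positivity
  obtain ⟨ε₀, hε₀, hε01, hsm⟩ := small_P hθ0 hθ1
    (show 0 < min ε₁ (3 / 16 * om m * r₀ ^ m / M) by positivity)
  refine ⟨R₁, C₂ * (2 + K ^ 2) + CB * Real.exp (3 ^ 2 / (1 - β')) + CT, ε₀, by positivity, hε₀, ?_⟩
  intro W Φ μ T H B Q hW hS hI hR hbase hB0 hBA hQ hQ0 hQe
  have hWb := hW.toTubeB
  have hDD := DD_nonneg (μ := μ) (W := W) 0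
  have hTG := TG_nonneg (μ := μ) (T := T) (W := W) 0
  have hPP := PP_nonneg (μ := μ) (Φ := Φ)
  have hdis := dis_nonneg (μ := μ) (T := T) (H := H)
  have hQ1 : Q ≤ 1 := hQe.trans hε01
  have hP0 := hsm Q hQ0 hQe
  obtain ⟨f1, f2, f3⟩ := fin_num hQ0 hQ1 hββ (by linarith) hβ1 hθ0 hθ1
  have hR0 : 0 ≤ 2 * √(θ * -Real.log Q) := by positivity
  generalize 2 * √(θ * -Real.log Q) = R at hP0 f2 f3 hR0
  obtain ⟨P, hPdef⟩ : ∃ P, P = Real.exp ((R + 1) ^ 2 / 4 + 3 * R) * Q := ⟨_, rfl⟩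
  rw [← hPdef] at hP0
  have hP1 : P ≤ ε₁ := hP0.trans (min_le_left _ _)
  have hP2 : M * P ≤ 3 / 16 * om m * r₀ ^ m := by
    have := hP0.trans (min_le_right _ _)
    rw [le_div_iff₀ hM0] at this
    linarith
  obtain ⟨G, hGm, hG, hbad⟩ := hB' W c K μ T H R hWb hS hI hR hR0
  let j : E → ℝ := fun x => jlo C₁ W (T x) x
  have j0 : ∀ x, 0 ≤ j x := fun x => le_max_right _ _
  have hGc : ∀ x ∈ G, |W x| ≤ c₁ := fun x hx => (hG x hx).ht.trans (hh.trans hrc)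
  have hGd : ∀ x ∈ G, Module.finrank ℝ (T x) = m := fun x hx => (hG x hx).tan.choose_spec.1
  obtain ⟨hT1, hT2⟩ := hT' r₀ hr₀ h2 W μ T H R hWb hS.toSlice hR hR0
  -- the comparison on balls where the mass ratio is below 3 / 2
  have cmp : ∀ ϱ : ℝ, (∀ x ∈ G, ‖x‖ ≤ ϱ → JJ m μ (fun _ => 1) x r₀ ≤ 3 / 2 * om m) →
      ∀ f : E → ℝ≥0∞, Measurable f →
        ∫⁻ x in G ∩ closedBall 0 ϱ, ENNReal.ofReal (j x) * f (prj W x) ∂μ
          ≤ ∫⁻ y, f y ∂(hm m W) := by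
    intro ϱ hϱ
    have hϱ' : ∀ x ∈ G ∩ closedBall (0 : E) ϱ, JJ m μ (fun _ => 1) x r₀ ≤ 3 / 2 * om m :=
      fun x hx => hϱ x hx.1 (mem_closedBall_zero_iff.1 hx.2)
    refine hP hd W c K hWb μ T _ j hS.mc.fin (hGm.inter isClosed_closedBall.measurableSet)
      (isBounded_closedBall.subset inter_subset_right) (aemeas_jlo hS.toSlice hWb C₁) j0
      (fun x hx => ((hJ' W hWb x (hGc x hx.1)).2 (T x) (hGd x hx.1)).2.2.2)
      (fun x hx => ⟨(hJ' W hWb x (hGc x hx.1)).1, hT1 x (hG x hx.1) (hϱ' x hx),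
        ((hJ' W hWb x (hGc x hx.1)).2 (T x) (hGd x hx.1)).1⟩)
      (fun x hx x' hx' => hT2 x x' (hG x hx.1) (hϱ' x hx) (hG x' hx'.1) (hϱ' x' hx'))
  have eR := expB hR0
  have hbad' : ∫⁻ x in closedBall (0 : E) R \ G, ENNReal.ofReal (rho x) ∂μ
      ≤ ENNReal.ofReal (CB * Real.exp (3 * R) * Q) := by
    refine hbad.trans (ENNReal.ofReal_le_ofReal ?_)
    gcongr; linarith
  have hX : μ (closedBall 0 R \ G) ≤ ENNReal.ofReal (CB * P) := by
    refine (meas_le_of_wt sdiff_subset (isClosed_closedBall.measurableSet.diff hGm) hbad').trans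
      (ENNReal.ofReal_le_ofReal ?_)
    have := expA hR0
    calc _ = CB * (Real.exp (R ^ 2 / 4) * Real.exp (3 * R) * Q) := by ring
      _ ≤ _ := by rw [hPdef]; gcongr
  have hP0' : 0 ≤ P := by rw [hPdef]; positivity
  -- propagation of the bound for the mass ratio
  have ind : ∀ n : ℕ, ∀ y : E, ‖y‖ ≤ R₁ + n * r₀ → ‖y‖ ≤ R → |W y| ≤ r₀ →
      JJ m μ (fun _ => 1) y r₀ ≤ 3 / 2 * om m := by
    intro n
    induction n with
    | zero =>
      intro y hy _ _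
      have := hbase y (by simpa using hy)
      linarith
    | succ n ih =>
      intro y hy hyR hyW
      by_cases hy1 : ‖y‖ ≤ R₁
      · have := hbase y hy1
        linarith
      have hsub : closedBall y (4 * r₀) ⊆ closedBall (0 : E) (R + 1) := by
        intro z hz
        rw [mem_closedBall_zero_iff]
        rw [mem_closedBall, dist_eq_norm] at hz
        have := norm_sub_norm_le z y
        linarith
      have hgg := setInt_gg_le hS hWb hsub isClosed_closedBall.measurableSet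
      have hgg' : Real.exp ((R + 1) ^ 2 / 4) * (dis μ T H + (R + 1) ^ 2 * TG μ T W 0) ≤ P := by
        rw [hPdef]; exact expC hR0 hdis hTG (by linarith)
      obtain ⟨y', hy', hJJ⟩ := hSt'' W μ T H R y hWb hS.toSlice hR (not_le.1 hy1).le hyR hyW
        (hgg.trans (hgg'.trans hP1))
      have hϱ : ‖y'‖ + r₀ ≤ R₁ + n * r₀ := by push_cast at hy; linarith
      have hϱR : ‖y'‖ + r₀ ≤ R := by linarith
      have hc1 := cmp (‖y'‖ + r₀) (fun x hx hxn => ih x (hxn.trans hϱ) (hxn.trans hϱR)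
        ((hG x hx).ht.trans hh)) (fun z => ENNReal.ofReal (H313.ker (r₀⁻¹ • (z - y'))))
        (continuous_ker_scale r₀ y').measurable.ennreal_ofReal
      have hc2 := hc1.trans (hZ' W hWb y' r₀ hr₀ h1)
      have hl := loc_reset (C₂ := C₂) (δ := δ) hS hWb hR hGm hr₀ (by linarith) hδ0 hC₂
        (by positivity) (by positivity) hϱR j0
        (fun x hx => ⟨(hGc x hx).trans_lt hc₁c,
          ((hJ' W hWb x (hGc x hx)).2 (T x) (hGd x hx)).2.2.1⟩) hX le_rfl hc2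
      have e2 : Real.exp (R ^ 2 / 4) * DD μ W 0 ≤ P := by
        rw [hPdef]; gcongr; linarith
      have e3 : Real.exp (R ^ 2 / 4) * TG μ T W 0 ≤ P := by
        rw [hPdef]; gcongr; linarith
      have e4 : b / δ * (Real.exp (R ^ 2 / 4) * DD μ W 0) ≤ b / δ * P := by gcongr
      have e5 : C₂ * (Real.exp (R ^ 2 / 4) * TG μ T W 0) ≤ C₂ * P := by gcongr
      have e6 : M * P = CB * P + b / δ * P + C₂ * P := by rw [hM]; ring
      have e7 : JJ m μ (fun _ => 1) y' r₀ ≤ 11 / 8 * om m := by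
        rw [JJ_one, div_le_iff₀ hrm]
        rw [← hb, e1] at hl
        linarith
      linarith
  obtain ⟨n, hn⟩ := exists_nat_ge (R / r₀)
  have hn' : R ≤ R₁ + n * r₀ := by rw [div_le_iff₀ hr₀] at hn; linarith
  have hc1 := cmp R (fun x hx hxn => ind n x (hxn.trans hn') hxn ((hG x hx).ht.trans hh))
    (fun z => ENNReal.ofReal (rho z)) continuous_rho.measurable.ennreal_ofReal
  have hGR : G ∩ closedBall 0 R = G :=
    inter_eq_left.2 fun x hx => mem_closedBall_zero_iff.2 (hG x hx).rad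
  rw [hGR] at hc1
  have hfin := final_est hS hW hGm hC₂ hB0 (by positivity) (by positivity) j0
    (fun x hx => ⟨(hGc x hx).trans_lt hc₁c,
      ((hJ' W hWb x (hGc x hx)).2 (T x) (hGd x hx)).2.1⟩) (hc1.trans hBA) hbad'
    (hTl' μ hS.mc.fin hR R hR0)
  have hQb : 0 ≤ Q ^ β := by positivity
  have g1 : C₂ * (2 + K ^ 2) * (DD μ W 0 + TG μ T W 0 + PP μ Φ) ≤ C₂ * (2 + K ^ 2) * Q ^ β := by
    gcongr; linarith
  have g2 : CB * Real.exp (3 * R) * Q ≤ CB * Real.exp (3 ^ 2 / (1 - β')) * Q ^ β := by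
    rw [mul_assoc, mul_assoc]; gcongr
  have g3 : CT * Real.exp (-(1 - (1 - β' / θ)) * R ^ 2 / 4) ≤ CT * Q ^ β := by gcongr
  calc FA μ ≤ _ := hfin
    _ ≤ B + C₂ * (2 + K ^ 2) * Q ^ β + CB * Real.exp (3 ^ 2 / (1 - β')) * Q ^ β + CT * Q ^ β := by
        linarith
    _ = _ := by ring

end Vale.Agent.P218D
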