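import Vale.Agent.P218D.Bas

/-! Block SL: mass comparison, preliminaries. -/

open MeasureTheory Set Filter Topology Metric
open scoped ENNReal NNReal RealInnerProductSpace

namespace Vale.Agent.P218D

open Vale.Agent.P214 (proj IsApproxTangent divAlong)
open Vale.Agent.P218 Vale.Agent.P218.H313

set_option linter.unusedSectionVars false
set_option linter.unusedVariables false

variable {E : Type*} [NormedAddCommGroup E] [InnerProductSpace ℝ E] [FiniteDimensional ℝ E]
  [MeasurableSpace E] [BorelSpace E]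
variable {m : ℕ} {c K : ℝ}
variable {μ : Measure E} {T : E → Submodule ℝ E} {H : E → E} {W Φ : E → ℝ}

lemma aemeas_tilt (hS : Slice m μ T H) (hW : TubeB W c K) :
    AEStronglyMeasurable (fun x => ‖proj (T x) (grad W x)‖) μ :=
  (hS.proj_apply_meas hW.pg_grad.cont.aestronglyMeasurable).norm

lemma aemeas_jlo (hS : Slice m μ T H) (hW : TubeB W c K) (C : ℝ) :
    AEMeasurable (fun x => jlo C W (T x) x) μ := by
  have h2 : Continuous (fderiv ℝ (grad W)) := hW.grad_cd.continuous_fderiv (by norm_num)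
  have h6 : Continuous (fun x => tr (fderiv ℝ (grad W) x)) := (trL E).continuous.comp h2
  have h1 := (aemeas_tilt hS hW).aemeasurable
  have h3 := hW.cont.measurable.aemeasurable (μ := μ)
  unfold jlo
  exact ((aemeasurable_const.sub (h3.mul h6.measurable.aemeasurable)).sub
    (((h3.pow_const 2).add (h1.pow_const 2)).const_mul C)).max aemeasurable_const

lemma one_le_exp_rho {x : E} {R : ℝ} (hx : ‖x‖ ≤ R) : 1 ≤ Real.exp (R ^ 2 / 4) * rho x := by
  unfold rho
  rw [← Real.exp_add]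
  apply Real.one_le_exp
  have := norm_nonneg x
  nlinarith

/-- unweighted integrals over bounded sets from weighted ones -/
lemma lint_le_of_wt {A : Set E} {R : ℝ} (hA : A ⊆ closedBall 0 R) (hAm : MeasurableSet A)
    {g : E → ℝ} (g0 : ∀ x, 0 ≤ g x) (hg : Integrable (fun x => g x * rho x) μ) :
    ∫⁻ x in A, ENNReal.ofReal (g x) ∂μ
      ≤ ENNReal.ofReal (Real.exp (R ^ 2 / 4) * ∫ x, g x * rho x ∂μ) := by
  rw [← integral_const_mul, ofReal_integral_eq_lintegral_ofReal (hg.const_mul _)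
    (Eventually.of_forall fun x => mul_nonneg (Real.exp_pos _).le (mul_nonneg (g0 x) (rho_pos x).le))]
  refine le_trans ?_ (setLIntegral_le_lintegral A _)
  refine setLIntegral_mono' hAm fun x hx => ENNReal.ofReal_le_ofReal ?_
  have h1 := one_le_exp_rho (mem_closedBall_zero_iff.1 (hA hx))
  have h2 := g0 x
  nlinarith

lemma meas_le_of_wt {A : Set E} {R X : ℝ} (hA : A ⊆ closedBall 0 R) (hAm : MeasurableSet A)
    (hX : ∫⁻ x in A, ENNReal.ofReal (rho x) ∂μ ≤ ENNReal.ofReal X) :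
    μ A ≤ ENNReal.ofReal (Real.exp (R ^ 2 / 4) * X) := by
  calc μ A = ∫⁻ x in A, 1 ∂μ := by simp
    _ ≤ ∫⁻ x in A, ENNReal.ofReal (Real.exp (R ^ 2 / 4)) * ENNReal.ofReal (rho x) ∂μ := by
        refine setLIntegral_mono' hAm fun x hx => ?_
        rw [← ENNReal.ofReal_mul (Real.exp_pos _).le, ← ENNReal.ofReal_one]
        exact ENNReal.ofReal_le_ofReal (one_le_exp_rho (mem_closedBall_zero_iff.1 (hA hx)))
    _ = ENNReal.ofReal (Real.exp (R ^ 2 / 4)) * ∫⁻ x in A, ENNReal.ofReal (rho x) ∂μ :=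
        lintegral_const_mul' _ _ ENNReal.ofReal_ne_top
    _ ≤ _ := by
        rw [ENNReal.ofReal_mul (Real.exp_pos _).le]
        gcongr

lemma DD0_eq : DD μ W 0 = ∫ x, W x ^ 2 * rho x ∂μ := DD_zero_eq μ W

lemma TG0_eq : TG μ T W 0 = ∫ x, ‖proj (T x) (grad W x)‖ ^ 2 * rho x ∂μ := by
  unfold TG; simp [wt]

lemma int_DD0 (hS : GSlice m μ T H) (hW : TubeB W c K) :
    Integrable (fun x => W x ^ 2 * rho x) μ := by
  simpa [wt] using int_DD hS hW 0

lemma int_TG0 (hS : GSlice m μ T H) (hW : TubeB W c K) :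
    Integrable (fun x => ‖proj (T x) (grad W x)‖ ^ 2 * rho x) μ := by
  simpa [wt] using int_TG hS hW 0

lemma gg_nonneg (R : ℝ) (y : E) : 0 ≤ gg T H W R y := by unfold gg; positivity

lemma int_gg (hS : GSlice m μ T H) (hW : TubeB W c K) (R : ℝ) :
    Integrable (fun x => gg T H W R x * rho x) μ := by
  have h := hS.int_vel_sq.add ((int_TG0 hS hW).const_mul ((R + 1) ^ 2))
  refine h.congr (Eventually.of_forall fun x => ?_)
  simp only [gg, Pi.add_apply]
  ring

lemma gg_int_eq (hS : GSlice m μ T H) (hW : TubeB W c K) (R : ℝ) :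
    ∫ x, gg T H W R x * rho x ∂μ = dis μ T H + (R + 1) ^ 2 * TG μ T W 0 := by
  rw [TG0_eq, ← integral_const_mul]
  unfold dis
  rw [← integral_add hS.int_vel_sq ((int_TG0 hS hW).const_mul _)]
  congr 1; ext x
  unfold gg; ring

lemma setInt_gg_le (hS : GSlice m μ T H) (hW : TubeB W c K) {R : ℝ} {A : Set E}
    (hA : A ⊆ closedBall 0 (R + 1)) (hAm : MeasurableSet A) :
    ∫ z in A, gg T H W R z ∂μ
      ≤ Real.exp ((R + 1) ^ 2 / 4) * (dis μ T H + (R + 1) ^ 2 * TG μ T W 0) := by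
  have h1 := lint_le_of_wt hA hAm (gg_nonneg (T := T) (H := H) (W := W) R) (int_gg hS hW R)
  rw [gg_int_eq hS hW] at h1
  have h2 : 0 ≤ Real.exp ((R + 1) ^ 2 / 4) * (dis μ T H + (R + 1) ^ 2 * TG μ T W 0) := by
    have := dis_nonneg (μ := μ) (T := T) (H := H)
    have := TG_nonneg (μ := μ) (T := T) (W := W) 0
    positivity
  by_cases hi : IntegrableOn (gg T H W R) A μ
  · rw [← ofReal_integral_eq_lintegral_ofReal hi (Eventually.of_forall (gg_nonneg R))] at h1
    exact (ENNReal.ofReal_le_ofReal_iff h2).1 h1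
  · rw [integral_undef hi]; exact h2

/-- the local reset of the mass ratio -/
lemma loc_reset (hS : GSlice m μ T H) (hW : TubeB W c K) {Cr : ℝ} (hRat : Rat m μ Cr)
    {G : Set E} (hG : MeasurableSet G) {R ϱ r₀ C₂ δ X A : ℝ} {j : E → ℝ} (hr₀ : 0 < r₀)
    (hr1 : r₀ ≤ 1) (hδ : 0 < δ) (hC₂ : 0 ≤ C₂) (hX : 0 ≤ X) (hA : 0 ≤ A) (hϱ : ϱ ≤ R)
    (j0 : ∀ x, 0 ≤ j x)
    (hj : ∀ x ∈ G, |W x| < c ∧ 1 ≤ j x + C₂ * (|W x| + ‖proj (T x) (grad W x)‖ ^ 2))
    (hbad : μ (closedBall 0 R \ G) ≤ ENNReal.ofReal X) {y : E} (hy : ‖y‖ + r₀ ≤ ϱ)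
    (hcmp : ∫⁻ x in G ∩ closedBall 0 ϱ, ENNReal.ofReal (j x)
      * ENNReal.ofReal (H313.ker (r₀⁻¹ • (prj W x - y))) ∂μ ≤ ENNReal.ofReal A) :
    ∫ z, H313.ker (r₀⁻¹ • (z - y)) ∂μ ≤ A + X + (4 / r₀ + C₂) * (δ * (Cr * r₀ ^ m))
      + (4 / r₀ + C₂) / δ * (Real.exp (R ^ 2 / 4) * DD μ W 0)
      + C₂ * (Real.exp (R ^ 2 / 4) * TG μ T W 0) := by
  have := hS.mc.fin
  set b := 4 / r₀ + C₂ with hb
  have hb0 : 0 ≤ b := by positivity
  have hsub : closedBall y r₀ ⊆ closedBall (0 : E) ϱ := by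
    intro z hz
    rw [mem_closedBall_zero_iff]
    rw [mem_closedBall, dist_eq_norm] at hz
    have := norm_sub_norm_le z y
    linarith
  have hsubR : closedBall y r₀ ⊆ closedBall (0 : E) R := hsub.trans (closedBall_subset_closedBall hϱ)
  have hBm : MeasurableSet (closedBall y r₀) := isClosed_closedBall.measurableSet
  have hCr : 0 ≤ Cr * r₀ ^ m := (measureReal_nonneg).trans (hRat y r₀ hr₀ hr1)
  have hDD := DD_nonneg (μ := μ) (W := W) 0
  have hTG := TG_nonneg (μ := μ) (T := T) (W := W) 0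
  -- pointwise
  have hpt : ∀ z, ENNReal.ofReal (H313.ker (r₀⁻¹ • (z - y)))
      ≤ (G ∩ closedBall 0 ϱ).indicator (fun x => ENNReal.ofReal (j x)
          * ENNReal.ofReal (H313.ker (r₀⁻¹ • (prj W x - y)))) z
        + (closedBall 0 R \ G).indicator 1 z
        + (closedBall y r₀).indicator (fun x => ENNReal.ofReal (b * δ)) z
        + (closedBall y r₀).indicator (fun x => ENNReal.ofReal (b / δ) * ENNReal.ofReal (W x ^ 2)) z
        + (closedBall y r₀).indicator (fun x => ENNReal.ofReal C₂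
          * ENNReal.ofReal (‖proj (T x) (grad W x)‖ ^ 2)) z := by
    intro z
    by_cases hz : z ∈ closedBall y r₀
    swap
    · rw [ker_scale_zero' hr₀ hz, ENNReal.ofReal_zero]; exact zero_le
    by_cases hzG : z ∈ G
    swap
    · have h1 : z ∈ closedBall (0 : E) R \ G := ⟨hsubR hz, hzG⟩
      rw [indicator_of_mem h1]
      have h2 : ENNReal.ofReal (H313.ker (r₀⁻¹ • (z - y))) ≤ 1 := by
        rw [← ENNReal.ofReal_one]; exact ENNReal.ofReal_le_ofReal (kern_le_one _)
      refine h2.trans ?_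
      simp only [Pi.one_apply]
      exact le_add_right (le_add_right (le_add_right le_add_self))
    have h1 : z ∈ G ∩ closedBall (0 : E) ϱ := ⟨hzG, hsub hz⟩
    rw [indicator_of_mem h1, indicator_of_mem hz, indicator_of_mem hz, indicator_of_mem hz]
    obtain ⟨hzc, hj1⟩ := hj z hzG
    have hj0 := j0 z
    set t2 := ‖proj (T z) (grad W z)‖ ^ 2 with ht2
    have ht0 : 0 ≤ t2 := sq_nonneg _
    set k1 := H313.ker (r₀⁻¹ • (prj W z - y)) with hk1
    have hk0 : 0 ≤ k1 := kern_nonneg _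
    have hk1' : k1 ≤ 1 := kern_le_one _
    have h2 : H313.ker (r₀⁻¹ • (z - y)) ≤ k1 + 4 / r₀ * |W z| := by
      have h3 := abs_ker_sub_le (r₀⁻¹ • (z - y)) (r₀⁻¹ • (prj W z - y))
      have h4 : ‖r₀⁻¹ • (z - y) - r₀⁻¹ • (prj W z - y)‖ = r₀⁻¹ * |W z| := by
        rw [← smul_sub, norm_smul, norm_inv, Real.norm_of_nonneg hr₀.le]
        congr 1
        have : z - y - (prj W z - y) = W z • grad W z := by unfold prj; abel
        rw [this, norm_smul, hW.eik z hzc, mul_one, Real.norm_eq_abs]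
      rw [h4] at h3
      have h5 := (abs_le.1 h3).2
      have h6 : 4 * (r₀⁻¹ * |W z|) = 4 / r₀ * |W z| := by ring
      linarith
    have h3 : k1 ≤ j z * k1 + C₂ * (|W z| + t2) := by
      have h4 : 0 ≤ C₂ * (|W z| + t2) := by positivity
      nlinarith
    have h4 : |W z| ≤ δ + W z ^ 2 / δ := by
      rw [← sq_abs (W z)]
      have h5 := abs_nonneg (W z)
      rw [← sub_nonneg]
      have : δ + |W z| ^ 2 / δ - |W z| = ((δ - |W z|) ^ 2 + δ * |W z|) / δ := by
        field_simp; ring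
      rw [this]; positivity
    have h5 : H313.ker (r₀⁻¹ • (z - y)) ≤ j z * k1 + b * δ + b / δ * W z ^ 2 + C₂ * t2 := by
      have h6 : b * |W z| ≤ b * (δ + W z ^ 2 / δ) := mul_le_mul_of_nonneg_left h4 hb0
      have h7 : b * (δ + W z ^ 2 / δ) = b * δ + b / δ * W z ^ 2 := by ring
      have h8 : b * |W z| = 4 / r₀ * |W z| + C₂ * |W z| := by rw [hb]; ring
      nlinarith
    rw [← ENNReal.ofReal_mul hj0, ← ENNReal.ofReal_mul (by positivity),
      ← ENNReal.ofReal_mul hC₂]
    refine (ENNReal.ofReal_le_ofReal h5).trans ?_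
    refine ENNReal.ofReal_add_le.trans (add_le_add_left ?_ _)
    refine ENNReal.ofReal_add_le.trans (add_le_add_left ?_ _)
    refine ENNReal.ofReal_add_le.trans (add_le_add_left ?_ _)
    exact le_self_add
  have hGm : MeasurableSet (G ∩ closedBall (0 : E) ϱ) := hG.inter isClosed_closedBall.measurableSet
  have hDm : MeasurableSet (closedBall (0 : E) R \ G) := isClosed_closedBall.measurableSet.diff hG
  have m3 : AEMeasurable ((closedBall y r₀).indicator (fun x => ENNReal.ofReal (b * δ))) μ :=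
    (measurable_const.indicator hBm).aemeasurable
  have m4 : AEMeasurable ((closedBall y r₀).indicator
      (fun x => ENNReal.ofReal (b / δ) * ENNReal.ofReal (W x ^ 2))) μ :=
    (((hW.cont.measurable.pow_const 2).ennreal_ofReal.const_mul _).indicator hBm).aemeasurable
  have m5 : AEMeasurable ((closedBall y r₀).indicator (fun x => ENNReal.ofReal C₂
      * ENNReal.ofReal (‖proj (T x) (grad W x)‖ ^ 2))) μ :=
    (((aemeas_tilt hS.toSlice hW).aemeasurable.pow_const 2).ennreal_ofReal.const_mul _).indicator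
      hBm
  have m2 : AEMeasurable ((closedBall (0 : E) R \ G).indicator (1 : E → ℝ≥0∞)) μ :=
    (measurable_one.indicator hDm).aemeasurable
  have hl := lintegral_mono (μ := μ) hpt
  rw [lintegral_add_right' _ m5, lintegral_add_right' _ m4, lintegral_add_right' _ m3,
    lintegral_add_right' _ m2, lintegral_indicator hGm, lintegral_indicator_one hDm,
    lintegral_indicator hBm, lintegral_indicator hBm, lintegral_indicator hBm,
    lintegral_const_mul' _ _ ENNReal.ofReal_ne_top, lintegral_const_mul' _ _ ENNReal.ofReal_ne_top,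
    setLIntegral_const] at hl
  have e3 : μ (closedBall y r₀) ≤ ENNReal.ofReal (Cr * r₀ ^ m) := by
    rw [← ENNReal.ofReal_toReal (isCompact_closedBall y r₀).measure_lt_top.ne]
    exact ENNReal.ofReal_le_ofReal (hRat y r₀ hr₀ hr1)
  have e4 := lint_le_of_wt hsubR hBm (fun x => sq_nonneg (W x)) (int_DD0 hS hW)
  have e5 := lint_le_of_wt hsubR hBm (fun x => sq_nonneg ‖proj (T x) (grad W x)‖) (int_TG0 hS hW)
  rw [← DD0_eq] at e4
  rw [← TG0_eq] at e5
  have hfin : ∫⁻ z, ENNReal.ofReal (H313.ker (r₀⁻¹ • (z - y))) ∂μ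
      ≤ ENNReal.ofReal (A + X + b * (δ * (Cr * r₀ ^ m))
        + b / δ * (Real.exp (R ^ 2 / 4) * DD μ W 0) + C₂ * (Real.exp (R ^ 2 / 4) * TG μ T W 0)) := by
    refine hl.trans ?_
    rw [ENNReal.ofReal_add (by positivity) (by positivity),
      ENNReal.ofReal_add (by positivity) (by positivity),
      ENNReal.ofReal_add (by positivity) (by positivity), ENNReal.ofReal_add hA hX,
      ← mul_assoc b, ENNReal.ofReal_mul (p := b * δ) (by positivity),
      ENNReal.ofReal_mul (p := b / δ) (by positivity), ENNReal.ofReal_mul (p := C₂) hC₂]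
    gcongr
  rw [← ofReal_integral_eq_lintegral_ofReal (integrable_ker_scale y hr₀)
    (Eventually.of_forall fun z => kern_nonneg _)] at hfin
  exact (ENNReal.ofReal_le_ofReal_iff (by positivity)).1 hfin

/-- the final estimate of the Gaussian mass -/
lemma final_est (hS : GSlice m μ T H) (hW : Tub W Φ c K) {G : Set E} (hG : MeasurableSet G)
    {R C₂ B X Y : ℝ} {j : E → ℝ} (hC₂ : 0 ≤ C₂) (hB : 0 ≤ B) (hX : 0 ≤ X) (hY : 0 ≤ Y)
    (j0 : ∀ x, 0 ≤ j x)
    (hj : ∀ x ∈ G, |W x| < c ∧ rho x ≤ j x * rho (prj W x)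
      + C₂ * rho x * (|dft W x| * |W x| + W x ^ 2 + ‖proj (T x) (grad W x)‖ ^ 2))
    (hcmp : ∫⁻ x in G, ENNReal.ofReal (j x) * ENNReal.ofReal (rho (prj W x)) ∂μ
      ≤ ENNReal.ofReal B)
    (hbad : ∫⁻ x in closedBall 0 R \ G, ENNReal.ofReal (rho x) ∂μ ≤ ENNReal.ofReal X)
    (htail : ∫⁻ x in {x | R ≤ ‖x‖}, ENNReal.ofReal (rho x) ∂μ ≤ ENNReal.ofReal Y) :
    FA μ ≤ B + C₂ * (2 + K ^ 2) * (DD μ W 0 + TG μ T W 0 + PP μ Φ) + X + Y := by
  have hWb := hW.toTubeB
  have hK := hWb.K_nonneg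
  have hDD := DD_nonneg (μ := μ) (W := W) 0
  have hTG := TG_nonneg (μ := μ) (T := T) (W := W) 0
  have hPP := PP_nonneg (μ := μ) (Φ := Φ)
  set e : E → ℝ := fun x => C₂ * (2 + K ^ 2)
    * (W x ^ 2 * rho x + ‖proj (T x) (grad W x)‖ ^ 2 * rho x + Φ x ^ 2 * rho x) with he
  have i1 := int_DD0 hS hWb
  have i2 := int_TG0 hS hWb
  have i3 := int_PP hS hW.meas hW.bp
  have ie : Integrable e μ := ((i1.add i2).add i3).const_mul _
  have e0 : ∀ x, 0 ≤ e x := fun x => by
    have := rho_pos x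
    simp only [he]; positivity
  have hie : ∫ x, e x ∂μ = C₂ * (2 + K ^ 2) * (DD μ W 0 + TG μ T W 0 + PP μ Φ) := by
    simp only [he]
    have i12 : Integrable (fun x => W x ^ 2 * rho x + ‖proj (T x) (grad W x)‖ ^ 2 * rho x) μ :=
      i1.add i2
    rw [integral_const_mul, integral_add i12 i3, integral_add i1 i2, DD0_eq, TG0_eq]
    rfl
  have hDm : MeasurableSet (closedBall (0 : E) R \ G) := isClosed_closedBall.measurableSet.diff hG
  have hTm : MeasurableSet {x : E | R ≤ ‖x‖} :=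
    (isClosed_le continuous_const continuous_norm).measurableSet
  have mr : Measurable fun x : E => ENNReal.ofReal (rho x) :=
    continuous_rho.measurable.ennreal_ofReal
  have hpt : ∀ z, ENNReal.ofReal (rho z)
      ≤ G.indicator (fun x => ENNReal.ofReal (j x) * ENNReal.ofReal (rho (prj W x))) z
        + ENNReal.ofReal (e z)
        + (closedBall 0 R \ G).indicator (fun x => ENNReal.ofReal (rho x)) z
        + {x : E | R ≤ ‖x‖}.indicator (fun x => ENNReal.ofReal (rho x)) z := by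
    intro z
    by_cases hzG : z ∈ G
    · rw [indicator_of_mem hzG, ← ENNReal.ofReal_mul (j0 z)]
      obtain ⟨hzc, h1⟩ := hj z hzG
      have h2 := hW.ric z hzc
      have h3 := hWb.b0 z
      have h4 := rho_pos z
      have h5 : |dft W z| ≤ |Φ z| + K * W z ^ 2 := by
        have := abs_sub_abs_le_abs_sub (dft W z) (Φ z)
        linarith
      have h6 : |dft W z| * |W z| ≤ Φ z ^ 2 + W z ^ 2 + K ^ 2 * W z ^ 2 := by
        have a1 := abs_nonneg (W z)
        have a2 := abs_nonneg (Φ z)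
        have a3 : |Φ z| * |W z| ≤ Φ z ^ 2 + W z ^ 2 := by
          rw [← sq_abs (Φ z), ← sq_abs (W z)]; nlinarith [sq_nonneg (|Φ z| - |W z|)]
        have a4 : K * W z ^ 2 * |W z| ≤ K * W z ^ 2 * K := by gcongr
        calc |dft W z| * |W z| ≤ (|Φ z| + K * W z ^ 2) * |W z| := by gcongr
          _ = |Φ z| * |W z| + K * W z ^ 2 * |W z| := by ring
          _ ≤ _ := by nlinarith
      have h7 : C₂ * rho z * (|dft W z| * |W z| + W z ^ 2 + ‖proj (T z) (grad W z)‖ ^ 2)
          ≤ e z := by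
        have a1 : |dft W z| * |W z| + W z ^ 2 + ‖proj (T z) (grad W z)‖ ^ 2
            ≤ (2 + K ^ 2) * (W z ^ 2 + ‖proj (T z) (grad W z)‖ ^ 2 + Φ z ^ 2) := by
          nlinarith [sq_nonneg (W z), sq_nonneg (Φ z), sq_nonneg ‖proj (T z) (grad W z)‖,
            sq_nonneg K, mul_nonneg (sq_nonneg K) (sq_nonneg (Φ z)),
            mul_nonneg (sq_nonneg K) (sq_nonneg ‖proj (T z) (grad W z)‖)]
        calc _ ≤ C₂ * rho z * ((2 + K ^ 2) * (W z ^ 2 + ‖proj (T z) (grad W z)‖ ^ 2 + Φ z ^ 2)) := by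
              gcongr
          _ = e z := by simp only [he]; ring
      exact le_trans (ENNReal.ofReal_le_ofReal (show rho z ≤ j z * rho (prj W z) + e z by linarith))
        (le_add_right (le_add_right ENNReal.ofReal_add_le))
    · by_cases hzR : z ∈ closedBall (0 : E) R
      · rw [indicator_of_mem (show z ∈ closedBall (0 : E) R \ G from ⟨hzR, hzG⟩)]
        exact le_add_right le_add_self
      · rw [mem_closedBall_zero_iff, not_le] at hzR
        rw [indicator_of_mem (show z ∈ {x : E | R ≤ ‖x‖} from hzR.le)]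
        exact le_add_self
  have hl := lintegral_mono (μ := μ) hpt
  rw [lintegral_add_right _ (mr.indicator hTm), lintegral_add_right _ (mr.indicator hDm),
    lintegral_add_right' _ ie.aemeasurable.ennreal_ofReal, lintegral_indicator hG,
    lintegral_indicator hDm, lintegral_indicator hTm,
    ← ofReal_integral_eq_lintegral_ofReal ie (Eventually.of_forall e0), hie] at hl
  have i0 : Integrable (fun x => rho x) μ := by simpa using hS.mom 0
  rw [← ofReal_integral_eq_lintegral_ofReal i0 (Eventually.of_forall fun x => (rho_pos x).le)] at hl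
  have hfin : ENNReal.ofReal (∫ x, rho x ∂μ) ≤ ENNReal.ofReal
      (B + C₂ * (2 + K ^ 2) * (DD μ W 0 + TG μ T W 0 + PP μ Φ) + X + Y) := by
    refine hl.trans ?_
    rw [ENNReal.ofReal_add (by positivity) hY, ENNReal.ofReal_add (by positivity) hX,
      ENNReal.ofReal_add hB (by positivity)]
    gcongr
  exact (ENNReal.ofReal_le_ofReal_iff (by positivity)).1 hfin

end Vale.Agent.P218D
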