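import Vale.Agent.P218D.SdB

/-! Block SL, row SD: the statement `SD` (helper84). -/

open Set Filter Topology Metric
open scoped RealInnerProductSpace

set_option linter.all false

noncomputable section

namespace Vale.Agent.P218D

namespace Sd

open Vale.Agent.P218 Vale.Agent.P218.H313 InnerProductSpace

variable {E : Type*} [NormedAddCommGroup E] [InnerProductSpace ℝ E] [FiniteDimensional ℝ E]
  {w : E → ℝ} {δ a C c t M : ℝ} {x y p p' : E} {q q' : E × ℝ} {f : ℝ → ℝ}

theorem tr_one (A : E →L[ℝ] E) (n : E) : tr (A * rankOne ℝ n n) = ⟪n, A n⟫ :=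
  tr_comp_smulRight A (innerSL ℝ n) n

theorem eik_hess (hw : ContDiff ℝ 2 w) (e : ∀ᶠ y in 𝓝 x, ‖grad w y‖ = 1) :
    fderiv ℝ (grad w) x (grad w x) = 0 := ext_inner_left ℝ fun v => by
  have d := ((has_hess hw x).norm_sq.congr_of_eventuallyEq (f₁ := fun _ => 1)
    (e.mono fun y hy => by simp [hy])).unique (hasFDerivAt_const _ x)
  rw [inner_zero_right, ← hess_symm hw, real_inner_comm]
  simpa using congr($d v)

variable (h : Geo w δ a C c)
include h

theorem Geo.dft_le (k : Ft w c x q) {W : E → ℝ} (e : jt W x = (q.2, un (grad w q.1),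
    bb q.2 (grad w q.1) (fderiv ℝ (grad w) q.1))) :
    |dft W x - phiS w q.1| ≤ Module.finrank ℝ E * (4 * (C / a) ^ 3) * q.2 ^ 2 := by
  simp only [jt, Prod.mk.injEq] at e
  have n1 := h.n1 k.1
  have b1 := h.bb_eq k
  have b2 := h.bb_le k
  have a1 := h.sh_le k.1
  have a2 := inner_sh (h.ne k.1) (fderiv ℝ (grad w) q.1)
  have a3 : tr (sh (grad w q.1) (fderiv ℝ (grad w) q.1)) = ‖grad w q.1‖⁻¹ *
      (tr (fderiv ℝ (grad w) q.1) - ⟪un (grad w q.1), fderiv ℝ (grad w) q.1 (un (grad w q.1))⟫) := by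
    rw [sh, tr_smul, Pn, sub_mul, one_mul, tr_sub, ← tr_one]
    congr 2
    exact tr_comm _ _
  rw [dft, e.2.2, e.2.1, e.1]
  generalize bb q.2 (grad w q.1) (fderiv ℝ (grad w) q.1) = B at *
  generalize sh (grad w q.1) (fderiv ℝ (grad w) q.1) = A at *
  have p1 : Pn (un (grad w q.1)) * B = B := by
    ext v
    rw [ContinuousLinearMap.mul_apply, Pn_apply, b1, ContinuousLinearMap.mul_apply, a2, zero_smul,
      sub_zero]
  have e1 : tr B = tr A - q.2 * tr (A * B) := by
    conv_lhs => rw [b1, Pn, mul_sub, mul_sub, mul_one, mul_smul_comm, tr_sub, tr_sub, tr_one, a2,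
      sub_zero, tr_smul]
  have e2 : tr (B.comp B) = tr (A * B) - q.2 * tr (A * (B * B)) := by
    rw [← tr_smul, ← tr_sub, ← mul_smul_comm, ← mul_sub, ← smul_mul_assoc]
    nth_rw 3 [← p1]
    rw [← sub_mul, ← mul_assoc, ← b1]; rfl
  have e3 : ⟪x, un (grad w q.1)⟫ = ‖grad w q.1‖⁻¹ * ⟪q.1, grad w q.1⟫ + q.2 := by
    nth_rw 1 [k.2.2]
    rw [inner_add_left, real_inner_smul_left, real_inner_self_eq_norm_sq, n1, un,
      real_inner_smul_right]; ring
  have e4 : phiS w q.1 = tr A - 1 / 2 * (‖grad w q.1‖⁻¹ * ⟪q.1, grad w q.1⟫) := by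
    rw [a3, phiS, un, map_smul, real_inner_smul_left, real_inner_smul_right,
      real_inner_comm (grad w q.1)]
    ring
  rw [e1, e2, e3, e4, show ∀ u : ℝ, |u| = |-u| from fun u => (abs_neg u).symm]
  have p0 := div_pos h.C0 h.apos
  have := (abs_tr_le (A * (B * B))).trans (mul_le_mul_of_nonneg_left ((norm_mul_le _ _).trans
    (mul_le_mul a1 ((norm_mul_le _ _).trans (mul_le_mul b2 b2 (norm_nonneg _) (by positivity)))
      (norm_nonneg _) p0.le)) (Nat.cast_nonneg _))
  refine le_of_eq_of_le (b := |tr (A * (B * B))| * q.2 ^ 2) ?_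
    (mul_le_mul_of_nonneg_right (this.trans_eq (by ring)) (sq_nonneg _))
  rw [← sq_abs, ← abs_pow, ← abs_mul]
  congr 1
  ring

theorem Geo.line {δ' : ℝ} (δ0 : 0 < δ') (e : ∀ x, |w x| < δ' → ‖grad w x‖ = 1) (k : Ft w c x q)
    (s : ∀ s ∈ Icc (0 : ℝ) 1, |w (q.1 + s • q.2 • un (grad w q.1))| < δ') : w x = q.2 := by
  have u : un (grad w q.1) = grad w q.1 := by
    rw [un, e _ (by simpa [k.1] using δ0), inv_one, one_smul]
  have n1 := h.n1 k.1
  have l : ∀ s : ℝ, HasDerivAt (fun s : ℝ => q.1 + s • q.2 • un (grad w q.1))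
      (q.2 • un (grad w q.1)) s := fun s =>
    (((hasDerivAt_id s).smul_const _).const_add _).congr_deriv (one_smul _ _)
  have d := fun s => ((has_hess h.smooth _).comp_hasDerivAt s (l s)).sub_const (un (grad w q.1))
  have g := eq_zero_of_abs_deriv_le_mul_abs_self_of_eq_zero_right (K := |q.2| * C) (a := 0) (b := 1)
    (fun s _ => (d s).continuousAt.continuousWithinAt) (fun s _ => (d s).hasDerivWithinAt)
    (by simp [u]) fun σ hσ => by
      have m := Ico_subset_Icc_self hσ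
      have z := eik_hess h.smooth ((h.smooth.continuous.abs.continuousAt.eventually_lt_const
        (s σ m)).mono e)
      have := ContinuousLinearMap.le_of_opNorm_le _ (h.b2 _ (h.ball k.1
        (y := q.1 + σ • q.2 • un (grad w q.1)) (by
          rw [add_sub_cancel_left, norm_smul, norm_smul, n1, Real.norm_of_nonneg m.1,
            Real.norm_eq_abs]
          nlinarith [m.2, k.2.1, abs_nonneg q.2, h.c0])))
        (grad w (q.1 + σ • q.2 • un (grad w q.1)) - un (grad w q.1))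
      rw [map_sub, z, zero_sub, norm_neg] at this
      rw [map_smul, norm_smul, mul_assoc]
      exact mul_le_mul_of_nonneg_left this (abs_nonneg _)
  have d2 := fun s => ((has_grad h.smooth _).comp_hasDerivAt s (l s)).sub
    ((hasDerivAt_id s).mul_const q.2)
  have := constant_of_has_deriv_right_zero (a := 0) (b := 1)
    (fun s _ => (d2 s).continuousAt.continuousWithinAt) (fun s hs => by
      have := sub_eq_zero.1 (g s (Ico_subset_Icc_self hs))
      refine ((d2 s).congr_deriv ?_).hasDerivWithinAt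
      simp only [Function.comp] at this
      simp [this, inner_smul_right, n1]) 1 ⟨zero_le_one, le_rfl⟩
  simp [← k.2.2, k.1] at this
  linarith

variable (hf : Cut f c)
include hf

theorem Geo.small (e : |sdf f c w x| < c) : ∃ q, Ft w c x q ∧ jt (sdf f c w) x =
    (q.2, un (grad w q.1), bb q.2 (grad w q.1) (fderiv ℝ (grad w) q.1)) := by
  have c0 := h.c0
  rcases h.dich hf x with ⟨q, k, -⟩ | k
  · rw [h.sd_eq hf k] at e
    have := hf.lt _ e
    exact ⟨q, k, by rw [h.jet hf k]; simp [ps, hf.der this, hf.id _ this.le, jt]⟩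
  · rw [(h.far_ev hf k).eq_of_nhds, abs_lt] at e
    split_ifs at e <;> linarith [e.1, e.2]

theorem Geo.one (hM : ∀ t, |t| ≤ 4 * c → |f t| ≤ M ∧ |deriv f t| ≤ M ∧ |deriv (deriv f) t| ≤ M)
    {K : ℝ} (hK : K = M + M * (2 * (C / a)) + M * (C / a + 4 * c) +
      Module.finrank ℝ E * (4 * (C / a) ^ 3) + C + 2 * c) :
    TubeB (sdf f c w) c K ∧ (∀ x, sdf f c w x = 0 ↔ w x = 0) ∧
      ∀ x, |sdf f c w x| < c → w (prj (sdf f c w) x) = 0 ∧
        |dft (sdf f c w) x - phiS w (prj (sdf f c w) x)| ≤ K * sdf f c w x ^ 2 ∧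
        |w x - ‖grad w (prj (sdf f c w) x)‖ * sdf f c w x| ≤ K * sdf f c w x ^ 2 := by
  have c0 := h.c0
  have C0 := h.C0
  have p0 := div_pos h.C0 h.apos
  have M0 : 0 ≤ M := (abs_nonneg _).trans (hM 0 (by simp [c0.le])).1
  have p1 : 0 ≤ M * (2 * (C / a)) := by positivity
  have p2 : 0 ≤ M * (C / a + 4 * c) := by positivity
  have p3 : 0 ≤ Module.finrank ℝ E * (4 * (C / a) ^ 3) := by positivity
  have b : ∀ x, |sdf f c w x| ≤ K ∧ ‖grad (sdf f c w) x‖ ≤ K ∧
      ‖fderiv ℝ (grad (sdf f c w)) x‖ ≤ K ∧ |⟪x, grad (sdf f c w) x⟫| ≤ K := fun x => by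
    rcases h.dich hf x with ⟨q, k, -⟩ | k
    · have e := h.jet hf k
      simp only [jt, ps, Prod.mk.injEq] at e
      obtain ⟨m1, m2, m3⟩ := hM _ k.2.1.le
      have n1 := h.n1 k.1
      rw [e.2.2, e.2.1, e.1, norm_smul, n1, real_inner_smul_right, abs_mul]
      refine ⟨by linarith, by rw [Real.norm_eq_abs]; linarith, (norm_add_le _ _).trans ?_,
        (mul_le_mul m2 (d := C / a + 4 * c) ?_ (abs_nonneg _) M0).trans (by linarith)⟩
      · rw [norm_smul, norm_smul, norm_rankOne, n1, Real.norm_eq_abs, Real.norm_eq_abs]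
        linarith [mul_le_mul m2 (h.bb_le k) (norm_nonneg _) M0]
      · nth_rw 1 [k.2.2]
        rw [inner_add_left, real_inner_smul_left, real_inner_self_eq_norm_sq, n1, one_pow, mul_one,
          un, real_inner_smul_right]
        refine (abs_add_le _ _).trans (add_le_add ?_ k.2.1.le)
        rw [abs_mul, abs_inv, abs_norm, div_eq_inv_mul]
        exact mul_le_mul (h.inv k.1) (h.bx _ k.1) (abs_nonneg _) (inv_pos.2 h.apos).le
    · have e := jt_const (h.far_ev hf k)
      simp only [jt, Prod.mk.injEq] at e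
      rw [e.2.2, e.2.1, e.1, norm_zero, norm_zero, inner_zero_right, abs_zero]
      refine ⟨?_, by linarith, by linarith, by linarith⟩
      split_ifs <;> rw [abs_le] <;> constructor <;> linarith
  refine ⟨⟨c0, h.smooth_sd hf, fun x => (b x).1, fun x => (b x).2.1, fun x => (b x).2.2.1,
    fun x => (b x).2.2.2, fun x e => ?_⟩, fun x => ⟨fun e => ?_, fun e => ?_⟩, fun x e => ?_⟩
  · obtain ⟨q, k, e⟩ := h.small hf e
    exact (congrArg (‖·.2.1‖) e).trans (h.n1 k.1)
  · obtain ⟨q, k, e'⟩ := h.small hf (x := x) (by simpa [e] using c0)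
    rw [k.2.2, ← show _ = q.2 from congrArg Prod.fst e', jt, e, zero_smul, add_zero, k.1]
  · rw [h.sd_eq hf (q := (x, 0)) ⟨e, by simpa using c0, by simp⟩, hf.id 0 (by simp [c0.le])]
  obtain ⟨q, k, e⟩ := h.small hf e
  have e1 : sdf f c w x = q.2 := congrArg Prod.fst e
  have e2 : prj (sdf f c w) x = q.1 := by
    rw [prj, e1, show grad (sdf f c w) x = _ from congrArg (·.2.1) e, sub_eq_iff_eq_add]
    exact k.2.2
  rw [e2, e1]
  exact ⟨k.1, (h.dft_le k e).trans (mul_le_mul_of_nonneg_right (by linarith) (sq_nonneg _)),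
    (h.val k).trans (mul_le_mul_of_nonneg_right (by linarith) (sq_nonneg _))⟩

theorem Geo.two {δ' : ℝ} (δ0 : 0 < δ') (e : ∀ x, |w x| < δ' → ‖grad w x‖ = 1) (hx : w x = 0) :
    sdf f c w =ᶠ[𝓝 x] w := by
  obtain ⟨ε, ε0, b⟩ := Metric.eventually_nhds_iff.1
    (h.smooth.continuous.abs.continuousAt.eventually_lt_const (show |w x| < δ' by simpa [hx]))
  have c0 := h.c0
  filter_upwards [ball_mem_nhds x (half_pos ε0), ball_mem_nhds x c0] with y y1 y2
  rw [mem_ball_iff_norm] at y1 y2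
  obtain ⟨q, k, k1⟩ := h.ex hx (y2.trans (by linarith))
  rw [h.sd_eq hf k, hf.id _ (k1.trans y2.le), h.line δ0 e k fun s hs => b ?_]
  rw [dist_eq_norm, show q.1 + s • q.2 • un (grad w q.1) - x =
    y - x - (1 - s) • q.2 • un (grad w q.1) by nth_rw 1 [k.2.2]; module]
  refine (norm_sub_le _ _).trans_lt ?_
  rw [norm_smul, norm_smul, h.n1 k.1, Real.norm_of_nonneg (sub_nonneg.2 hs.2), Real.norm_eq_abs]
  nlinarith [hs.1, abs_nonneg q.2]

theorem Geo.lim {U : Ultrafilter ℕ} {v : ℕ → E → ℝ} {z : ℕ → E} (hv : ∀ n, Geo (v n) δ a C c)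
    (cv : ∀ (p : ℕ → E) p₀, Tendsto p U (𝓝 p₀) → Tendsto (fun n => jt (v n) (p n)) U (𝓝 (jt w p₀)))
    (hz : Tendsto z U (𝓝 x)) :
    Tendsto (fun n => jt (sdf f c (v n)) (z n)) U (𝓝 (jt (sdf f c w) x)) := by
  have c0 := h.c0
  haveI := FiniteDimensional.proper_real (E × ℝ)
  rcases Ultrafilter.eventually_or.1 (.of_forall fun n => (hv n).dich hf (z n)) with k | k
  · replace k := k.mono fun n ⟨q, k1, k2⟩ => ((hv n).ft_eq k1).symm ▸ And.intro k1 k2
    generalize hq : (fun n => ft (v n) c (z n)) = q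
    simp only [congrFun hq] at k
    obtain ⟨q₀, -, t⟩ := (isCompact_closedBall (x, (0 : ℝ)) (4 * c)).ultrafilter_le_nhds' (U.map q)
      (show ∀ᶠ n in U, q n ∈ closedBall _ _ by
        filter_upwards [k, hz.eventually (ball_mem_nhds x c0)] with n k1 k2
        have := (hv n).nrm k1.1
        rw [dist_comm, dist_eq_norm] at k2
        refine mem_closedBall_iff_norm'.2 (max_le (show ‖x - (q n).1‖ ≤ _ from ?_)
          (by simpa using k1.1.2.1.le))
        linarith [norm_sub_le_norm_sub_add_norm_sub x (z n) (q n).1, k1.2])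
    have t : Tendsto q U (𝓝 q₀) := t
    have j := cv _ _ t.fst_nhds
    have w0 : w q₀.1 = 0 := tendsto_nhds_unique j.fst_nhds
      (tendsto_const_nhds.congr' (k.mono fun n k => k.1.1.symm))
    have k0 : Ft w c x q₀ := ⟨w0, (le_of_tendsto t.snd_nhds.abs (k.mono fun n k => k.2.le)).trans_lt
      (by linarith), tendsto_nhds_unique (hz.congr' (k.mono fun n k => k.1.2.2)) (t.fst_nhds.add
        (t.snd_nhds.smul ((un_cont (h.ne w0)).tendsto.comp j.snd_nhds.fst_nhds)))⟩
    rw [h.jet hf k0]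
    exact ((ps_cont hf (z := (q₀.2, jt w q₀.1)) (h.ne w0) (h.unit k0)).tendsto.comp
      (t.snd_nhds.prodMk_nhds j)).congr' (k.mono fun n k => ((hv n).jet hf k.1).symm)
  have k0 : ∀ p, w p = 0 → 3 * c ≤ ‖x - p‖ := fun p hp => not_lt.1 fun l => by
    obtain ⟨s, s0, s1⟩ : ∃ s, 0 < s ∧ ‖x - p‖ + 2 * s ≤ 3 * c := ⟨(3 * c - ‖x - p‖) / 2, by linarith,
      by linarith⟩
    have s2 : |s| < 4 * c := by rw [abs_of_pos s0]; linarith [norm_nonneg (x - p)]
    have b1 := pos_of_mul_pos_right (h.sgn (q := (p, s)) ⟨hp, s2, rfl⟩ s0.ne') s0.le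
    have b2 := neg_of_mul_pos_right (h.sgn (q := (p, -s)) ⟨hp, by rwa [abs_neg], rfl⟩
      (neg_ne_zero.2 s0.ne')) (by simpa using s0.le)
    obtain ⟨n, ⟨⟨n1, n2⟩, n3⟩, n4⟩ := (((k.and (hz.eventually (ball_mem_nhds x s0))).and
      ((cv _ _ tendsto_const_nhds).fst_nhds.eventually_const_lt b1)).and
        ((cv _ _ tendsto_const_nhds).fst_nhds.eventually_lt_const b2)).exists
    obtain ⟨τ, τ1, τ2⟩ := intermediate_value_Icc (f := fun τ : ℝ => v n (p + τ • un (grad w p)))
      (show -s ≤ s by linarith) ((hv n).smooth.continuous.comp (by fun_prop)).continuousOn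
      ⟨n4.le, n3.le⟩
    have := norm_sub_le (x - p) (τ • un (grad w p))
    rw [norm_smul, h.n1 hp, Real.norm_eq_abs, sub_sub] at this
    linarith [n1 _ τ2, norm_sub_le_norm_sub_add_norm_sub (z n) x (p + τ • un (grad w p)),
      mem_ball_iff_norm.1 n2, abs_le.2 τ1]
  have j := (cv _ _ hz).fst_nhds
  have : ∀ᶠ n in U, (0 < v n (z n) ↔ 0 < w x) := by
    rcases lt_or_gt_of_ne (h.far_ne hf k0) with b | b
    · exact (j.eventually_lt_const b).mono fun y hy => iff_of_false hy.not_gt b.not_gt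
    · exact (j.eventually_const_lt b).mono fun y hy => iff_of_true hy b
  rw [jt_const (h.far_ev hf k0)]
  refine tendsto_const_nhds.congr' ?_
  filter_upwards [k, this] with n n1 n2
  rw [jt_const ((hv n).far_ev hf n1), if_congr n2 rfl rfl]

theorem Geo.three {ω : ℝ} (ω0 : 0 < ω) :
    ∃ η > 0, ∀ v, Geo v δ a C c → Cl2 η v w → Cl2 ω (sdf f c v) (sdf f c w) := by
  by_contra! k
  choose v v1 v2 v3 using fun n : ℕ => k (1 / (n + 1)) Nat.one_div_pos_of_nat
  simp only [cl2_iff, not_forall, not_le] at v2 v3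
  choose z z1 z2 using v3
  haveI := FiniteDimensional.proper_real E
  obtain ⟨x, -, t⟩ := (isCompact_closedBall (0 : E) ω⁻¹).ultrafilter_le_nhds'
    ((hyperfilter ℕ).map z) (show ∀ᶠ n in hyperfilter ℕ, z n ∈ closedBall _ _ from
      .of_forall fun n => mem_closedBall_zero_iff.2 (z1 n))
  have t : Tendsto z (hyperfilter ℕ) (𝓝 x) := t
  have l : (hyperfilter ℕ : Filter ℕ) ≤ atTop := Nat.hyperfilter_le_atTop
  have a1 := h.lim hf v1 (fun p p₀ hp => by
    refine (((jt_cont h.smooth).tendsto _).comp hp).congr_dist (squeeze_zero' (.of_forall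
      fun _ => dist_nonneg) ?_ (tendsto_one_div_add_atTop_nhds_zero_nat.mono_left l))
    filter_upwards [hp.norm.eventually_lt_const (lt_add_one _),
      l (tendsto_natCast_atTop_atTop.eventually_ge_atTop ‖p₀‖)] with n n1 n2
    rw [dist_comm, dist_eq_norm]
    exact v2 n _ (by rw [one_div, inv_inv]; linarith [show ‖p₀‖ ≤ n from n2])) t
  have a2 := (a1.sub (((jt_cont (h.smooth_sd hf)).tendsto _).comp t)).norm
  rw [sub_self, norm_zero] at a2
  obtain ⟨n, hn⟩ := (a2.eventually_lt_const ω0).exists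
  exact (z2 n).not_gt hn

end Sd

open Sd in
theorem sd (E : Type*) [NormedAddCommGroup E] [InnerProductSpace ℝ E] [FiniteDimensional ℝ E] :
    SD E := fun δ a C δ0 a0 => by
  have C0 : 0 < |C| + 1 := by positivity
  obtain ⟨c, c0, c1, c2⟩ : ∃ c, 0 < c ∧ c ≤ 1 ∧ 32 * c * (|C| + 1) ≤ min a δ :=
    ⟨min 1 (min a δ / (32 * (|C| + 1))), by positivity, min_le_left _ _, by
      rw [mul_right_comm, ← le_div_iff₀' (by positivity)]; exact min_le_right _ _⟩
  have l : C ≤ |C| + 1 := by linarith [le_abs_self C]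
  have g : ∀ w : E → ℝ, Dfn w δ a C → Geo w δ a (|C| + 1) c := fun w h =>
    ⟨⟨δ0, a0, h.smooth, h.lo, fun x e => (h.b1 x e).trans l, fun x e => (h.b2 x e).trans l,
      fun x e => (h.bx x e).trans l⟩, c0, C0, by linarith [min_le_left a δ, mul_pos c0 C0],
      c2.trans (min_le_right _ _)⟩
  obtain ⟨f, hf⟩ := ex_cut c0
  obtain ⟨M, hM⟩ := hf.bd
  refine ⟨c, _, c0, c1, sdf f c, fun w h => (g w h).one hf hM rfl,
    fun w h δ' δ0 e x hx => (g w h).two hf δ0 e hx, fun w h ω ω0 => ?_⟩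
  obtain ⟨η, η0, k⟩ := (g w h).three hf ω0
  exact ⟨η, η0, fun v hv => k v (g v hv)⟩

end Vale.Agent.P218D
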