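import Vale.Agent.P218D.Bas

/-! Block SL, row SD: foot points on a regular level set (helper84). -/

open Set Filter Topology Metric
open scoped RealInnerProductSpace

set_option linter.all false

noncomputable section

namespace Vale.Agent.P218D.Sd

open Vale.Agent.P218 Vale.Agent.P218.H313

variable {E : Type*} [NormedAddCommGroup E] [InnerProductSpace ℝ E] [FiniteDimensional ℝ E]
  {w : E → ℝ} {δ a C c t : ℝ} {x y p p' : E} {q q' : E × ℝ}

/-- the unit vector -/
def un (g : E) : E := ‖g‖⁻¹ • g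

/-- the projection orthogonal to a unit vector -/
def Pn (n : E) : E →L[ℝ] E := 1 - InnerProductSpace.rankOne ℝ n n

/-- the derivative of the unit normal -/
def sh (g : E) (H : E →L[ℝ] E) : E →L[ℝ] E := ‖g‖⁻¹ • (Pn (un g) * H)

theorem Pn_apply (n v : E) : Pn n v = v - ⟪n, v⟫ • n := rfl

theorem norm_un {g : E} (h : g ≠ 0) : ‖un g‖ = 1 := norm_smul_inv_norm h

theorem smul_un {g : E} (h : g ≠ 0) : ‖g‖ • un g = g := smul_inv_smul₀ (norm_ne_zero_iff.2 h) g

theorem inner_Pn {n : E} (h : ‖n‖ = 1) (v : E) : ⟪n, Pn n v⟫ = 0 := by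
  rw [Pn_apply, inner_sub_right, real_inner_smul_right, real_inner_self_eq_norm_sq, h]; ring

theorem norm_Pn {n : E} (h : ‖n‖ = 1) (v : E) : ‖Pn n v‖ ≤ ‖v‖ := by
  refine le_of_sq_le_sq ?_ (norm_nonneg _)
  rw [Pn_apply, norm_sub_sq_real, real_inner_smul_right, norm_smul, h, real_inner_comm,
    Real.norm_eq_abs, mul_one, sq_abs]
  nlinarith [sq_nonneg ⟪v, n⟫]

theorem inner_sh {g : E} (h : g ≠ 0) (H : E →L[ℝ] E) (v : E) : ⟪un g, sh g H v⟫ = 0 := by
  rw [show sh g H v = ‖g‖⁻¹ • Pn (un g) (H v) from rfl, real_inner_smul_right,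
    inner_Pn (norm_un h), mul_zero]

theorem has_grad (hw : ContDiff ℝ 2 w) (x : E) : HasFDerivAt w (innerSL ℝ (grad w x)) x :=
  (hw.differentiable two_ne_zero x).hasFDerivAt.congr_fderiv (by ext v; simp [inner_grad])

theorem has_hess (hw : ContDiff ℝ 2 w) (x : E) :
    HasFDerivAt (grad w) (fderiv ℝ (grad w) x) x :=
  ((contDiff_grad_one hw).differentiable one_ne_zero x).hasFDerivAt

theorem cd_un (hw : ContDiff ℝ 2 w) (h : grad w x ≠ 0) :
    ContDiffAt ℝ 1 (fun y => un (grad w y)) x :=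
  have k := (contDiff_grad_one hw).contDiffAt (x := x)
  ((k.norm ℝ h).inv (norm_ne_zero_iff.2 h)).smul k

theorem has_un (hw : ContDiff ℝ 2 w) (h : grad w x ≠ 0) :
    HasFDerivAt (fun y => un (grad w y)) (sh (grad w x) (fderiv ℝ (grad w) x)) x := by
  have k := (contDiff_grad_one hw).contDiffAt (x := x)
  have a := ((cd_un hw h).differentiableAt one_ne_zero).hasFDerivAt
  have b := ((k.norm ℝ h).differentiableAt one_ne_zero).hasFDerivAt
  have e := k.continuousAt.eventually_ne h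
  have c := ((b.smul a).congr_of_eventuallyEq (e.mono fun y hy => (smul_un hy).symm)).unique
    (has_hess hw x)
  have d := (a.norm_sq.congr_of_eventuallyEq (f₁ := fun _ => 1)
    (e.mono fun y hy => by simp [norm_un hy])).unique (hasFDerivAt_const _ x)
  refine a.congr_fderiv (ContinuousLinearMap.ext fun v => ?_)
  have d1 := congr($d v)
  rw [show sh _ _ v = ‖grad w x‖⁻¹ • Pn (un (grad w x)) (fderiv ℝ (grad w) x v) from rfl, ← c]
  simp at d1
  simp [Pn_apply, inner_add_right, inner_smul_right, d1, norm_un h, h]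

/-- the standing assumptions -/
structure Geo (w : E → ℝ) (δ a C c : ℝ) : Prop extends Dfn w δ a C where
  c0 : 0 < c
  C0 : 0 < C
  ca : 16 * c * C ≤ a
  cd : 32 * c * C ≤ δ

variable (h : Geo w δ a C c)
include h

theorem Geo.lo0 (hp : w p = 0) : a ≤ ‖grad w p‖ := h.lo p (by simpa [hp] using h.dpos)

theorem Geo.ne (hp : w p = 0) : grad w p ≠ 0 := norm_pos_iff.1 (h.apos.trans_le (h.lo0 hp))

theorem Geo.n1 (hp : w p = 0) : ‖un (grad w p)‖ = 1 := norm_un (h.ne hp)

theorem Geo.inv (hp : w p = 0) : ‖grad w p‖⁻¹ ≤ a⁻¹ := inv_anti₀ h.apos (h.lo0 hp)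

theorem Geo.sh_le (hp : w p = 0) : ‖sh (grad w p) (fderiv ℝ (grad w) p)‖ ≤ C / a := by
  refine ContinuousLinearMap.opNorm_le_bound _ (div_pos h.C0 h.apos).le fun v => ?_
  rw [show sh _ _ v = ‖grad w p‖⁻¹ • Pn (un (grad w p)) (fderiv ℝ (grad w) p v) from rfl,
    norm_smul, norm_inv, norm_norm, div_eq_inv_mul, mul_assoc]
  exact mul_le_mul (h.inv hp) ((norm_Pn (h.n1 hp) _).trans (ContinuousLinearMap.le_of_opNorm_le _
    (h.b2 p (by simpa [hp] using h.dpos)) v)) (norm_nonneg _) (inv_pos.2 h.apos).le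

theorem Geo.tsh (hp : w p = 0) (ht : |t| < 4 * c) :
    ‖t • sh (grad w p) (fderiv ℝ (grad w) p)‖ ≤ 1 / 4 := by
  rw [norm_smul]
  refine (mul_le_mul ht.le (h.sh_le hp) (norm_nonneg _) (by linarith [h.c0])).trans ?_
  rw [← mul_div_assoc, div_le_iff₀ h.apos]
  linarith [h.ca]

theorem Geo.ball (hp : w p = 0) (hy : ‖y - p‖ ≤ 16 * c) : |w y| < δ := by
  have d : ∀ s : ℝ, HasDerivAt (fun s : ℝ => w (p + s • (y - p)))
      ⟪grad w (p + s • (y - p)), y - p⟫ s := fun s =>
    ((has_grad h.smooth _).comp_hasDerivAt s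
      (((hasDerivAt_id s).smul_const (y - p)).const_add p)).congr_deriv (by simp)
  have δ0 := h.dpos
  have := image_norm_le_of_norm_deriv_right_lt_deriv_boundary (a := 0) (b := 1)
    (fun s _ => (d s).continuousAt.continuousWithinAt) (fun s _ => (d s).hasDerivWithinAt)
    (B := fun s => 3 / 4 * δ * s) (B' := fun _ => 3 / 4 * δ) (by simp [hp])
    (fun s => by simpa using (hasDerivAt_id s).const_mul (3 / 4 * δ)) (fun s hs e => by
      have b := h.b1 _ ((Real.norm_eq_abs _).symm.trans_lt (e.trans_lt (by nlinarith [hs.2])))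
      have := mul_le_mul b hy (norm_nonneg _) h.C0.le
      linarith [norm_inner_le_norm (𝕜 := ℝ) (grad w (p + s • (y - p))) (y - p), h.cd])
    ⟨zero_le_one, le_rfl⟩
  simp at this
  linarith

theorem Geo.tay (hp : w p = 0) (hy : ‖y - p‖ ≤ 16 * c) :
    |w y - ⟪grad w p, y - p⟫| ≤ C * ‖y - p‖ ^ 2 := by
  have m : y ∈ closedBall p ‖y - p‖ := mem_closedBall_iff_norm.2 le_rfl
  have m0 : p ∈ closedBall p ‖y - p‖ := mem_closedBall_self (norm_nonneg _)
  have a := (convex_closedBall p ‖y - p‖).norm_image_sub_le_of_norm_hasFDerivWithin_le (𝕜 := ℝ)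
    (C := C * ‖y - p‖) (fun z _ => ((has_grad h.smooth z).sub
      (innerSL ℝ (grad w p)).hasFDerivAt).hasFDerivWithinAt) (fun z hz => by
      rw [← map_sub, innerSL_apply_norm]
      exact ((convex_closedBall p ‖y - p‖).norm_image_sub_le_of_norm_hasFDerivWithin_le (𝕜 := ℝ)
        (fun z _ => (has_hess h.smooth z).hasFDerivWithinAt) (fun z hz => h.b2 z (h.ball hp
          ((mem_closedBall_iff_norm.1 hz).trans hy))) m0 hz).trans
        (mul_le_mul_of_nonneg_left (mem_closedBall_iff_norm.1 hz) h.C0.le)) m0 m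
  rw [inner_sub_right, sq, ← mul_assoc]
  refine le_of_eq_of_le (congrArg abs ?_) a
  simp [hp]
  ring

theorem Geo.reach (hp : w p = 0) (hy : w y = 0) :
    16 * c * |⟪un (grad w p), y - p⟫| ≤ ‖y - p‖ ^ 2 := by
  have c0 := h.c0
  rcases le_total ‖y - p‖ (16 * c) with k | k
  · have b := h.tay hp k
    rw [hy, zero_sub, abs_neg] at b
    rw [un, real_inner_smul_left, abs_mul, abs_inv, abs_norm]
    have := mul_le_mul (h.inv hp) b (abs_nonneg _) (inv_pos.2 h.apos).le
    refine (mul_le_mul_of_nonneg_left this (by positivity)).trans ?_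
    rw [mul_left_comm, inv_mul_le_iff₀ h.apos, ← mul_assoc]
    exact mul_le_mul_of_nonneg_right h.ca (sq_nonneg _)
  · have b := abs_real_inner_le_norm (un (grad w p)) (y - p)
    rw [h.n1 hp, one_mul, ] at b
    rw [sq]
    exact mul_le_mul k b (abs_nonneg _) (norm_nonneg _)

omit h in
/-- `q.1` is the foot point of `x`, and `q.2` the signed distance -/
def Ft (w : E → ℝ) (c : ℝ) (x : E) (q : E × ℝ) : Prop :=
  w q.1 = 0 ∧ |q.2| < 4 * c ∧ x = q.1 + q.2 • un (grad w q.1)

theorem Geo.nrm (k : Ft w c x q) : ‖x - q.1‖ = |q.2| := by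
  rw [k.2.2, add_sub_cancel_left, norm_smul, h.n1 k.1, mul_one, Real.norm_eq_abs]

theorem Geo.near (k : Ft w c x q) (hy : w y = 0) :
    q.2 ^ 2 + ‖y - q.1‖ ^ 2 / 2 ≤ ‖x - y‖ ^ 2 := by
  have e : x - y = q.2 • un (grad w q.1) - (y - q.1) := by rw [k.2.2]; abel
  rw [e, norm_sub_sq_real (_ • _), norm_smul, h.n1 k.1, mul_one, Real.norm_eq_abs, sq_abs,
    real_inner_smul_left]
  have := h.reach k.1 hy
  have := le_abs_self (q.2 * ⟪un (grad w q.1), y - q.1⟫)
  rw [abs_mul] at this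
  linarith [mul_le_mul_of_nonneg_right k.2.1.le (abs_nonneg ⟪un (grad w q.1), y - q.1⟫)]

theorem Geo.uniq (k : Ft w c x q) (k' : Ft w c x q') : q = q' := by
  have a := h.near k k'.1
  have b := h.near k' k.1
  rw [h.nrm k', sq_abs] at a
  rw [h.nrm k, sq_abs, norm_sub_rev] at b
  have e : q'.1 = q.1 := by
    rw [← sub_eq_zero, ← norm_eq_zero, ← sq_eq_zero_iff]
    linarith [sq_nonneg ‖q'.1 - q.1‖]
  have := k.2.2.symm.trans k'.2.2
  rw [e, add_right_inj] at this
  exact Prod.ext e.symm (smul_left_injective ℝ (norm_ne_zero_iff.1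
    ((h.n1 k.1).trans_ne one_ne_zero)) this)

theorem Geo.ex (hp : w p = 0) (hx : ‖x - p‖ < 4 * c) : ∃ q, Ft w c x q ∧ |q.2| ≤ ‖x - p‖ := by
  haveI := FiniteDimensional.complete ℝ E
  haveI := FiniteDimensional.proper_real E
  obtain ⟨y, (hy : w y = 0), e⟩ := (isClosed_eq h.smooth.continuous
    continuous_const).exists_infDist_eq_dist ⟨p, hp⟩ x
  have m : ∀ z, w z = 0 → ‖x - y‖ ≤ ‖x - z‖ := fun z hz => by
    rw [← dist_eq_norm, ← dist_eq_norm, ← e]; exact infDist_le_dist_of_mem hz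
  obtain ⟨α, β, h0, h1⟩ := IsLocalExtrOn.exists_multipliers_of_hasStrictFDerivAt_1d
    (φ := fun z => ‖z - x‖ ^ 2) (f := w) (x₀ := y) (.inl (IsMinOn.localize fun z hz => by
      have := m z (hz.trans hy)
      rw [norm_sub_rev, norm_sub_rev x] at this
      exact pow_le_pow_left₀ (norm_nonneg _) this 2))
    ((h.smooth.contDiffAt.hasStrictFDerivAt' (has_grad h.smooth y) two_ne_zero))
    ((hasStrictFDerivAt_norm_sq (y - x)).comp y ((hasStrictFDerivAt_id y).sub_const x))
  have h2 : α • grad w y + (2 * β) • (y - x) = 0 := ext_inner_right ℝ fun v => by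
    have := congr($h1 v)
    simp only [inner_add_left, real_inner_smul_left, inner_zero_left]
    simp at this
    rw [inner_sub_left]
    linarith
  have β0 : β ≠ 0 := by
    rintro rfl
    simp [h.ne hy] at h2
    exact h0 (by simp [h2])
  have h3 : x = y + (α / (2 * β) * ‖grad w y‖) • un (grad w y) := by
    rw [mul_smul, smul_un (h.ne hy), div_eq_inv_mul, mul_smul, eq_neg_of_add_eq_zero_left h2,
      smul_neg, inv_smul_smul₀ (mul_ne_zero two_ne_zero β0)]
    abel
  have h4 : |α / (2 * β) * ‖grad w y‖| ≤ ‖x - p‖ := by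
    refine le_of_eq_of_le ?_ (m p hp)
    nth_rw 1 [h3]
    rw [add_sub_cancel_left, norm_smul, h.n1 hy, mul_one, Real.norm_eq_abs]
  exact ⟨(y, _), ⟨hy, h4.trans_lt hx, h3⟩, h4⟩

theorem Geo.val (k : Ft w c x q) : |w x - ‖grad w q.1‖ * q.2| ≤ C * q.2 ^ 2 := by
  have := h.tay k.1 ((h.nrm k).trans_le (by linarith [k.2.1, h.c0]))
  rw [h.nrm k, sq_abs] at this
  nth_rw 2 [k.2.2] at this
  rwa [add_sub_cancel_left, real_inner_smul_right, un, real_inner_smul_right,
    real_inner_self_eq_norm_sq, sq, inv_mul_cancel_left₀ (norm_ne_zero_iff.2 (h.ne k.1)),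
    mul_comm q.2] at this

theorem Geo.sgn (k : Ft w c x q) (h0 : q.2 ≠ 0) : 0 < q.2 * w x := by
  have a1 := abs_le.1 (h.val k)
  have a2 := h.lo0 k.1
  have a3 := abs_lt.1 k.2.1
  have a4 := h.ca
  have a5 := h.C0
  have a6 := h.apos
  rcases lt_or_gt_of_ne h0 with b | b
  · refine mul_pos_of_neg_of_neg b ?_
    nlinarith [mul_pos a5 (sub_pos.2 a3.1)]
  · refine mul_pos b ?_
    nlinarith [mul_pos a5 (sub_pos.2 a3.2)]

theorem Geo.loc (k : Ft w c x q) : ∃ G : E → E × ℝ, ContDiffAt ℝ 1 G x ∧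
    ∀ᶠ y in 𝓝 x, Ft w c y (G y) := by
  haveI := FiniteDimensional.complete ℝ E
  obtain ⟨p, t⟩ := q
  obtain ⟨k1, k2, rfl⟩ := k
  simp only at k1 k2 ⊢
  have cF : ContDiffAt ℝ 1 (fun q : E × ℝ => (q.1 + q.2 • un (grad w q.1), w q.1)) (p, t) :=
    (contDiffAt_fst.add (contDiffAt_snd.smul (cd_un h.smooth (h.ne k1)).fst')).prodMk
      (h.smooth.of_le one_le_two).contDiffAt.fst'
  have f1 : HasFDerivAt Prod.fst (ContinuousLinearMap.fst ℝ E ℝ) (p, t) := hasFDerivAt_fst
  have dF := (f1.add (hasFDerivAt_snd.smul (HasFDerivAt.comp (p, t) (f := Prod.fst)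
    (has_un h.smooth (h.ne k1)) f1))).prodMk ((has_grad h.smooth p).comp (p, t) f1)
  obtain ⟨L, hL, dF⟩ : ∃ L, _ = L ∧ HasFDerivAt _ L _ := ⟨_, rfl, dF⟩
  have hi : Function.Injective L.toLinearMap := (injective_iff_map_eq_zero _).2 fun v hv => by
    subst hL
    obtain ⟨e1, e2⟩ := Prod.mk_eq_zero.1 hv
    simp at e1 e2
    have e3 : ⟪un (grad w p), v.1⟫ = 0 := by rw [un, real_inner_smul_left, e2, mul_zero]
    have e4 := congr(⟪un (grad w p), $e1⟫)
    simp [inner_add_right, inner_smul_right, e3, inner_sh (h.ne k1), h.n1 k1] at e4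
    rw [e4, zero_smul, add_zero] at e1
    have e5 := (t • sh (grad w p) (fderiv ℝ (grad w) p)).le_of_opNorm_le (h.tsh k1 k2) v.1
    rw [ContinuousLinearMap.smul_apply, ← neg_eq_of_add_eq_zero_right e1, norm_neg] at e5
    exact Prod.ext (norm_le_zero_iff.1 (by linarith)) e4
  have dF' : HasFDerivAt (fun q : E × ℝ => (q.1 + q.2 • un (grad w q.1), w q.1))
    ((LinearEquiv.ofInjectiveEndo _ hi).toContinuousLinearEquiv : E × ℝ →L[ℝ] E × ℝ) (p, t) := dF
  have a := cF.to_localInverse dF' one_ne_zero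
  have b := cF.localInverse_apply_image dF' one_ne_zero
  have d := (cF.hasStrictFDerivAt' dF' one_ne_zero).eventually_right_inverse
  simp only [k1] at a b d
  have i : ContDiffAt ℝ 1 (fun y : E => (y, (0 : ℝ))) (p + t • un (grad w p)) := by fun_prop
  have g := ContDiffAt.comp (f := fun y : E => (y, (0 : ℝ))) _ a i
  refine ⟨_, g, ?_⟩
  filter_upwards [i.continuousAt.eventually d, g.continuousAt.snd.abs.eventually_lt_const
    (by simpa [b] using k2)] with y y1 y2
  exact ⟨congrArg Prod.snd y1, y2, (congrArg Prod.fst y1).symm⟩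

end Vale.Agent.P218D.Sd
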