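import Vale.Agent.P218D.SdA

/-! Block SL, row SD: the truncated signed distance and its jets (helper84). -/

open Set Filter Topology Metric
open scoped RealInnerProductSpace

set_option linter.all false

noncomputable section

namespace Vale.Agent.P218D.Sd

open Vale.Agent.P218 Vale.Agent.P218.H313 InnerProductSpace

variable {E : Type*} [NormedAddCommGroup E] [InnerProductSpace ℝ E] [FiniteDimensional ℝ E]
  {w : E → ℝ} {δ a C c t : ℝ} {x y p p' : E} {q q' : E × ℝ} {f : ℝ → ℝ}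

/-- the truncation -/
structure Cut (f : ℝ → ℝ) (c : ℝ) : Prop where
  cd : ContDiff ℝ 2 f
  id : ∀ t, |t| ≤ c → f t = t
  hi : ∀ t, 2 * c ≤ t → f t = 2 * c
  lo : ∀ t, t ≤ -(2 * c) → f t = -(2 * c)
  lt : ∀ t, |f t| < c → |t| < c

theorem ex_cut (c0 : 0 < c) : ∃ f, Cut f c := by
  let σ := Real.smoothTransition
  have z : ∀ s, s ≤ c → σ ((s - c) / c) = 0 := fun s hs =>
    Real.smoothTransition.zero_of_nonpos (div_nonpos_of_nonpos_of_nonneg (by linarith) c0.le)
  have o : ∀ s, 2 * c ≤ s → σ ((s - c) / c) = 1 := fun s hs =>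
    Real.smoothTransition.one_of_one_le ((one_le_div c0).2 (by linarith))
  have cs : ContDiff ℝ 2 σ := Real.smoothTransition.contDiff
  refine ⟨fun t => t + (2 * c - t) * σ ((t - c) / c) - (2 * c + t) * σ ((-t - c) / c),
    by fun_prop, fun t ht => ?_, fun t ht => ?_, fun t ht => ?_, fun t ht => ?_⟩
  · rw [z t (abs_le.1 ht).2, z (-t) (by linarith [(abs_le.1 ht).1])]; ring
  · rw [o t ht, z (-t) (by linarith)]; ring
  · rw [z t (by linarith), o (-t) (by linarith)]; ring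
  · by_contra! k
    rcases le_abs.1 k with k | k
    · rw [z (-t) (by linarith)] at ht
      nlinarith [(abs_lt.1 ht).2, Real.smoothTransition.nonneg ((t - c) / c),
        Real.smoothTransition.le_one ((t - c) / c)]
    · rw [z t (by linarith)] at ht
      nlinarith [(abs_lt.1 ht).1, Real.smoothTransition.nonneg ((-t - c) / c),
        Real.smoothTransition.le_one ((-t - c) / c)]

theorem Cut.cd1 (hf : Cut f c) : ContDiff ℝ 1 (deriv f) :=
  (show ContDiff ℝ (1 + 1) f from hf.cd).deriv'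

theorem Cut.der (hf : Cut f c) (ht : |t| < c) : deriv f t = 1 ∧ deriv (deriv f) t = 0 := by
  have e : f =ᶠ[𝓝 t] fun s => s :=
    (continuous_abs.continuousAt.eventually_lt_const ht).mono fun s hs => hf.id s hs.le
  have := e.deriv
  simp only [deriv_id''] at this
  exact ⟨this.eq_of_nhds, by rw [this.deriv_eq]; exact deriv_const _ _⟩

theorem Cut.bd (hf : Cut f c) : ∃ M, ∀ t, |t| ≤ 4 * c →
    |f t| ≤ M ∧ |deriv f t| ≤ M ∧ |deriv (deriv f) t| ≤ M := by
  obtain ⟨M, hM⟩ := (isCompact_Icc (a := -(4 * c)) (b := 4 * c)).exists_bound_of_continuousOn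
    (hf.cd.continuous.prodMk (hf.cd1.continuous.prodMk (hf.cd1.continuous_deriv le_rfl))).continuousOn
  exact ⟨M, fun t ht => by simpa [Prod.norm_def] using hM t (abs_le.1 ht)⟩

/-- the foot point and the signed distance -/
def ft (w : E → ℝ) (c : ℝ) (x : E) : E × ℝ := Classical.epsilon (Ft w c x)

open Classical in
/-- the truncated signed distance -/
def sdf (f : ℝ → ℝ) (c : ℝ) (w : E → ℝ) (x : E) : ℝ :=
  if ∃ q, Ft w c x q then f (ft w c x).2 else if 0 < w x then 2 * c else -(2 * c)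

/-- the Hessian of the signed distance -/
def bb (t : ℝ) (g : E) (H : E →L[ℝ] E) : E →L[ℝ] E :=
  Ring.inverse (1 + t • sh g H) * (sh g H * Pn (un g))

/-- the `2`-jet -/
def jt (w : E → ℝ) (x : E) : ℝ × E × (E →L[ℝ] E) := (w x, grad w x, fderiv ℝ (grad w) x)

/-- the jet of the truncated distance in terms of the jet of `w` at the foot point -/
def ps (f : ℝ → ℝ) (z : ℝ × ℝ × E × (E →L[ℝ] E)) : ℝ × E × (E →L[ℝ] E) :=
  (f z.1, deriv f z.1 • un z.2.2.1, deriv f z.1 • bb z.1 z.2.2.1 z.2.2.2 +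
    deriv (deriv f) z.1 • rankOne ℝ (un z.2.2.1) (un z.2.2.1))

theorem grad_of {g : E} (h : HasFDerivAt w (innerSL ℝ g) x) : grad w x = g :=
  grad_unique fun v => by rw [h.fderiv]; rfl

theorem jt_const {b : ℝ} (h : w =ᶠ[𝓝 x] fun _ => b) : jt w x = (b, 0, 0) := by
  have e : grad w =ᶠ[𝓝 x] fun _ => 0 := h.eventuallyEq_nhds.mono fun y hy =>
    grad_of (by simpa using (hasFDerivAt_const b y).congr_of_eventuallyEq hy)
  rw [jt, h.eq_of_nhds, e.eq_of_nhds, e.fderiv_eq, fderiv_fun_const]; rfl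

theorem jt_cont (h : ContDiff ℝ 2 w) : Continuous (jt w) :=
  h.continuous.prodMk ((contDiff_grad_one h).continuous.prodMk
    ((contDiff_grad_one h).continuous_fderiv one_ne_zero))

theorem cl2_iff {ω : ℝ} {u v : E → ℝ} :
    Cl2 ω u v ↔ ∀ p : E, ‖p‖ ≤ ω⁻¹ → ‖jt u p - jt v p‖ ≤ ω := by
  simp [Cl2, jt, Prod.norm_def]

theorem un_cont {g : E} (h : g ≠ 0) : ContinuousAt un g :=
  (continuous_norm.continuousAt.inv₀ (norm_ne_zero_iff.2 h)).smul continuousAt_id

theorem ps_cont (hf : Cut f c) {z : ℝ × ℝ × E × (E →L[ℝ] E)} (h : z.2.2.1 ≠ 0)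
    (hu : IsUnit (1 + z.1 • sh z.2.2.1 z.2.2.2)) : ContinuousAt (ps f) z := by
  haveI := FiniteDimensional.complete ℝ E
  have c0 := hf.cd.continuous
  have c1 := hf.cd1.continuous
  have c2 := hf.cd1.continuous_deriv le_rfl
  have a : ContinuousAt (fun z : ℝ × ℝ × E × (E →L[ℝ] E) => un z.2.2.1) z :=
    ContinuousAt.comp (f := fun z : ℝ × ℝ × E × (E →L[ℝ] E) => z.2.2.1) (un_cont h) (by fun_prop)
  have b : ContinuousAt (fun z : ℝ × ℝ × E × (E →L[ℝ] E) =>
      rankOne ℝ (un z.2.2.1) (un z.2.2.1)) z :=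
    (ContinuousLinearMap.smulRightL ℝ E E).continuous₂.continuousAt.comp₂
      ((innerSL ℝ).continuous.continuousAt.comp a) a
  have b1 : ContinuousAt (fun z : ℝ × ℝ × E × (E →L[ℝ] E) => Pn (un z.2.2.1)) z :=
    continuousAt_const.sub b
  have b2 : ContinuousAt (fun z : ℝ × ℝ × E × (E →L[ℝ] E) => sh z.2.2.1 z.2.2.2) z :=
    (ContinuousAt.inv₀ (f := fun z : ℝ × ℝ × E × (E →L[ℝ] E) => ‖z.2.2.1‖) (by fun_prop)
      (norm_ne_zero_iff.2 h)).smul (b1.mul continuous_snd.snd.snd.continuousAt)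
  obtain ⟨u, hu⟩ := hu
  have b3 : ContinuousAt (fun z : ℝ × ℝ × E × (E →L[ℝ] E) => bb z.1 z.2.2.1 z.2.2.2) z :=
    (ContinuousAt.comp (f := fun z : ℝ × ℝ × E × (E →L[ℝ] E) => 1 + z.1 • sh z.2.2.1 z.2.2.2)
      (g := Ring.inverse) (hu ▸ NormedRing.inverse_continuousAt u) (by fun_prop)).mul (b2.mul b1)
  unfold ps
  fun_prop

variable (h : Geo w δ a C c)
include h

theorem Geo.ft_eq (k : Ft w c x q) : ft w c x = q := h.uniq (Classical.epsilon_spec ⟨q, k⟩) k

theorem Geo.ev (k : Ft w c x q) :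
    ContDiffAt ℝ 1 (ft w c) x ∧ ∀ᶠ y in 𝓝 x, Ft w c y (ft w c y) := by
  obtain ⟨G, g1, g2⟩ := h.loc k
  exact ⟨g1.congr_of_eventuallyEq (g2.mono fun y hy => h.ft_eq hy),
    g2.mono fun y hy => (h.ft_eq hy).symm ▸ hy⟩

theorem Geo.unit (k : Ft w c x q) :
    IsUnit (1 + q.2 • sh (grad w q.1) (fderiv ℝ (grad w) q.1)) := by
  haveI := FiniteDimensional.complete ℝ E
  rw [← sub_neg_eq_add]
  exact (Units.oneSub _ (by rw [norm_neg]; linarith [h.tsh k.1 k.2.1])).isUnit

theorem Geo.der (k : Ft w c x q) :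
    HasFDerivAt (fun y => (ft w c y).2) (innerSL ℝ (un (grad w q.1))) x ∧
    HasFDerivAt (fun y => un (grad w (ft w c y).1))
      (bb q.2 (grad w q.1) (fderiv ℝ (grad w) q.1)) x := by
  obtain ⟨c1, ev⟩ := h.ev k
  obtain rfl := h.ft_eq k
  have d := (c1.differentiableAt one_ne_zero).hasFDerivAt
  have d1 := d.fst
  have d2 := d.snd
  have d3 := HasFDerivAt.comp x (f := fun y => (ft w c y).1) (has_un h.smooth (h.ne k.1)) d1
  have e1 := ((d1.add (d2.smul d3)).congr_of_eventuallyEq (ev.mono fun y hy => hy.2.2)).unique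
    (hasFDerivAt_id x)
  have e2 := ((HasFDerivAt.comp x (f := fun y => (ft w c y).1) (has_grad h.smooth _)
    d1).congr_of_eventuallyEq (ev.mono fun y hy => hy.1.symm)).unique (hasFDerivAt_const _ x)
  generalize fderiv ℝ (ft w c) x = D at *
  have e3 : ∀ v, (D v).2 = ⟪un (grad w (ft w c x).1), v⟫ := fun v => by
    have a := congr($e2 v)
    have b := congr(⟪un (grad w (ft w c x).1), $e1 v⟫)
    simp at a
    have : ⟪un (grad w (ft w c x).1), (D v).1⟫ = 0 := by rw [un, real_inner_smul_left, a, mul_zero]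
    simpa [inner_add_right, inner_smul_right, this, inner_sh (h.ne k.1), h.n1 k.1] using b
  refine ⟨d2.congr_fderiv (ContinuousLinearMap.ext e3), d3.congr_fderiv ?_⟩
  rw [bb, eq_comm, Ring.inverse_mul_eq_iff_eq_mul _ _ _ (h.unit k)]
  ext v
  have b := congr($e1 v)
  simp [e3] at b
  simp [Pn_apply, ← eq_sub_of_add_eq ((add_assoc _ _ _).trans b)]

theorem Geo.bb_eq (k : Ft w c x q) : bb q.2 (grad w q.1) (fderiv ℝ (grad w) q.1) =
    sh (grad w q.1) (fderiv ℝ (grad w) q.1) * (Pn (un (grad w q.1)) -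
      q.2 • bb q.2 (grad w q.1) (fderiv ℝ (grad w) q.1)) := by
  have := Ring.mul_inverse_cancel_left _ (sh (grad w q.1) (fderiv ℝ (grad w) q.1) *
    Pn (un (grad w q.1))) (h.unit k)
  rw [mul_sub, ← this, add_mul, one_mul, smul_mul_assoc, mul_smul_comm]
  exact (add_sub_cancel_right _ _).symm

theorem Geo.bb_le (k : Ft w c x q) :
    ‖bb q.2 (grad w q.1) (fderiv ℝ (grad w) q.1)‖ ≤ 2 * (C / a) := by
  have p0 := div_pos h.C0 h.apos
  refine ContinuousLinearMap.opNorm_le_bound _ (by positivity) fun v => ?_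
  have e := congr($(h.bb_eq k) v)
  have a1 := (ContinuousLinearMap.le_of_opNorm_le _ (h.sh_le k.1) _).trans
    (mul_le_mul_of_nonneg_left (norm_Pn (h.n1 k.1) v) p0.le)
  have a2 := ContinuousLinearMap.le_of_opNorm_le _ (h.tsh k.1 k.2.1)
    (bb q.2 (grad w q.1) (fderiv ℝ (grad w) q.1) v)
  rw [mul_sub, mul_smul_comm, ← smul_mul_assoc] at e
  have a3 := (congrArg norm e).trans_le (norm_sub_le _ _)
  have := a3.trans (add_le_add a1 a2)
  nlinarith [norm_nonneg v]

variable (hf : Cut f c)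
include hf

theorem Geo.dich (x : E) : (∃ q, Ft w c x q ∧ |q.2| < 3 * c) ∨ ∀ p, w p = 0 → 3 * c ≤ ‖x - p‖ := by
  by_contra! k
  obtain ⟨p, hp, k2⟩ := k.2
  obtain ⟨q, q1, q2⟩ := h.ex hp (k2.trans (by linarith [h.c0]))
  exact (k.1 q q1).not_gt (q2.trans_lt k2)

theorem Geo.sd_eq (k : Ft w c x q) : sdf f c w x = f q.2 := by
  rw [sdf, if_pos ⟨q, k⟩, h.ft_eq k]

theorem Geo.far (k : ∀ p, w p = 0 → 2 * c ≤ ‖x - p‖) :
    sdf f c w x = if 0 < w x then 2 * c else -(2 * c) := by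
  by_cases e : ∃ q, Ft w c x q
  · obtain ⟨q, e⟩ := e
    have a := k _ e.1
    have c0 := h.c0
    rw [h.nrm e] at a
    have b := h.sgn e (abs_pos.1 (by linarith))
    rw [h.sd_eq hf e]
    rcases le_abs.1 a with a | a
    · rw [hf.hi _ a, if_pos (pos_of_mul_pos_right b (by linarith))]
    · rw [hf.lo _ (by linarith), if_neg (by nlinarith)]
  · exact if_neg e

theorem Geo.far_ne (k : ∀ p, w p = 0 → 3 * c ≤ ‖x - p‖) : w x ≠ 0 := fun e => by
  have := k x e
  rw [sub_self, norm_zero] at this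
  linarith [h.c0]

theorem Geo.far_ev (k : ∀ p, w p = 0 → 3 * c ≤ ‖x - p‖) :
    sdf f c w =ᶠ[𝓝 x] fun _ => if 0 < w x then 2 * c else -(2 * c) := by
  have cw := h.smooth.continuous.continuousAt (x := x)
  have : ∀ᶠ y in 𝓝 x, (0 < w y ↔ 0 < w x) := by
    rcases lt_or_gt_of_ne (h.far_ne hf k) with b | b
    · exact (cw.eventually_lt_const b).mono fun y hy => iff_of_false hy.not_gt b.not_gt
    · exact (cw.eventually_const_lt b).mono fun y hy => iff_of_true hy b
  filter_upwards [this, ball_mem_nhds x h.c0] with y y1 y2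
  rw [h.far hf fun p hp => ?_, if_congr y1 rfl rfl]
  linarith [k p hp, norm_sub_le_norm_sub_add_norm_sub x y p, mem_ball_iff_norm'.1 y2]

theorem Geo.dsd (k : Ft w c x q) :
    HasFDerivAt (sdf f c w) (innerSL ℝ (deriv f q.2 • un (grad w q.1))) x := by
  have a := HasDerivAt.comp_hasFDerivAt x (f := fun y => (ft w c y).2)
    (hf.cd.differentiable two_ne_zero _).hasDerivAt (h.der k).1
  rw [h.ft_eq k, ← map_smul] at a
  exact a.congr_of_eventuallyEq ((h.ev k).2.mono fun y hy => h.sd_eq hf hy)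

theorem Geo.jet (k : Ft w c x q) : jt (sdf f c w) x = ps f (q.2, jt w q.1) := by
  have a := (HasDerivAt.comp_hasFDerivAt x (f := fun y => (ft w c y).2)
    (hf.cd1.differentiable one_ne_zero _).hasDerivAt (h.der k).1).smul (h.der k).2
  have b := (a.congr_of_eventuallyEq ((h.ev k).2.mono fun y hy => grad_of (h.dsd hf hy))).fderiv
  rw [jt, b, h.sd_eq hf k, grad_of (h.dsd hf k), ps]
  simp only [Function.comp, h.ft_eq k, jt]
  congr 3
  ext v
  simp [mul_smul]

theorem Geo.smooth_sd : ContDiff ℝ 2 (sdf f c w) := contDiff_iff_contDiffAt.2 fun x => by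
  rcases h.dich hf x with ⟨q, k, -⟩ | k
  · obtain ⟨c1, ev⟩ := h.ev k
    refine (contDiffAt_succ_iff_hasFDerivAt (n := 1)).2 ⟨_, ⟨_, ev, fun y hy => h.dsd hf hy⟩,
      (innerSL ℝ).contDiff.contDiffAt.comp x ((hf.cd1.contDiffAt.comp x c1.snd).smul
        (ContDiffAt.comp x (f := fun y => (ft w c y).1) (cd_un h.smooth (h.ne ?_)) c1.fst))⟩
    exact ev.self_of_nhds.1
  · exact contDiffAt_const.congr_of_eventuallyEq (h.far_ev hf k)

end Vale.Agent.P218D.Sd
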