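import Vale.Agent.P218D.Defs

/-! Block SL: the statements of the rows. -/

open MeasureTheory Set Filter Topology Metric
open scoped ENNReal NNReal RealInnerProductSpace

namespace Vale.Agent.P218D

open Vale.Agent.P214 (proj IsApproxTangent)
open Vale.Agent.P218 Vale.Agent.P218.H313
open Vale.Agent.P218.H63 (IsTubeShrinker stab)
open Vale.Agent.P218.H552 (NN)

variable (E : Type*) [NormedAddCommGroup E] [InnerProductSpace ℝ E] [FiniteDimensional ℝ E]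
  [MeasurableSpace E] [BorelSpace E] (m : ℕ)

/-- static estimates with a defect (port of `H313/Static`) -/
def STAT : Prop :=
  Module.finrank ℝ E = m + 1 → ∀ c K : ℝ, 0 < c → 0 ≤ K → ∃ C : ℝ, 0 ≤ C ∧
    ∀ W Φ : E → ℝ, Tub W Φ c K → ∀ (μ : Measure E) (T : E → Submodule ℝ E) (H : E → E),
      GSlice m μ T H →
        TG μ T W 0 ≤ C * (DD μ W 0 + dis μ T H + PP μ Φ) ∧
        DD μ W 1 ≤ C * (DD μ W 0 + dis μ T H + PP μ Φ)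

/-- the almost Jacobi equation with a defect (port of `H313/Jac`) -/
def JEQ : Prop :=
  Module.finrank ℝ E = m + 1 → ∀ c K : ℝ, 0 < c → 0 ≤ K → ∀ ζ : E → ℝ, ContDiff ℝ 2 ζ →
    HasCompactSupport ζ → ∃ C : ℝ, 0 ≤ C ∧
    ∀ W Φ : E → ℝ, Tub W Φ c K → ∀ (μ : Measure E) (T : E → Submodule ℝ E) (H : E → E),
      GSlice m μ T H →
        |∫ x, W x * jac W ζ x * rho x ∂μ - ∫ x, Φ x * ζ x * rho x ∂μ|
          ≤ C * (DD μ W 0 + dis μ T H + PP μ Φ + ∫ x, ‖vel T H x‖ * rho x ∂μ)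

/-- the blow-up argument with multipliers (port of `H313/Blow`) -/
def BLOW : Prop :=
  0 < m → Module.finrank ℝ E = m + 1 → ∀ (U : Ultrafilter (ℝ × ℝ)) (N : ℝ × ℝ → Measure E)
    (T : ℝ × ℝ → E → Submodule ℝ E) (H : ℝ × ℝ → E → E) (W₀ : E → ℝ) (c K : ℝ),
    TubeD W₀ c K → Conv U m N T H (hm m W₀) →
    ∀ (k : ℕ) (ψ : Fin k → E → ℝ), (∀ j, Continuous (ψ j) ∧ HasCompactSupport (ψ j)) →
    (∀ (u : E → ℝ) (l : Fin k → ℝ), AEStronglyMeasurable u (hm m W₀) →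
      Integrable (fun p => u p ^ 2 * rho p) (hm m W₀) →
      (∀ ζ : E → ℝ, ContDiff ℝ 2 ζ → HasCompactSupport ζ →
        ∫ p, u p * jac W₀ ζ p * rho p ∂(hm m W₀)
          = ∫ p, (∑ i, l i * ψ i p) * ζ p * rho p ∂(hm m W₀)) →
      (∀ i, ∫ p, u p * ψ i p * rho p ∂(hm m W₀) = 0) → u =ᵐ[hm m W₀] 0 ∧ l = 0) →
    ∀ (W Φ : ℝ × ℝ → E → ℝ) (lam : ℝ × ℝ → Fin k → ℝ) (D : ℝ × ℝ → ℝ),
      (∀ᶠ i in (U : Filter (ℝ × ℝ)), Tub (W i) (Φ i) c K) →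
      (∀ ω > 0, ∀ᶠ i in (U : Filter (ℝ × ℝ)), Cl2 ω (W i) W₀) →
      (∀ i, D i = DD (N i) (W i) 0 + ‖lam i‖ ^ 2) →
      (∀ᶠ i in (U : Filter (ℝ × ℝ)), 0 < D i) → Tendsto D U (𝓝 0) →
      Tendsto (fun i => dis (N i) (T i) (H i) / D i) U (𝓝 0) →
      Tendsto (fun i => PP (N i) (fun p => Φ i p - ∑ j, lam i j * ψ j p) / D i) U (𝓝 0) →
      (∀ j, Tendsto (fun i => (∫ p, W i p * ψ j p * rho p ∂(N i)) / √(D i)) U (𝓝 0)) → False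

/-- Gaussian tails from the mass ratio bound -/
def TAIL : Prop :=
  ∀ C η : ℝ, 0 < η → ∃ C' : ℝ, 0 ≤ C' ∧ ∀ μ : Measure E, IsFiniteMeasureOnCompacts μ →
    Rat m μ C → ∀ R : ℝ, 0 ≤ R →
      ∫⁻ x in {x | R ≤ ‖x‖}, ENNReal.ofReal (rho x) ∂μ
        ≤ ENNReal.ofReal (C' * Real.exp (-(1 - η) * R ^ 2 / 4))

/-- the static estimate near the shrinker: gauge and blow-up -/
def GAU : Prop :=
  0 < m → Module.finrank ℝ E = m + 1 → ∀ (k : ℕ) (W₀ : E → ℝ) (ψ : Fin k → E → ℝ) (γ : ℝ)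
    (W V : (Fin k → ℝ) → ℝ → E → ℝ) (lam : (Fin k → ℝ) → ℝ → Fin k → ℝ)
    (Z : (Fin k → ℝ) → ℝ → ℝ) (c Rψ r K : ℝ), LFW m k W₀ ψ γ W V lam Z c Rψ r K →
    ∀ (N : ℝ → Measure E) (T : ℝ → E → Submodule ℝ E) (H : ℝ → E → E) (s₀ : ℝ),
      RF m N T H s₀ → IsLocallyFiniteMeasure (hm m W₀) →
      ∃ K' C : ℝ, 0 ≤ C ∧ ∀ᶠ q in nearF m N T H (hm m W₀) ×ˢ 𝓝[>] (0 : ℝ),
        ∃ x : Fin k → ℝ, ‖x‖ ≤ r ∧ q.2 ≤ r ∧ ∃ Φ : E → ℝ, Tub (W x q.2) Φ c K' ∧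
          DD (N q.1) (W x q.2) 0 + TG (N q.1) (T q.1) (W x q.2) 0 + PP (N q.1) Φ
            + ‖lam x q.2‖ ^ 2 ≤ C * (dis (N q.1) (T q.1) (H q.1) + q.2)

/-- the projection and its Jacobian, pointwise -/
def JAC : Prop :=
  Module.finrank ℝ E = m + 1 → ∀ c K : ℝ, 0 < c → 0 ≤ K → ∃ c₁ C₁ C₂ : ℝ,
    0 < c₁ ∧ c₁ < c ∧ 0 ≤ C₂ ∧ ∀ W : E → ℝ, TubeB W c K → ∀ x, |W x| ≤ c₁ →
      W (prj W x) = 0 ∧ ∀ P : Submodule ℝ E, Module.finrank ℝ P = m →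
        ENNReal.ofReal (jlo C₁ W P x)
            * (μH[m] : Measure E) ((P : Set E) ∩ {v | ‖dpr W x v‖ ≤ 1}) ≤ wm m ∧
        rho x ≤ jlo C₁ W P x * rho (prj W x)
          + C₂ * rho x * (|dft W x| * |W x| + W x ^ 2 + ‖proj P (grad W x)‖ ^ 2) ∧
        1 ≤ jlo C₁ W P x + C₂ * (|W x| + ‖proj P (grad W x)‖ ^ 2) ∧ jlo C₁ W P x ≤ 2

/-- densities of the zero set of a tube function -/
def ZS : Prop :=
  Module.finrank ℝ E = m + 1 → ∀ c K : ℝ, 0 < c → 0 ≤ K →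
    (∀ η > 0, ∃ r₁ > 0, ∀ W : E → ℝ, TubeB W c K → ∀ (y : E) (r : ℝ), 0 < r → r ≤ r₁ →
      ∫⁻ z, ENNReal.ofReal (H313.ker (r⁻¹ • (z - y))) ∂(hm m W)
        ≤ ENNReal.ofReal ((1 + η) * om m * r ^ m)) ∧
    (∀ W : E → ℝ, TubeB W c K → IsLocallyFiniteMeasure (hm m W)) ∧
    ∀ W : E → ℝ, TubeB W c K → ∀ y, W y = 0 → ∀ η > 0, ∀ᶠ r in 𝓝[>] (0 : ℝ),
      ENNReal.ofReal (r ^ m) * wm m ≤ ENNReal.ofReal (1 + η) * hm m W (closedBall y r)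

/-- the area inequality for the projection of a graph-like set of density one -/
def PROJ : Prop :=
  Module.finrank ℝ E = m + 1 → ∀ (W : E → ℝ) (c K : ℝ), TubeB W c K →
    ∀ (μ : Measure E) (T : E → Submodule ℝ E) (G : Set E) (j : E → ℝ),
      IsFiniteMeasureOnCompacts μ → MeasurableSet G → Bornology.IsBounded G →
      AEMeasurable j μ → (∀ x, 0 ≤ j x) → (∀ x ∈ G, j x ≤ 2) →
      (∀ x ∈ G, W (prj W x) = 0 ∧ IsApproxTangent m μ x 1 (T x) ∧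
        ENNReal.ofReal (j x) * (μH[m] : Measure E) ((T x : Set E) ∩ {v | ‖dpr W x v‖ ≤ 1})
          ≤ wm m) →
      (∀ x ∈ G, ∀ x' ∈ G, ‖x - x'‖ ≤ 4 * ‖prj W x - prj W x'‖) →
      ∀ f : E → ℝ≥0∞, Measurable f →
        ∫⁻ x in G, ENNReal.ofReal (j x) * f (prj W x) ∂μ ≤ ∫⁻ y, f y ∂(hm m W)

/-- the two point lemma: good points of small mass ratio have density one and form a graph -/
def TWO : Prop :=
  Module.finrank ℝ E = m + 1 → ∀ c K Cr : ℝ, 0 < c → 0 ≤ K → 0 < Cr → ∃ a r₂ c₂ : ℝ,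
    0 < a ∧ 0 < r₂ ∧ 0 < c₂ ∧ c₂ ≤ 1 ∧ ∀ r₀, 0 < r₀ → r₀ ≤ r₂ →
      ∀ (W : E → ℝ) (μ : Measure E) (T : E → Submodule ℝ E) (H : E → E) (R : ℝ),
        TubeB W c K → Slice m μ T H → Rat m μ Cr → 0 ≤ R →
        (∀ x, Good m μ T H W R a r₀ (c₂ * r₀) x → JJ m μ (fun _ => 1) x r₀ ≤ 3 / 2 * om m →
          IsApproxTangent m μ x 1 (T x)) ∧
        ∀ x x', Good m μ T H W R a r₀ (c₂ * r₀) x → JJ m μ (fun _ => 1) x r₀ ≤ 3 / 2 * om m →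
          Good m μ T H W R a r₀ (c₂ * r₀) x' → JJ m μ (fun _ => 1) x' r₀ ≤ 3 / 2 * om m →
            ‖x - x'‖ ≤ 4 * ‖prj W x - prj W x'‖

/-- the bad set has small Gaussian mass -/
def BAD : Prop :=
  ∀ Cr a r₀ h : ℝ, 0 < Cr → 0 < a → 0 < r₀ → r₀ ≤ 1 → 0 < h → ∃ C : ℝ, 0 ≤ C ∧
    ∀ (W : E → ℝ) (c K : ℝ) (μ : Measure E) (T : E → Submodule ℝ E) (H : E → E) (R : ℝ),
      TubeB W c K → GSlice m μ T H → IntT m μ T → Rat m μ Cr → 0 ≤ R →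
      ∃ G : Set E, MeasurableSet G ∧ (∀ x ∈ G, Good m μ T H W R a r₀ h x) ∧
        ∫⁻ x in closedBall (0 : E) R \ G, ENNReal.ofReal (rho x) ∂μ
          ≤ ENNReal.ofReal (C * Real.exp (3 * R) * (DD μ W 0 + TG μ T W 0 + dis μ T H))

/-- the mass ratio changes little along an inward tangential step -/
def STEP : Prop :=
  Module.finrank ℝ E = m + 1 → ∀ c K Cr η : ℝ, 0 < c → 0 ≤ K → 0 < Cr → 0 < η →
    ∃ r₃ R₁ : ℝ, 0 < r₃ ∧ 0 < R₁ ∧ ∀ r₀, 0 < r₀ → r₀ ≤ r₃ → ∃ ε₁ : ℝ, 0 < ε₁ ∧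
      ∀ (W : E → ℝ) (μ : Measure E) (T : E → Submodule ℝ E) (H : E → E) (R : ℝ) (y : E),
        TubeB W c K → Slice m μ T H → Rat m μ Cr → R₁ ≤ ‖y‖ → ‖y‖ ≤ R → |W y| ≤ r₀ →
        ∫ z in closedBall y (4 * r₀), gg T H W R z ∂μ ≤ ε₁ →
        ∃ y' : E, ‖y'‖ ≤ ‖y‖ - 5 / 2 * r₀ ∧
          JJ m μ (fun _ => 1) y r₀ ≤ JJ m μ (fun _ => 1) y' r₀ + η

/-- **mass comparison** -/
def MASS : Prop :=
  0 < m → Module.finrank ℝ E = m + 1 → ∀ c K Cr β : ℝ, 0 < c → 0 ≤ K → 0 < Cr → β < 1 →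
    ∃ r₄ : ℝ, 0 < r₄ ∧ ∀ r₀, 0 < r₀ → r₀ ≤ r₄ → ∃ R₀ C ε₀ : ℝ, 0 ≤ C ∧ 0 < ε₀ ∧
      ∀ (W Φ : E → ℝ) (μ : Measure E) (T : E → Submodule ℝ E) (H : E → E) (B Q : ℝ),
        Tub W Φ c K → GSlice m μ T H → IntT m μ T → Rat m μ Cr →
        (∀ y : E, ‖y‖ ≤ R₀ → JJ m μ (fun _ => 1) y r₀ ≤ 5 / 4 * om m) →
        0 ≤ B → ∫⁻ p, ENNReal.ofReal (rho p) ∂(hm m W) ≤ ENNReal.ofReal B →
        DD μ W 0 + TG μ T W 0 + dis μ T H + PP μ Φ ≤ Q → 0 < Q → Q ≤ ε₀ →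
        FA μ ≤ B + C * Q ^ β

/-- the signed distance function of a regular level set -/
def SD : Prop :=
  ∀ δ a C : ℝ, 0 < δ → 0 < a → ∃ c K : ℝ, 0 < c ∧ c ≤ 1 ∧ ∃ sd : (E → ℝ) → E → ℝ,
    (∀ w, Dfn w δ a C → TubeB (sd w) c K ∧ (∀ x, sd w x = 0 ↔ w x = 0) ∧
      ∀ x, |sd w x| < c → w (prj (sd w) x) = 0 ∧
        |dft (sd w) x - phiS w (prj (sd w) x)| ≤ K * sd w x ^ 2 ∧
        |w x - ‖grad w (prj (sd w) x)‖ * sd w x| ≤ K * sd w x ^ 2) ∧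
    (∀ w, Dfn w δ a C → ∀ δ' > 0, (∀ x, |w x| < δ' → ‖grad w x‖ = 1) →
      ∀ x, w x = 0 → sd w =ᶠ[𝓝 x] w) ∧
    ∀ w₀, Dfn w₀ δ a C → ∀ ω > 0, ∃ η > 0, ∀ w, Dfn w δ a C → Cl2 η w w₀ →
      Cl2 ω (sd w) (sd w₀)

/-- from defining functions to signed distances -/
def LW : Prop :=
  ∀ (k : ℕ) (S : Set E) (w₀ : E → ℝ) (δ₀ C₀ : ℝ) (ψ : Fin k → E → ℝ) (γ : ℝ)
    (w : (Fin k → ℝ) → ℝ → E → ℝ) (lam : (Fin k → ℝ) → ℝ → Fin k → ℝ)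
    (Z : (Fin k → ℝ) → ℝ → ℝ) (δ a r K : ℝ), LF m k S w₀ δ₀ C₀ ψ γ w lam Z δ a r K →
    ∃ (W₀ : E → ℝ) (W : (Fin k → ℝ) → ℝ → E → ℝ) (c Rψ r' K' : ℝ),
      (∀ x, W₀ x = 0 ↔ x ∈ S) ∧ LFW m k W₀ ψ γ W w lam (fun x ε => Z x ε - 1) c Rψ r' K'

/-- **the static Łojasiewicz inequality** -/
def SLI : Prop :=
  0 < m → Module.finrank ℝ E = m + 1 → ∀ (k : ℕ) (W₀ : E → ℝ) (ψ : Fin k → E → ℝ) (γ : ℝ)
    (W V : (Fin k → ℝ) → ℝ → E → ℝ) (lam : (Fin k → ℝ) → ℝ → Fin k → ℝ)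
    (Z : (Fin k → ℝ) → ℝ → ℝ) (c Rψ r K : ℝ), LFW m k W₀ ψ γ W V lam Z c Rψ r K →
    ∀ (N : ℝ → Measure E) (T : ℝ → E → Submodule ℝ E) (H : ℝ → E → E) (s₀ : ℝ),
      RF m N T H s₀ → IsLocallyFiniteMeasure (hm m W₀) →
      ∃ β C : ℝ, 1 / 2 < β ∧ ∀ᶠ s in nearI m N T H (hm m W₀),
        FA (N s) - FA (hm m W₀) ≤ C * dis (N s) (T s) (H s) ^ β

/-- dynamics: the static inequality gives convergence of the rescaled flow -/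
def DYN : Prop :=
  ∀ (N : ℝ → Measure E) (T : ℝ → E → Submodule ℝ E) (H : ℝ → E → E) (s₀ : ℝ) (κ : Measure E),
    RF m N T H s₀ → (∀ᵐ s : ℝ, s₀ ≤ s → IntT m (N s) (T s)) → IsLocallyFiniteMeasure κ →
    (∃ τ : ℕ → ℝ, Tendsto τ atTop atTop ∧ WeakTendsto (fun i => N (τ i)) κ) →
    ∀ β C : ℝ, 1 / 2 < β →
      (∀ᶠ s in nearI m N T H κ, FA (N s) - FA κ ≤ C * dis (N s) (T s) (H s) ^ β) →
      ∀ φ : E → ℝ, ContDiff ℝ 2 φ → HasCompactSupport φ →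
        ∃ L, Tendsto (fun s => ∫ x, φ x ∂(N s)) atTop (𝓝 L)

/-- the rescaled flow has integral slices -/
def INT : Prop :=
  ∀ μ : ℝ → Measure E, IsIntegralBrakkeFlow m μ → μ 0 univ < ⊤ → ∀ (x₀ : E) (t₀ : ℝ), 0 < t₀ →
    ∃ (T : ℝ → E → Submodule ℝ E) (H : ℝ → E → E) (s₀ : ℝ),
      RF m (fun s => NN m μ x₀ t₀ (s / 2)) T H s₀ ∧
        ∀ᵐ s : ℝ, s₀ ≤ s → IntT m (NN m μ x₀ t₀ (s / 2)) (T s)

/-- **the theorem of the block**: `LF` implies uniqueness of the tangent flow -/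
def MAIN : Prop :=
  0 < m → Module.finrank ℝ E = m + 1 →
    ∀ (k : ℕ) (S : Set E) (w₀ : E → ℝ) (δ₀ C₀ : ℝ) (ψ : Fin k → E → ℝ) (γ : ℝ)
      (w : (Fin k → ℝ) → ℝ → E → ℝ) (lam : (Fin k → ℝ) → ℝ → Fin k → ℝ)
      (Z : (Fin k → ℝ) → ℝ → ℝ) (δ a r K : ℝ), LF m k S w₀ δ₀ C₀ ψ γ w lam Z δ a r K →
      ∀ μ : ℝ → Measure E, IsIntegralBrakkeFlow m μ → μ 0 univ < ⊤ → ∀ (x₀ : E) (t₀ : ℝ),
        0 < t₀ → (μH[m] : Measure E).restrict S ∈ tangentSlices m μ x₀ t₀ →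
          TangentFlowUnique m μ x₀ t₀

end Vale.Agent.P218D
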