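import Vale.Agent.P218D.Bas

/-! Block SL: the static estimates and the almost Jacobi equation with a defect. -/

open MeasureTheory Set Filter Topology Metric
open scoped ENNReal NNReal RealInnerProductSpace

namespace Vale.Agent.P218D

open Vale.Agent.P214 (proj divAlong)
open Vale.Agent.P218 Vale.Agent.P218.H313

set_option linter.unusedSectionVars false
set_option linter.unusedVariables false

variable {E : Type*} [NormedAddCommGroup E] [InnerProductSpace ℝ E] [FiniteDimensional ℝ E]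
  [MeasurableSpace E] [BorelSpace E]
variable {m : ℕ} {c K : ℝ}
variable {μ : Measure E} {T : E → Submodule ℝ E} {H : E → E} {W Φ : E → ℝ}

namespace Stat

lemma far {w c M u : ℝ} (hc : 0 < c) (hw : c ≤ |w|) (hM : 0 ≤ M) (hu : u ≤ M) :
    u ≤ M / c ^ 2 * w ^ 2 := by
  have : c ^ 2 ≤ w ^ 2 := by rw [← sq_abs w]; gcongr
  rw [div_mul_eq_mul_div, le_div_iff₀ (by positivity)]
  exact (mul_le_mul_of_nonneg_right hu (by positivity)).trans (by gcongr)

/-- the error in the shrinker equation along a plane -/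
lemma err (hE : Module.finrank ℝ E = m + 1) (hc : 0 < c) (hK : 0 ≤ K) :
    ∃ C : ℝ, 0 ≤ C ∧ ∀ W Φ : E → ℝ, Tub W Φ c K → ∀ (x : E) (T : Submodule ℝ E),
      Module.finrank ℝ T = m →
      |tr ((proj T).comp (fderiv ℝ (grad W) x)) - 1 / 2 * ⟪x, grad W x⟫
        + (tr ((fderiv ℝ (grad W) x).comp (fderiv ℝ (grad W) x)) + 1 / 2) * W x - Φ x|
        ≤ C * (W x ^ 2 + ‖proj T (grad W x)‖ ^ 2) := by
  obtain ⟨n, hn⟩ : ∃ n : ℝ, n = Module.finrank ℝ E := ⟨_, rfl⟩
  have hn0 : 0 ≤ n := by rw [hn]; positivity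
  obtain ⟨M, hM⟩ : ∃ M, M = n * K + K + (n * K ^ 2 + 1) * K + K := ⟨_, rfl⟩
  have hM0 : 0 ≤ M := by rw [hM]; positivity
  refine ⟨K + M / c ^ 2, by positivity, fun W Φ hW x T hT => ?_⟩
  have h0 : 0 ≤ M / c ^ 2 := by positivity
  have hw := sq_nonneg (W x)
  have hp := sq_nonneg ‖proj T (grad W x)‖
  by_cases hx : |W x| < c
  · have h1 := hW.toTubeB.trace_est hE x T hT hx
    refine (abs_sub_le _ (dft W x) _).trans ((add_le_add h1 (hW.ric x hx)).trans ?_)
    nlinarith [mul_nonneg h0 hw, mul_nonneg h0 hp]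
  · refine (far hc (not_lt.1 hx) hM0 ?_).trans (by nlinarith [mul_nonneg h0 hp])
    have e1 := abs_le.1 ((abs_tr_proj_comp_le T (fderiv ℝ (grad W) x)).trans
      (mul_le_mul_of_nonneg_left (hW.b2 x) (Nat.cast_nonneg _)))
    have e2 := abs_le.1 (hW.bx x)
    have e3 := abs_le.1 (hW.bp x)
    have e4 : |(tr ((fderiv ℝ (grad W) x).comp (fderiv ℝ (grad W) x)) + 1 / 2) * W x|
        ≤ (n * K ^ 2 + 1) * K := by
      have := abs_le.1 (hW.toTubeB.q_le x)
      rw [abs_mul, hn]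
      exact mul_le_mul (abs_le.2 ⟨by linarith, by linarith⟩) (hW.b0 x) (abs_nonneg _)
        (by positivity)
    have e5 := abs_le.1 e4
    rw [← hn] at e1
    rw [hM]
    exact abs_le.2 ⟨by linarith, by linarith⟩

/-- the error in the tangential Laplacian -/
lemma err2 (hE : Module.finrank ℝ E = m + 1) (hc : 0 < c) (hK : 0 ≤ K) :
    ∃ C : ℝ, 0 ≤ C ∧ ∀ W : E → ℝ, TubeB W c K → ∀ (x : E) (T : Submodule ℝ E),
      Module.finrank ℝ T = m → ∀ D : E →L[ℝ] E,
      |W x * (tr D - ⟪D (grad W x), grad W x⟫ - tr ((proj T).comp D))|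
        ≤ C * ‖D‖ * (W x ^ 2 + ‖proj T (grad W x)‖ ^ 2) := by
  obtain ⟨n, hn⟩ : ∃ n : ℝ, n = Module.finrank ℝ E := ⟨_, rfl⟩
  have hn0 : 0 ≤ n := by rw [hn]; positivity
  refine ⟨2 + K * (2 * n + K ^ 2) / c ^ 2, by positivity, fun W hW x T hT D => ?_⟩
  have hD := norm_nonneg D
  have h0 : 0 ≤ K * (2 * n + K ^ 2) / c ^ 2 * ‖D‖ := by positivity
  have hw := sq_nonneg (W x)
  have hp := sq_nonneg ‖proj T (grad W x)‖
  rw [abs_mul]
  by_cases hx : |W x| < c
  · have h1 := hW.hess_est hE x T hT hx D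
    rw [abs_sub_comm] at h1
    refine (mul_le_mul_of_nonneg_left h1 (abs_nonneg _)).trans ?_
    nlinarith [mul_nonneg h0 hw, mul_nonneg h0 hp, sq_abs (W x),
      mul_nonneg hD (sq_nonneg (|W x| - ‖proj T (grad W x)‖))]
  · refine (far hc (not_lt.1 hx) (M := K * ((2 * n + K ^ 2) * ‖D‖)) (by positivity)
      (mul_le_mul (hW.b0 x) ?_ (abs_nonneg _) hK)).trans ?_
    · have e1 := abs_le.1 (abs_tr_le D)
      have e2 := abs_le.1 (abs_tr_proj_comp_le T D)
      have e3 : |⟪D (grad W x), grad W x⟫| ≤ ‖D‖ * K * K :=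
        (abs_real_inner_le_norm _ _).trans (mul_le_mul ((D.le_opNorm _).trans
          (mul_le_mul_of_nonneg_left (hW.b1 x) hD)) (hW.b1 x) (norm_nonneg _) (by positivity))
      have e4 := abs_le.1 e3
      rw [← hn] at e1 e2
      exact abs_le.2 ⟨by linarith, by linarith⟩
    · rw [show K * ((2 * n + K ^ 2) * ‖D‖) / c ^ 2 = K * (2 * n + K ^ 2) / c ^ 2 * ‖D‖ by ring]
      nlinarith [mul_nonneg h0 hp, mul_nonneg hD hw, mul_nonneg hD hp]

/-- the integrand of the weighted first variation -/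
noncomputable def fv (T : E → Submodule ℝ E) (H X : E → E) (x : E) : ℝ :=
  divAlong (T x) X x - 1 / 2 * ⟪x, X x⟫ + ⟪X x, vel T H x⟫

lemma fv_int (hS : GSlice m μ T H) {X : E → E} (hX : PG X) :
    Integrable (fun x => fv T H X x * rho x) μ ∧ ∫ x, fv T H X x * rho x ∂μ = 0 := by
  have i1 : Integrable (fun x => (divAlong (T x) X x - 1 / 2 * ⟪x, X x⟫) * rho x) μ :=
    ((hS.integrable_div hX.cd hX.b1).sub ((hS.integrable_PB (continuous_id.inner
      hX.cont).aestronglyMeasurable (PB.id'.inner' hX.b0)).const_mul (1 / 2))).congr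
      (Eventually.of_forall fun x => by simp only [Pi.sub_apply, id]; ring)
  have i2 := hS.integrable_inner_vel hX.cont.aestronglyMeasurable hX.b0
  simp only [fv, add_mul]
  exact ⟨i1.add i2, by rw [integral_add i1 i2, hS.wfv hX.cd hX.b0 hX.b1, neg_add_cancel]⟩

/-- integration of a pointwise inequality -/
lemma le_of_fv (hS : GSlice m μ T H) {X : E → E} (hX : PG X) {u a b d : E → ℝ} {j k l : ℝ}
    (hu : Integrable (fun x => u x * rho x) μ) (ha : Integrable (fun x => a x * rho x) μ)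
    (hb : Integrable (fun x => b x * rho x) μ) (hd : Integrable (fun x => d x * rho x) μ) (s : ℝ)
    (h : ∀ x, Module.finrank ℝ (T x) = m → u x ≤ j * a x + k * b x + l * d x + s * fv T H X x) :
    ∫ x, u x * rho x ∂μ ≤ j * ∫ x, a x * rho x ∂μ + k * ∫ x, b x * rho x ∂μ
      + l * ∫ x, d x * rho x ∂μ := by
  obtain ⟨i1, i2⟩ := fv_int hS hX
  have i3 := ((ha.const_mul j).add (hb.const_mul k)).add (hd.const_mul l)
  have := integral_add i3 (i1.const_mul s)
  rw [integral_const_mul, i2, mul_zero, add_zero] at this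
  rw [← integral_comb ha hb hd]
  refine le_of_le_of_eq (integral_mono_ae hu (i3.add (i1.const_mul s)) ?_) this
  filter_upwards [hS.mc.dim] with x hx
  refine (mul_le_mul_of_nonneg_right (h x hx) (rho_pos x).le).trans_eq ?_
  simp only [Pi.add_apply]
  ring

lemma DD0 : DD μ W 0 = ∫ x, W x ^ 2 * rho x ∂μ := by simp [DD]

lemma TG0 : TG μ T W 0 = ∫ x, ‖proj (T x) (grad W x)‖ ^ 2 * rho x ∂μ := by simp [TG, wt]

lemma iDD (hS : GSlice m μ T H) (hW : TubeB W c K) : Integrable (fun x => W x ^ 2 * rho x) μ := by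
  simpa [wt] using int_DD hS hW 0

lemma iTG (hS : GSlice m μ T H) (hW : TubeB W c K) :
    Integrable (fun x => ‖proj (T x) (grad W x)‖ ^ 2 * rho x) μ := by
  simpa [wt] using int_TG hS hW 0

lemma TG_le (hE : Module.finrank ℝ E = m + 1) (hc : 0 < c) (hK : 0 ≤ K) :
    ∃ C : ℝ, 0 ≤ C ∧ ∀ W Φ : E → ℝ, Tub W Φ c K → ∀ (μ : Measure E) (T : E → Submodule ℝ E)
      (H : E → E), GSlice m μ T H → TG μ T W 0 ≤ C * (DD μ W 0 + dis μ T H + PP μ Φ) := by
  obtain ⟨C, hC, h⟩ := err (E := E) hE hc hK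
  obtain ⟨A, hA⟩ : ∃ A, A = 2 * K * C + C ^ 2 * K ^ 2 + 2 * (Module.finrank ℝ E * K ^ 2) + 2
    + K ^ 2 := ⟨_, rfl⟩
  have hA0 : 0 ≤ A := by rw [hA]; positivity
  refine ⟨A + 1, by positivity, fun W Φ hΦ μ T H hS => ?_⟩
  have hW := hΦ.toTubeB
  have := le_of_fv hS (hW.pg.smul hW.pg_grad) (j := A) (k := 1) (l := 1) (iTG hS hW) (iDD hS hW)
    hS.int_vel_sq (int_PP hS hΦ.meas hΦ.bp) 2 fun x hx => by
      have h1 := h W Φ hΦ x (T x) hx
      have h2 := (abs_le.1 (hW.q_le x)).2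
      have h3 : |⟪grad W x, vel T H x⟫| ≤ K * ‖vel T H x‖ := (abs_real_inner_le_norm _ _).trans
        (mul_le_mul_of_nonneg_right (hW.b1 x) (norm_nonneg _))
      have h4 : ‖proj (T x) (grad W x)‖ ^ 2 ≤ K ^ 2 :=
        pow_le_pow_left₀ (norm_nonneg _) ((norm_proj_apply_le _ _).trans (hW.b1 x)) 2
      rw [fv, divAlong_smul (T x) (hW.diff x) (hW.pg_grad.diff x), ← norm_proj_sq, divAlong_eq,
        real_inner_smul_right, real_inner_smul_left, hA]
      have h5 := (neg_le_abs _).trans ((abs_mul (W x) _).trans_le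
        (mul_le_mul_of_nonneg_left h1 (abs_nonneg _)))
      have h6 := (neg_le_abs _).trans ((abs_mul (W x) _).trans_le
        (mul_le_mul_of_nonneg_left h3 (abs_nonneg _)))
      have h7 := mul_le_mul_of_nonneg_right h2 (sq_nonneg (W x))
      have h8 := mul_le_mul_of_nonneg_right (hW.b0 x) (mul_nonneg hC (sq_nonneg (W x)))
      have h9 := mul_le_mul_of_nonneg_left h4 (sq_nonneg (C * W x))
      have h10 := sq_nonneg (|W x| * C * ‖proj (T x) (grad W x)‖ - ‖proj (T x) (grad W x)‖)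
      have h11 := sq_nonneg (|W x| * K - ‖vel T H x‖)
      have h12 := sq_nonneg (W x + Φ x)
      rw [sub_sq, mul_pow, mul_pow, sq_abs] at h10
      rw [sub_sq, mul_pow, sq_abs] at h11
      linarith
  rw [← TG0, ← DD0] at this
  have h1 := DD_nonneg (μ := μ) (W := W) 0
  have h2 := mul_nonneg hA0 (dis_nonneg (μ := μ) (T := T) (H := H))
  have h3 := mul_nonneg hA0 (PP_nonneg (μ := μ) (Φ := Φ))
  change _ ≤ _ + 1 * dis μ T H + 1 * PP μ Φ at this
  linarith

lemma DD_le (hS : GSlice m μ T H) (hW : TubeB W c K) :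
    DD μ W 1 ≤ (1 + 4 * m) * DD μ W 0 + 32 * TG μ T W 0 + 8 * K ^ 2 * dis μ T H := by
  rw [TG0, DD0]
  refine le_of_fv hS ((hW.pg.pow 2).smul PG.id') (int_DD hS hW 1) (iDD hS hW) (iTG hS hW)
    hS.int_vel_sq (-4) fun x hx => ?_
  rw [fv, divAlong_smul (T x) ((hW.pg.pow 2).diff x) differentiableAt_fun_id, divAlong_id, hx,
    grad_sq (hW.diff x), map_smul, real_inner_smul_left, real_inner_smul_right,
    real_inner_smul_left, real_inner_self_eq_norm_sq, pow_one]
  have h1 := (le_abs_self _).trans ((abs_mul (W x) _).trans_le (mul_le_mul_of_nonneg_left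
    (abs_real_inner_le_norm (proj (T x) (grad W x)) x) (abs_nonneg _)))
  have h2 := mul_le_mul_of_nonneg_left (real_inner_le_norm x (vel T H x)) (sq_nonneg (W x))
  have h3 := sq_nonneg (|W x| * ‖x‖ - 8 * ‖proj (T x) (grad W x)‖)
  have h4 := mul_nonneg (sq_nonneg (W x)) (sq_nonneg (‖x‖ - 4 * ‖vel T H x‖))
  have h5 := mul_le_mul_of_nonneg_right (sq_le_sq' (abs_le.1 (hW.b0 x)).1 (abs_le.1 (hW.b0 x)).2)
    (sq_nonneg ‖vel T H x‖)
  rw [sub_sq, mul_pow, sq_abs] at h3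
  linarith

lemma fv_sub {X Y : E → E} (hX : PG X) (hY : PG Y) (x : E) :
    fv T H (fun x => X x - Y x) x = fv T H X x - fv T H Y x := by
  simp only [fv, divAlong_eq, fderiv_fun_sub (hX.diff x) (hY.diff x), ContinuousLinearMap.comp_sub,
    tr_sub, inner_sub_left, inner_sub_right]
  ring

end Stat

open Stat

theorem stat : STAT E m := fun hE c K hc hK => by
  obtain ⟨C, hC, h⟩ := TG_le (E := E) hE hc hK
  refine ⟨1 + 4 * m + 32 * C + 8 * K ^ 2, by positivity, fun W Φ hΦ μ T H hS => ?_⟩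
  have h0 := h W Φ hΦ μ T H hS
  have h1 := DD_nonneg (μ := μ) (W := W) 0
  have h2 := dis_nonneg (μ := μ) (T := T) (H := H)
  have h3 := PP_nonneg (μ := μ) (Φ := Φ)
  have h4 : (0 : ℝ) ≤ 1 + 4 * m := by positivity
  have h5 : 0 ≤ 8 * K ^ 2 := by positivity
  refine ⟨h0.trans (mul_le_mul_of_nonneg_right (by linarith) (by positivity)), ?_⟩
  nlinarith [DD_le hS hΦ.toTubeB, mul_nonneg h4 h2, mul_nonneg h4 h3, mul_nonneg h5 h1,
    mul_nonneg h5 h3]

theorem jeq : JEQ E m := fun hE c K hc hK ζ hζ hζc => by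
  obtain ⟨B, hB, hζ0, hζ1, hζ2⟩ := exists_bounds2 hζ hζc
  obtain ⟨C₁, hC₁, h₁⟩ := err (E := E) hE hc hK
  obtain ⟨C₂, hC₂, h₂⟩ := err2 (E := E) hE hc hK
  obtain ⟨C, hC, h⟩ := TG_le (E := E) hE hc hK
  obtain ⟨A, hA⟩ : ∃ A, A = C₂ * B + B * C₁ := ⟨_, rfl⟩
  have hA0 : 0 ≤ A := by rw [hA]; positivity
  refine ⟨A + A * C + 2 * (B * K), by positivity, fun W Φ hΦ μ T H hS => ?_⟩
  have hW := hΦ.toTubeB
  have p0 : PG ζ := PG.of_compact (hζ.of_le (by norm_num)) hζc
  have p1 : PG (grad ζ) := PG.of_compact (contDiff_grad_one hζ) (hasCompactSupport_grad hζc)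
  have iv : Integrable (fun x => ‖vel T H x‖ * rho x) μ := by
    refine hS.integrable hS.vel_meas.norm (C := 1) (p := 0) (Eventually.of_forall fun x => ?_)
    rw [abs_of_nonneg (norm_nonneg _)]
    nlinarith [sq_nonneg (‖vel T H x‖ - 1), norm_nonneg (vel T H x)]
  have iJ : Integrable (fun x => W x * jac W ζ x * rho x) μ :=
    hS.integrable_PB (hW.cont.mul (hW.continuous_jac hζ)).aestronglyMeasurable
      (hW.pg.b0.mul (PB.of_compact (hW.continuous_jac hζ) (hasCompactSupport_jac hζc)))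
  have iP : Integrable (fun x => Φ x * ζ x * rho x) μ :=
    hS.integrable_PB (hΦ.meas.mul p0.cont.measurable).aestronglyMeasurable
      ((PB.of_bound (C := K) hΦ.bp).mul p0.b0)
  have key : ∀ x, Module.finrank ℝ (T x) = m → |W x * jac W ζ x - Φ x * ζ x
      - fv T H (fun x => W x • grad ζ x - ζ x • grad W x) x|
      ≤ A * W x ^ 2 + A * ‖proj (T x) (grad W x)‖ ^ 2 + 2 * (B * K) * ‖vel T H x‖ := fun x hx => by
    have e1 := abs_le.1 ((h₂ W hW x (T x) hx (fderiv ℝ (grad ζ) x)).trans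
      (mul_le_mul_of_nonneg_right (mul_le_mul_of_nonneg_left (hζ2 x) hC₂) (by positivity)))
    have e2 := abs_le.1 ((abs_mul _ _).trans_le
      (mul_le_mul (hζ0 x) (h₁ W Φ hΦ x (T x) hx) (abs_nonneg _) hB))
    have e3 := abs_le.1 ((abs_mul _ _).trans_le (mul_le_mul (hW.b0 x)
      ((abs_real_inner_le_norm _ (vel T H x)).trans
        (mul_le_mul_of_nonneg_right (hζ1 x) (norm_nonneg _))) (abs_nonneg _) hK))
    have e4 := abs_le.1 ((abs_mul _ _).trans_le (mul_le_mul (hζ0 x)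
      ((abs_real_inner_le_norm _ (vel T H x)).trans
        (mul_le_mul_of_nonneg_right (hW.b1 x) (norm_nonneg _))) (abs_nonneg _) hB))
    rw [fv_sub (hW.pg.smul p1) (p0.smul hW.pg_grad), fv, fv,
      divAlong_smul (T x) (hW.diff x) (p1.diff x),
      divAlong_smul (T x) (p0.diff x) (hW.pg_grad.diff x), H552.inner_proj_left,
      real_inner_smul_right, real_inner_smul_right, real_inner_smul_left, real_inner_smul_left,
      divAlong_eq, divAlong_eq, real_inner_comm (proj (T x) (grad ζ x)) (grad W x), jac, hA]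
    exact abs_le.2 ⟨by linarith, by linarith⟩
  have iu : ∀ s : ℝ, Integrable (fun x => s * (W x * jac W ζ x - Φ x * ζ x) * rho x) μ := fun s =>
    ((iJ.sub iP).const_mul s).congr (Eventually.of_forall fun x => by
      simp only [Pi.sub_apply]; ring)
  have e : ∀ s : ℝ, ∫ x, s * (W x * jac W ζ x - Φ x * ζ x) * rho x ∂μ
      = s * (∫ x, W x * jac W ζ x * rho x ∂μ - ∫ x, Φ x * ζ x * rho x ∂μ) := fun s => by
    rw [← integral_sub iJ iP, ← integral_const_mul]
    exact integral_congr_ae (Eventually.of_forall fun x => by ring)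
  have pX := (hW.pg.smul p1).sub (p0.smul hW.pg_grad)
  have b1 := le_of_fv hS pX (j := A) (k := A) (l := 2 * (B * K)) (iu 1) (iDD hS hW) (iTG hS hW)
    iv 1 fun x hx => by
    linarith [(abs_le.1 (key x hx)).2]
  have b2 := le_of_fv hS pX (j := A) (k := A) (l := 2 * (B * K)) (iu (-1)) (iDD hS hW) (iTG hS hW)
    iv (-1) fun x hx => by
    linarith [(abs_le.1 (key x hx)).1]
  rw [e, ← TG0, ← DD0] at b1 b2
  have h0 := mul_le_mul_of_nonneg_left (h W Φ hΦ μ T H hS) hA0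
  have h1 := DD_nonneg (μ := μ) (W := W) 0
  have h2 := dis_nonneg (μ := μ) (T := T) (H := H)
  have h3 := PP_nonneg (μ := μ) (Φ := Φ)
  have h4 : 0 ≤ ∫ x, ‖vel T H x‖ * rho x ∂μ :=
    integral_nonneg fun x => mul_nonneg (norm_nonneg _) (rho_pos x).le
  have h5 := mul_nonneg hA0 (add_nonneg (add_nonneg h2 h3) h4)
  have h6 := mul_nonneg (mul_nonneg hA0 hC) h4
  have h7 := mul_nonneg (mul_nonneg hB hK) (add_nonneg (add_nonneg h1 h2) h3)
  exact abs_le.2 ⟨by linarith, by linarith⟩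

end Vale.Agent.P218D
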